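import Vale.Agent.P073Y.Gc.FixSk
import Vale.Agent.P073Y.Gd.Good2
import Vale.Agent.P073Z.ACC.Mid

/-!
# The construction for a fixed shift
-/

open Set Metric Topology Filter MeasureTheory
open scoped ENNReal NNReal

namespace P073

namespace Gc

open Me (dy)
open An (M3)
open M2 Zn
open _root_.P073.Top
open Nr (nrc nrs farE Ref Pre2)
open Vale.Agent.P073.HB (GoodSeg)

namespace Fx

/-- the constant -/
noncomputable def cf (a c e m u w : ℝ≥0∞) : ℝ≥0∞ :=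
  a * (c * (u * (e + w * (m + 1344 * m ^ 6)) + (u + 1) * (w * m)) + 346)

theorem arith {a a' c e m u w Φ E N R Fa L X₀ X₁ G T β β' c₂ θ τ τ' v t t' δ δ₀ : ℝ≥0∞}
    (h1 : E ≤ N + a' * (τ' * v) + a * (R + (t' + β' * (8 * c₂ + 336 * θ * v))))
    (h2 : N ≤ Φ + Fa) (h3 : R + Fa ≤ c * L + δ)
    (h4 : L ≤ u * (e * β * θ * v + w * (m * X₀ + 4 * m ^ 6 * β' * (8 * c₂ + 336 * θ * v)) + δ) +
      (u * G + T * (1 + G)) * (w * (m * X₁) + δ) + δ)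
    (ha : 1 ≤ a) (ha' : a' ≤ a) (hβ : β' ≤ β) (hτ : τ' ≤ 9 * τ) (ht : t' ≤ t)
    (hδ : a * (c * (u + (u * G + T * (1 + G)) + 1) + 1) * δ ≤ δ₀) :
    E ≤ Φ + cf a c e m u w * (X₀ + (1 + G) * (1 + T) * X₁ + β * (c₂ + θ * v) + τ * v + t) + δ₀ := by
  obtain ⟨Z, hZ⟩ : ∃ Z, Z = X₀ + (1 + G) * (1 + T) * X₁ + β * (c₂ + θ * v) + τ * v + t := ⟨_, rfl⟩
  have z1 : X₀ ≤ Z := hZ ▸ le_self_add.trans (le_self_add.trans (le_self_add.trans le_self_add))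
  have z2 : (1 + G) * (1 + T) * X₁ ≤ Z :=
    hZ ▸ le_add_self.trans (le_self_add.trans (le_self_add.trans le_self_add))
  have z3 : β * (c₂ + θ * v) ≤ Z := hZ ▸ le_add_self.trans (le_self_add.trans le_self_add)
  have z4 : τ * v ≤ Z := hZ ▸ le_add_self.trans le_self_add
  have z5 : t ≤ Z := hZ ▸ le_add_self
  have z6 : β' * (8 * c₂ + 336 * θ * v) ≤ 336 * Z :=
    calc _ ≤ β * (336 * c₂ + 336 * θ * v) := by gcongr; norm_num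
      _ = 336 * (β * (c₂ + θ * v)) := by ring
      _ ≤ _ := by gcongr
  have z7 : β * θ * v ≤ Z := le_trans (by rw [mul_assoc]; gcongr; exact le_add_self) z3
  have z8 : (u * G + T * (1 + G)) * X₁ ≤ (u + 1) * Z :=
    calc _ ≤ (u * G + T * (1 + G) + (u * (1 + T * (1 + G)) + (1 + G))) * X₁ :=
        mul_le_mul_left le_self_add _
      _ = (u + 1) * ((1 + G) * (1 + T) * X₁) := by ring
      _ ≤ _ := by gcongr
  have z9 : L ≤ (u * (e + w * (m + 1344 * m ^ 6)) + (u + 1) * (w * m)) * Z +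
      (u + (u * G + T * (1 + G)) + 1) * δ :=
    calc L ≤ u * (e * (β * θ * v) + w * (m * X₀ + 4 * m ^ 6 * (β' * (8 * c₂ + 336 * θ * v)))) +
          w * m * ((u * G + T * (1 + G)) * X₁) + (u + (u * G + T * (1 + G)) + 1) * δ :=
        h4.trans_eq (by ring)
      _ ≤ u * (e * Z + w * (m * Z + 4 * m ^ 6 * (336 * Z))) + w * m * ((u + 1) * Z) +
          (u + (u * G + T * (1 + G)) + 1) * δ := by gcongr
      _ = _ := by ring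
  rw [← hZ]
  calc E ≤ Φ + a * Fa + a * (9 * τ * v) + a * (R + (Z + 336 * Z)) := by
        refine h1.trans ?_
        gcongr
        exacts [h2.trans (add_le_add le_rfl (le_mul_of_one_le_left zero_le ha)), ht.trans z5]
    _ = Φ + a * (R + Fa) + a * (9 * (τ * v)) + a * (337 * Z) := by ring
    _ ≤ Φ + a * (c * ((u * (e + w * (m + 1344 * m ^ 6)) + (u + 1) * (w * m)) * Z +
          (u + (u * G + T * (1 + G)) + 1) * δ) + δ) + a * (9 * Z) + a * (337 * Z) :=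
        add_le_add (add_le_add (add_le_add le_rfl (mul_le_mul_right
          (h3.trans (add_le_add (mul_le_mul_right z9 _) le_rfl)) _)) (by gcongr)) le_rfl
    _ = Φ + cf a c e m u w * Z + a * (c * (u + (u * G + T * (1 + G)) + 1) + 1) * δ := by
        rw [cf]; ring
    _ ≤ _ := by gcongr

theorem exists_small {c δ δ' : ℝ≥0∞} (hc : c ≠ ⊤) (h : 0 < δ) (h' : 0 < δ') :
    ∃ e, 0 < e ∧ e ≤ δ' ∧ c * e ≤ δ :=
  ⟨min δ' (δ / c), lt_min h' (ENNReal.div_pos h.ne' hc), min_le_left _ _,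
    (mul_le_mul_right (min_le_right _ _) _).trans ENNReal.mul_div_le⟩

variable {Ω : Set E3} {P : Par} {σ : E3 → ℝ} {𝓒 : Set (ℕ × (Fin 3 → ℤ))} {M₀ : ℝ≥0}
  {Mt : Ty → ℕ → ℝ≥0} {S₀ : Set E3} {S : Ty → ℕ → Set E3} (𝓜 : Mesh2 Ω P σ 𝓒 M₀ Mt S₀ S)

theorem meet_U {j : Fin P.N} {c : 𝓜.Q.ι} (h : (𝓜.Q.cell c ∩ P.U j).Nonempty) :
    𝓜.Q.cell c ⊆ cthickening (100 * (P.T j).b * P.η) (P.K j) := fun y hy => by
  obtain ⟨x, hx, h1⟩ := id h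
  obtain ⟨z, hz, h2⟩ := mem_thickening_iff.1 h1
  have h3 : (0 : ℝ) ≤ (P.T j).b * P.η := mul_nonneg (Nat.cast_nonneg _) Cube.eta_pos.le
  exact mem_cthickening_of_dist_le y z _ _ hz (by
    linarith [𝓜.near_diam c j h y hy x hx, dist_triangle y x z])

theorem U_sub (j : Fin P.N) : P.U j ⊆ cthickening (100 * (P.T j).b * P.η) (P.K j) :=
  thickening_subset_cthickening_of_le (by
    nlinarith [mul_nonneg (Nat.cast_nonneg (P.T j).b : (0:ℝ) ≤ _) (Cube.eta_pos (P := P)).le]) _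

theorem far_off {c : 𝓜.Q.ι} (h : 𝓜.far c) {x : E3} (hx : x ∈ 𝓜.Q.cell c) (j : Fin P.N) :
    x ∉ P.K j := fun hK => disjoint_left.1 (𝓜.far_K c j h) hx (self_subset_thickening (by
      have h1 : (0:ℝ) < (P.T j).b := by exact_mod_cast (P.T j).b_pos
      have h2 := Cube.eta_pos (P := P)
      positivity) _ hK)

theorem wires {R : E3 → E3 → Prop} (h : ∀ x y : E3, segment ℝ x y ⊆ Ω → (∀ i, ∃ q : ℚ, x i = P.w i + q) →
    (∀ i, ∃ q : ℚ, y i = P.w i + q) → R x y) (e : 𝓜.Q'.ι) (x y : E3) (he : 𝓜.Q'.dim e = 1)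
    (hs : 𝓜.Q'.cell e = segment ℝ x y) : R x y := by
  obtain ⟨-, ⟨v, hv, hx⟩, v', hv', hy⟩ := Mid.ends 𝓜.cvx' he hs
  exact h x y (hs ▸ (𝓜.Q'.cell_subset_carrier e).trans 𝓜.carrier'.le) (𝓜.rat' v hv x hx)
    (𝓜.rat' v' hv' y hy)

end Fx

open Fx

theorem fix {p : ℝ} (hp : 1 ≤ p) (h3 : p < 3) : FIX p := by
  obtain ⟨K₂, hS⟩ := start
  obtain ⟨C, CR, hR⟩ := fare hp h3
  have p0 : 0 < p := one_pos.trans_le hp
  refine ⟨K₂, CR, fun m u => (cf (2 ^ p) (C + 2 * m * CR m + 1)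
    (672 * (m : ℝ≥0∞) ^ 5 * ((m : ℝ≥0∞) ^ p + 4 * m ^ 2)) m u ((2 * m * K₂) ^ p * m)).toNNReal, ?_⟩
  intro M₀ h1 b hb
  obtain ⟨τ₁, Mg, t0, m1, hG⟩ := good_core STR.kap_pos M₀ hb
  have d1 : 210 ≤ 200 * Mg + 10 * b := by linarith
  have d2 : 70 * (200 * Mg + 10 * b) ≤ 70 * b * (200 * Mg + 10 * b) := by nlinarith
  refine ⟨min τ₁ (1 / 8), 70 * b * (200 * Mg + 10 * b), by positivity, by linarith, ?_⟩
  intro Ω Λ Ω₀ K V X f f' F A P Y τ s θ κ ε s₁ oN d β' c₀ e k n₀ ς δ o O σ₀ n Cz CM Cu Ct Mt S₀ Sl Tg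
    B Γ P₁ P₂ Φ δ₀ H hM h hB hN hδ₀
  have r0 : (0:ℝ) < 2⁻¹ ^ k := by positivity
  obtain ⟨c, hc⟩ : ∃ c, c = (200 * Mg + 10 * b) * (2:ℝ)⁻¹ ^ k := ⟨_, rfl⟩
  have c1 : 210 * (2:ℝ)⁻¹ ^ k ≤ c := hc ▸ mul_le_mul_of_nonneg_right d1 r0.le
  have c2 : 70 * c ≤ 70 * b * (200 * Mg + 10 * b) * 2⁻¹ ^ k := by
    rw [hc, ← mul_assoc]
    exact mul_le_mul_of_nonneg_right d2 r0.le
  have c3 : b * (τ * 2⁻¹ ^ k) ≤ c := by
    have := mul_le_mul_of_nonneg_right (H.τ_mem.2.trans (min_le_right _ _)) r0.le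
    nlinarith [mul_pos (one_pos.trans_le m1) r0, mul_pos (one_pos.trans_le hb) r0]
  obtain ⟨s1, s2, s3⟩ := H.s_ge
  obtain ⟨ρ1, ρ2⟩ := H.ρ_le
  have τ1 := H.τ_mem.2.trans (min_le_right _ _)
  have hΩ := H.std.oΩ
  have hf := H.std.homeo
  have hV := H.V_sub.trans H.Ω₀_sub
  have hU : ∀ x ∈ V, ∀ j, x ∉ cthickening (100 * (P.T j).b * P.η) (P.K j) := fun x hx j hj =>
    disjoint_left.1 (H.V_G j) hx (H.near j hj).1
  have hth : ∀ z ∈ zof P k P₁ s, ∀ x, dy P k x ∈ cthickening 20 (ucube z) → x ∈ V :=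
    fun z hz x hx => h.thick (by linarith) hz (by norm_num) le_rfl hx
  obtain ⟨hok, hoff⟩ := size_ok P ς k (zof P k P₁ s) H.ok H.lip H.pos (fun j x hx => by
      have h2 : (1:ℝ) ≤ (P.T j).b := by exact_mod_cast (P.T j).b_pos
      nlinarith [(H.ok.big j x hx).2, H.le_ς.1 x, Cube.eta_pos (P := P)])
    (fun x ⟨z, hz, hx⟩ => by
      have h2 := h.thick (by linarith) hz zero_le_two (by norm_num) hx
      exact ⟨hV h2, H.le_ς.2 x h2⟩)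
    (fun z hz j x hx h2 => hU x (hth z hz x h2) j hx) H.k_le.1
  obtain ⟨𝓜⟩ := hM _ _ hok
  have hs : Sz P (size P ς k (zof P k P₁ s)) V k s θ :=
    ⟨fun x hx => ⟨size_le' H.k_le.1 x, fun j hj => hU x hx j (U_sub j hj)⟩, by linarith, s3⟩
  have h𝓩 : ∀ z ∈ zof P k P₁ s, (k, z) ∈ (fun z => (k, z)) '' zof P k P₁ s :=
    fun z hz => ⟨z, hz, rfl⟩
  have hseg := wires 𝓜 H.good
  obtain ⟨γ₁, δN, Pw, d0, g1, g2, hN⟩ := hN 𝓜 H.ok β' le_rfl H.inv hseg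
  obtain ⟨γ', g3, g4⟩ := G2.gsum γ₁ H.β_pos fun j j' hj i hi i' hi' _ ⟨x, hx, e1⟩ _ ⟨y, hy, e2⟩ => by
    obtain ⟨v, a1, a2⟩ := (g1 j i hi).2 x hx
    obtain ⟨v', a3, a4⟩ := (g1 j' i' hi').2 y hy
    rw [← e1, ← e2]
    linarith [H.sep j j' hj v a1.2 v' a3.2, dist_comm (f v) ((γ₁ j).A i x),
      dist_triangle4 (f v) ((γ₁ j).A i x) ((γ₁ j').A i' y) (f v')]
  obtain ⟨γ, g5, g6, g7⟩ := hG h hf.cont (An.MaxA.openOn_of H.std.oΛ hf) hf.left_inv.injOn hV H.meas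
    (by linarith) (meshc 𝓜 k _ hok h𝓩).2 H.τ_mem.1 (H.τ_mem.2.trans (min_le_left _ _)) le_rfl hseg
  have fΓ : ∑ j, (Γ j : ℝ≥0∞) ≠ ⊤ := ENNReal.sum_ne_top.2 fun _ _ => ENNReal.coe_ne_top
  have fC : ∑ j, (Ct M₀ (Y j).θ (Y j).N (Y j).t (Y j).L : ℝ≥0∞) ≠ ⊤ :=
    ENNReal.sum_ne_top.2 fun _ _ => ENNReal.coe_ne_top
  have f2 : (2 : ℝ≥0∞) ^ p ≠ ⊤ := ENNReal.rpow_ne_top_of_nonneg p0.le ENNReal.ofNat_ne_top
  obtain ⟨δ', e0, e1, e2⟩ := exists_small (c := 2 ^ p * ((C + 2 * M₀ * CR M₀ + 1) * (Cu M₀ +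
    (Cu M₀ * ∑ j, (Γ j : ℝ≥0∞) + (∑ j, (Ct M₀ (Y j).θ (Y j).N (Y j).t (Y j).L : ℝ≥0∞)) *
      (1 + ∑ j, (Γ j : ℝ≥0∞))) + 1) + 1)) (by finiteness) hδ₀ d0
  obtain ⟨Ys, hYs⟩ : ∃ Ys : ℕ → Set E3, Ys = fun i =>
    O i \ ((⋃ j, thickening s₁ (Y j).K) ∪ cubes P₁ (3 * s / 4)) := ⟨_, rfl⟩
  have y1 : ∀ i, Ys i ⊆ O i := fun i => hYs ▸ sdiff_subset
  have y2 : ∀ i, Disjoint (Ys i) (cubes P₁ (3 * s / 4)) := fun i =>
    hYs ▸ disjoint_sdiff_left.mono_right subset_union_right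
  obtain ⟨η, t, a1, a2, a3, hW⟩ := 𝓜.far_tol h1 H.ok hp (w := 𝓜.wt Ys n (cubes P₁ (3 * s / 2)) k)
    (fun φ _ _ => 𝓜.wt_ne_top _ _ _ _ H.O_lf y1 φ) e0.ne'
  obtain ⟨g₀, O', o1, o2, o3, o4⟩ := hS (K₀ := ⋃ j, (Y j).K) (c := c) 𝓜 γ' γ η H.std H.ok H.k_le.1
    h hV (iUnion_subset fun j => (Y j).sub.trans (Y j).subΩ) hb (by linarith) H.β_pos
    (by positivity) a1 (by rw [hc]; linarith) (by rw [hc]; linarith) H.tg
    (fun z => by linarith [H.δ_le.1 z]) H.osc H.min_le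
    (fun v hv => by
      obtain ⟨j, hj⟩ := mem_iUnion.1 hv
      exact ⟨H.β_le j v hj, fun x hx => by linarith [H.far j v hj x hx]⟩)
    (fun i hi x hx => by
      obtain ⟨j, hj⟩ := (g3 i).1 hi
      obtain ⟨v, b1, b2⟩ := (g1 j i hj).2 x hx
      exact ⟨v, mem_iUnion.2 ⟨j, b1.2⟩, (g4 j i hj).1 ▸ b2⟩)
    (fun i hi => ⟨(g5 i).1 hi, g6 i hi⟩) fun e x y he hs => Mid.segVar_lt_top (hseg e x y he hs)
  obtain ⟨Θ, q1, q2, q3⟩ := csw 𝓜.Q g₀ Pw hΩ 𝓜.cvx 𝓜.carrier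
  obtain ⟨g, hg⟩ : ∃ g : ConHomeo Ω Λ, g.toFun = g₀.toFun ∘ Θ.toFun := ⟨Θ.trans g₀, rfl⟩
  have cell : ∀ i, 𝓜.Q.cell i ⊆ Ω := fun i => (𝓜.Q.cell_subset_carrier i).trans_eq 𝓜.carrier
  have cl : ∀ i, ∀ x ∈ 𝓜.Q.cell i, ∀ y ∈ 𝓜.Q.cell i, dist (g.toFun x) (f y) ≤ 6 * δ (f y) ∨
      (y ∈ cubes P₁ (3 * s / 4) ∧ dist (g.toFun x) (f y) ≤ 6 * c) := fun i x hx y hy =>
    hg ▸ o4 i _ ((q1 i).subset (mem_image_of_mem _ hx)) y hy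
  have cl' : ∀ i, ∀ x ∈ 𝓜.Q.cell i, ∀ y ∈ 𝓜.Q.cell i, dist (g.toFun x) (f y) ≤ 6 * c :=
    fun i x hx y hy => (cl i x hx y hy).elim (fun a => by linarith [H.δ_le.1 (f y)]) fun a => a.2
  obtain ⟨𝓢, ψ, a, m, n1, hN⟩ := hN g₀.toFun Θ.toFun g.toFun (fun x => congrFun hg x)
    ⟨fun j i hi => (g4 j i hi).1 ▸ o2 i ((g3 i).2 ⟨j, hi⟩), ⟨η, a2.trans e1, o1.var⟩, q1, q3,
      fun j i _ x hx y hy => by
        have := cl' i x hx y hy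
        rw [hg, Function.comp] at this
        linarith⟩
  have ha : Aff 𝓜.Q (CoreZ P k (zof P k P₁ s)) P₁ A (s / 2 + 2⁻¹ ^ k) (8 * τ) g.toFun := by
    have b1 := Aff.coarse 𝓜 hok h𝓩 (g7 _ o3)
    refine b1.congr fun i hi => ⟨fun x hx => ?_, i, rfl⟩
    obtain ⟨D, hD⟩ := (b1 i hi).1
    rw [hg, Function.comp, q2 i D hD hx, id]
  have hT : ∀ j i, (𝓜.Q.cell i ∩ P.U j).Nonempty → 𝓜.Q.cell i ⊆ ⋃ j, thickening s₁ (Y j).K :=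
    fun j i hi x hx => mem_iUnion.2 ⟨j, (H.near j (meet_U 𝓜 hi hx)).2⟩
  obtain ⟨h₁, I, x, r, b1, b2, b3, b4, b5, b6⟩ := hB P₁ (h.cores hs.pos.le H.V_sub
    (disjoint_iUnion_right.2 H.V_G) hb (by linarith)) (𝓜.src h1) g M₀ P.w (fun i => 2⁻¹ ^ n i)
    (2⁻¹ ^ k) (wf 𝓜 Ys n (cubes P₁ (3 * s / 2)) k (deepc P₁ s (2 * θ)) (∑ j, (Γ j : ℝ≥0∞)))
    (nrc 𝓜) 𝓜.ν (𝓜.nrm h1 H.ok) δ' 𝓢 ψ a m e0
    (fun i x hx y hy => (cl i x hx y hy).imp (fun a => a.trans (H.δ_le.2 y (cell i hy)))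
      fun a => ⟨⟨y, hy, a.1⟩, by linarith [a.2]⟩)
    (fun j => ⟨let ⟨u, v, b1, b2, b3⟩ := 𝓜.cond H.ok j; ⟨u, v, b1, b2, b3.trans (H.L_ge j)⟩,
      fun i hi x hx => (H.near j (U_sub j (hi.2 hx))).2, n1 j⟩)
    (fun φ _ hφ => ⟨𝓜.MI_far φ ((far_iff 𝓜).1 hφ), wf_ne_top 𝓜 H.O_lf y1 fΓ φ⟩)
    (fun i => ⟨(H.shell i).1, by
      rw [← show Ys i = _ from congrFun hYs i]
      refine cand_mono (cand_shell 𝓜 h1 hs.pos.le ?_ ((y1 i).trans (H.O_sub i))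
        (fun x hx => ⟨?_, fun j hj => ?_⟩) (y2 i)) (wd_le_wf 𝓜)
      · exact le_of_mul_le_mul_right (by linarith) hs.pos
      · have b1 := H.O_sub i (y1 i hx)
        rw [hoff x fun z hz b2 => ?_]
        · exact (H.min_le x b1).trans_lt ((H.shell i).2.1 x b1 (y1 i hx))
        · obtain ⟨q, hq, b3⟩ := zof_near hz
          exact disjoint_left.1 (y2 i) hx (mem_cubes.2 ⟨q, hq,
            (mem_closedBall.1 (b3 20 (by norm_num) b2)).trans (by linarith)⟩)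
      · rw [hYs] at hx
        exact hx.2 (Or.inl (mem_iUnion.2 ⟨j, (H.near j (U_sub j hj)).2⟩))⟩)
    (by linarith) fun q hq => cand_mono (h.cand 𝓜 hs hV h1 Ys n hq) (wd_le_wf 𝓜)
  obtain ⟨h₂, r1, r2, r3, r4, r5⟩ := hR 𝓜 h1 h₁ x r _ (deepc P₁ s θ)
    (wf 𝓜 Ys n (cubes P₁ (3 * s / 2)) k (deepc P₁ s (2 * θ)) (∑ j, (Γ j : ℝ≥0∞)))
    (fun j => Γ j) hΩ H.ok e0 b3 (fun l => (b4 l).1) hT (h.deep_U hs)
    (fun i φ _ => wf_face 𝓜 hok h𝓩 hs i φ) (wf_U 𝓜)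
  obtain ⟨h₃, k1, k2, k3⟩ := hN h₁.toFun h₂ B δ' e1 b6 r2 fun j i hi hd =>
    (r3 j i hi hd).trans (add_le_add le_rfl e1)
  refine ⟨h₃, sup_le 𝓜 (g := g.toFun) (fun l => (b3.sub l).subset_carrier.trans_eq 𝓜.carrier) b1
    r1 k1 (fun i u hu y hy => by linarith [cl' i u hu y hy]) (fun l => (b4 l).2)
    fun u hu y hy hd => ?_, ?_⟩
  · linarith [H.osc u hu y hy (by linarith [(H.ok.pos u hu).1]), H.δ_le.1 (f u)]
  have far : ∀ φ, 𝓜.far φ → 𝓜.Q.cell φ ⊆ Ω \ ⋃ j, (Y j).K := fun φ hφ u hu =>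
    ⟨cell φ hu, fun b7 => let ⟨j, hj⟩ := mem_iUnion.1 b7; far_off 𝓜 hφ hu j (H.K_sub j hj)⟩
  have k4 := h.rhs 𝓜 (Γ := ∑ j, (Γ j : ℝ≥0∞)) hs hΩ H.K_V H.K_meas H.meas h1 p0 h𝓩 H.K_b H.k_le.2
    (fun i hi => (H.shell i).2.2 (hi.mono (inter_subset_inter_left _ (y1 i)))) y1 H.O_disj y2
    (by linarith) far (L := (b + 1).toNNReal)
    (fun i hi => ha.lip h.bil (le_trans (by linarith) (Real.le_coe_toNNReal _)) hi)
    (hW H.meas (fun e x y he hs => ⟨hseg e x y he hs, o1.var e x y he hs⟩) fun e x y hf he hs => by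
      have b7 := (q3 e x y he hs).1
      rw [g2 e (𝓜.far_keep H.ok hf).1] at b7
      exact hg ▸ b7) a3 (G := fun j => (Y j).G) (fun j => fun u hu => (H.near j (U_sub j hu)).1)
    (X' := X) (fun φ j hφ ⟨u, hu, hj⟩ y hy => H.X_ge ⟨⟨cell φ hy, mem_iUnion.2
      ⟨j, mem_cthickening_of_dist_le y u _ _ hj (by
        have b7 := (𝓜.zone φ u hu).1
        rw [hoff u fun z hz b8 => disjoint_left.1 (H.V_G j) (hth z hz u b8) hj] at b7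
        linarith [𝓜.far_diam φ hφ y hy u hu, min_le_right (ς u) (3 / 2 * P.η),
          Cube.eta_pos (P := P)])⟩⟩, (far φ hφ hy).2⟩) (Cu M₀)
    fun j => Ct M₀ (Y j).θ (Y j).N (Y j).t (Y j).L
  rw [ENNReal.coe_toNNReal (by
    have := ENNReal.rpow_ne_top_of_nonneg p0.le (ENNReal.coe_ne_top (r := M₀))
    have := ENNReal.rpow_ne_top_of_nonneg (x := 2 * M₀ * K₂) p0.le (by finiteness)
    unfold cf
    finiteness)]
  refine arith (h.total 𝓜 hs hΩ hok h𝓩 hp H.meas H.K_meas H.K_b H.τ_mem.1 ha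
    (by linarith [H.τ_mem.1]) (by linarith) (by linarith) b2 r4 k2) k3 r5
    (b5.trans (add_le_add k4 le_rfl)) (ENNReal.one_le_rpow one_le_two p0)
    (ENNReal.rpow_le_rpow_of_exponent_le one_le_two (by linarith))
    (ENNReal.rpow_le_rpow (ENNReal.ofReal_le_ofReal (by linarith)) p0.le) (le_of_eq ?_)
    (lintegral_mono_set (sdiff_subset_sdiff_right
      (union_subset_union_right _ (iUnion_mono H.K_sub)))) e2
  rw [← ENNReal.ofReal_ofNat, ← ENNReal.ofReal_mul (by norm_num)]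
  congr 1
  ring

end Gc

end P073
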