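import Vale.Agent.P073Y.P2.Defs
import Vale.Agent.P073Y.An.Max
import Vale.Agent.P073Z.ACC.Mark

/-!
# Generic shifts, the unmodified map, good cores for a modified map
-/

open Set Metric Topology Filter MeasureTheory
open scoped ENNReal NNReal

namespace P073

namespace Gc

open Me (dy)
open An (M3)
open M2 Zn P2
open Vale.Agent.P073.HB (GoodSeg WeakDeriv)

variable {p b τ τ' ρ s : ℝ} {Ω Λ K V : Set E3} {f f' : E3 → E3} {F A : E3 → M3} {w : E3}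
  {P₁ P₂ : Finset E3}

/-- **the images of the lattice planes are null sets for almost all shifts** -/
theorem ae_plns (hΛ : IsOpen Λ) (hf : HomeoOn f f' Ω Λ) (ρ : ℝ) :
    ∀ᵐ w : E3, volume (f '' (Ω ∩ plns w ρ)) = 0 := by
  have h1 : ∀ i, {t | 0 < volume.restrict Λ {y | f' y i = t}}.Countable := fun i =>
    Measure.countable_meas_level_set_pos₀ (((continuous_apply i).comp_continuousOn
      hf.cont_inv).aemeasurable hΛ.measurableSet).nullMeasurable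
  have h2 : ∀ᵐ w : E3, ∀ (i : Fin 3) (m : ℤ), volume.restrict Λ {y | f' y i = w i + m * ρ} = 0 := by
    refine ae_all_iff.2 fun i => ae_all_iff.2 fun m => ?_
    refine measure_mono_null (t := ⋃ t ∈ {t | 0 < volume.restrict Λ {y | f' y i = t}},
      {w : E3 | w i = t - m * ρ}) (fun w hw => mem_biUnion (pos_iff_ne_zero.2 hw)
        (show w i = _ by ring)) ((measure_biUnion_null_iff (h1 i)).2 fun t _ => ?_)
    exact Measure.pi_hyperplane (fun _ => volume) i _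
  filter_upwards [h2] with w hw
  refine measure_mono_null (t := ⋃ (i : Fin 3) (m : ℤ), {y | f' y i = w i + m * ρ} ∩ Λ) ?_
    (measure_iUnion_null fun i => measure_iUnion_null fun m => ?_)
  · rintro _ ⟨x, ⟨hx, i, m, e⟩, rfl⟩
    exact mem_iUnion₂.2 ⟨i, m, by rw [mem_ofPred_eq, hf.left_inv hx, e], hf.mapsTo hx⟩
  · rw [← Measure.restrict_apply' hΛ.measurableSet]
    exact hw i m

/-- segments with rational ends are good for almost all shifts -/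
theorem ae_good (hΩ : IsOpen Ω) (hf : ContinuousOn f Ω) (hF : LocallyIntegrableOn F Ω volume)
    (hw : WeakDeriv volume Ω f F) : ∀ᵐ w : E3, ∀ x y : E3, segment ℝ x y ⊆ Ω →
      (∀ i, ∃ q : ℚ, x i = w i + q) → (∀ i, ∃ q : ℚ, y i = w i + q) → GoodSeg f F x (y - x) := by
  filter_upwards [Vale.Agent.P073.HB.ae_goodSeg_countable (μ := volume) hΩ hf hF hw
    (ι := (Fin 3 → ℚ) × (Fin 3 → ℚ)) (fun q i => (q.1 i : ℝ)) (fun q i => (q.2 i : ℝ) - q.1 i)]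
    with w hwp x y hxy hx hy
  choose q hq using hx
  choose q' hq' using hy
  have e1 : x = w + fun i => (q i : ℝ) := funext hq
  have e2 : y - x = fun i => (q' i : ℝ) - q i := funext fun i => by
    simp only [Pi.sub_apply, hq i, hq' i]; ring
  have := hwp (q, q')
  simp only [← e1, ← e2] at this
  refine this fun s hs => hxy ?_
  rw [segment_eq_image']
  exact ⟨s, hs, rfl⟩

/-- a functional which is infinite on a null set -/
theorem mean_null {R : ℝ} {Φ : E3 → ℝ≥0∞} {a : ℝ≥0∞} (h : Mean R Φ a) {G : E3 → Prop}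
    (hG : ∀ᵐ w, G w) : ∃ Φ', Mean R Φ' a ∧ ∀ w, Φ w ≤ Φ' w ∧ (Φ' w < ⊤ → G w) := by
  obtain ⟨Z, h1, h2, h3⟩ := exists_measurable_superset_of_null (ae_iff.1 hG)
  refine ⟨fun w => Φ w + Z.indicator (fun _ => ⊤) w, ⟨h.1.add (measurable_const.indicator h2),
    le_trans (le_of_eq (lintegral_congr_ae (ae_restrict_of_ae ?_))) h.2⟩,
    fun w => ⟨le_self_add, fun hw => by_contra fun h4 => ?_⟩⟩
  · filter_upwards [measure_eq_zero_iff_ae_notMem.1 h3] with w hw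
    rw [indicator_of_notMem hw, add_zero]
  · exact (le_add_left (indicator_of_mem (h1 h4) fun _ => (⊤ : ℝ≥0∞)).ge).not_gt hw

theorem Sol.mono (h : Sol p f F K V b τ ρ s w P₁ P₂ A) (hτ : τ ≤ τ') (hρ : 0 ≤ ρ) :
    Sol p f F K V b τ' ρ s w P₁ P₂ A :=
  ⟨h.lat, h.cover, h.bil, fun q hq x hx y hy => (h.close q hq x hx y hy).trans (by gcongr),
    fun q hq => (h.int q hq).trans (ENNReal.ofReal_le_ofReal (by gcongr)),
    fun q hq x y ζ a c d => (h.wire q hq x y ζ a c d).trans (ENNReal.ofReal_le_ofReal (by gcongr))⟩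

/-- the ends of a Kuhn edge are lattice points -/
theorem edge_rat {k : ℕ} {x y ζ : E3} (hne : x ≠ y)
    (h : segment ℝ x y = (fun u => ((2:ℝ)⁻¹ ^ k)⁻¹ • (u - w)) ⁻¹' kcell ζ) :
    (∀ i, ∃ q : ℚ, x i = w i + q) ∧ ∀ i, ∃ q : ℚ, y i = w i + q := by
  obtain ⟨e, he⟩ := Me.exists_aff (LinearEquiv.smulOfNeZero ℝ E3 ((2:ℝ)⁻¹ ^ k)⁻¹ (by positivity)) w
  have he' : ∀ u, e.toAffineEquiv u = ((2:ℝ)⁻¹ ^ k)⁻¹ • (u - w) := he
  obtain ⟨t, ht⟩ := exists_rp e.toAffineEquiv he' h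
  have h1 := ht.edge e.toAffineEquiv he' hne
  have h2 : ∀ v ∈ ({x, y} : Finset E3), ∀ i, ∃ q : ℚ, v i = w i + q := fun v hv i => by
    obtain ⟨m, hm⟩ := ((h1.mem v).1 hv).2 i
    refine ⟨2⁻¹ ^ k * m, ?_⟩
    push_cast
    rw [← hm, Pi.smul_apply, smul_eq_mul, mul_inv_cancel_left₀ (by positivity), Pi.sub_apply,
      add_sub_cancel]
  exact ⟨h2 x (by simp), h2 y (by simp)⟩

/-- **no modification is needed if the oscillation is controlled** -/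
theorem pre_of (hp : 1 ≤ p) (ho : ∀ {Ω V : Set E3} {f : E3 → E3} {F : E3 → M3} (b : ℝ),
    An.Mon Ω f F → V ⊆ Ω → Osc p f F V b) : P2.PRE p := by
  refine ⟨1, le_rfl, ?_⟩
  intro Ω Λ K V f f' F b hΩ hΛ _ _ _ hf hF hl hw hi hK hV hKV hVΩ _ _ hb hc _ N τ d δ hN hτ _ hδ
  obtain ⟨ρ₁, h0, h1⟩ := sel (solid_of hp (ho b ⟨hΩ, hf.cont, An.MaxA.openOn_of hΛ hf, hl, hw⟩ hVΩ)
    hF hi hK hV hKV hb hc) hK hV hKV hN (half_pos hτ) hδ
  obtain ⟨k₁, hk⟩ := exists_pow_lt_of_lt_one h0 (show (2:ℝ)⁻¹ < 1 by norm_num)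
  refine ⟨k₁, fun k hk' => ?_⟩
  have r0 : (0:ℝ) < 2⁻¹ ^ k := by positivity
  obtain ⟨Φ, h2, h3⟩ := h1 (2⁻¹ ^ k) 1 r0 ((pow_le_pow_of_le_one (by norm_num) (by norm_num)
    hk').trans hk.le) (pow_le_one₀ (by norm_num) (by norm_num))
  obtain ⟨Φ', h4, h5⟩ := mean_null h2 ((ae_plns hΛ hf (2⁻¹ ^ k)).and (ae_good hΩ hf.cont hl hw))
  refine ⟨Φ', h4, fun w hw => ?_⟩
  obtain ⟨P₁, P₂, A, h6, h7⟩ := h3 w
  obtain ⟨h8, h9⟩ := (h5 w).2 hw
  refine ⟨P₁, P₂, A, ∅, f, f', ⟨hf, ⟨1, fun x _ y _ => by simp⟩, fun _ _ => Or.inl rfl,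
    finite_empty, fun _ h => h.elim, fun x y _ => by simp, h8, h6.mono (by linarith) r0.le,
    fun q hq x y ζ a c e => ?_⟩, h7.trans (h5 w).1⟩
  have s0 : 0 < N * 2⁻¹ ^ k := by positivity
  refine (segv (A q) le_rfl a hF (h9 x y (e.trans ((closedBall_subset_closedBall
    (by linarith)).trans ((h6.lat q (Or.inl hq)).2.1.trans hVΩ))) (edge_rat a c).1
      (edge_rat a c).2)).2.2.1.trans ((mul_le_mul_right (h6.wire q hq x y ζ a c e) _).trans_eq ?_)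
  rw [← ENNReal.ofReal_ofNat, ← ENNReal.ofReal_mul zero_le_two]
  congr 1
  ring

theorem pre_gt (hp : 2 < p) : P2.PRE p := pre_of (by linarith) fun b h hV => osc_of_mon hp h hV b

/-- **the cells of the core are good for the modified map** -/
theorem good_core' {κ₀ : ℝ → ℝ} (hκ : ∀ M, 0 < κ₀ M) (M₀ : ℝ≥0) (hb : 1 ≤ b) :
    ∃ τ₀ M : ℝ, 0 < τ₀ ∧ 1 ≤ M ∧ ∀ {p τ s d β : ℝ} {C : ℝ≥0} {Ω Λ K V : Set E3}
    {f f₁ f₁' : E3 → E3} {F A : E3 → M3} {P₁ P₂ : Finset E3} {P : Par} {k : ℕ} {Q : RCx E3}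
    {𝓣 : Set (Fin 3 → ℤ)}, Pre p C Ω Λ K V f F b τ (2⁻¹ ^ k) s d P.w P₁ P₂ A 𝓣 f₁ f₁' → IsOpen Λ →
    V ⊆ Ω → 2 * (2:ℝ)⁻¹ ^ k ≤ s → Cm Ω P k (zof P k P₁ s) M₀ Q → 0 ≤ τ → τ ≤ τ₀ →
    M * (2:ℝ)⁻¹ ^ k ≤ β →
    ∃ γ : Good Q f₁ κ₀ β, (∀ i, i ∈ γ.G ↔ Q.cell i ⊆ CoreZ P k (zof P k P₁ s)) ∧
      (∀ i ∈ γ.G, ∀ x ∈ Q.cell i, dist (γ.A i x) (f₁ x) ≤ 2 * (τ * (2:ℝ)⁻¹ ^ k)) ∧
      ∀ g, (∀ i ∈ γ.G, EqOn g (γ.A i) (Q.cell i)) →
        Aff Q (CoreZ P k (zof P k P₁ s)) P₁ A (s / 2 + 2⁻¹ ^ k) (8 * τ) g := by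
  obtain ⟨τ₀, M, h0, h1, H⟩ := goodc κ₀ hκ M₀ b hb
  refine ⟨τ₀, M, h0, h1, ?_⟩
  intro p τ s d β C Ω Λ K V f f₁ f₁' F A P₁ P₂ P k Q 𝓣 h' hΛ hV hs hQ hτ hτ' hβ
  have h := h'.sol
  have hρ : (0:ℝ) < 2⁻¹ ^ k := by positivity
  choose! q hq hq' using fun z (hz : z ∈ zof P k P₁ s) => zof_near hz
  have h2 : ∀ z ∈ zof P k P₁ s, ∀ c, 0 ≤ c → c ≤ 2 →
      dy P k ⁻¹' cthickening c (ucube z) ⊆ closedBall (q z) (2 * s) := fun z hz c h3 h4 =>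
    (hq' z hz c h3).trans (closedBall_subset_closedBall (by nlinarith))
  obtain ⟨γ, h3, h4⟩ := H P k _ Q (fun z => A (q z)) h'.hom.cont (An.MaxA.openOn_of hΛ h'.hom)
    h'.hom.left_inv.injOn (zof_fin P k P₁ s) hQ hτ hτ' hβ (fun z hz => ⟨h.bil _ (hq z hz),
      ((h2 z hz 2 zero_le_two le_rfl).trans (closedBall_subset_closedBall (by linarith))).trans
        ((h.lat _ (Or.inl (hq z hz))).2.1.trans hV),
      (h.close _ (hq z hz)).mono (h2 z hz 2 zero_le_two le_rfl)⟩)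
    fun z hz e x y he hxy _ ⟨ζ, hζ⟩ h5 => by
      have h6 := (Gd.edge_ends hQ.cvx he hxy).1
      rw [hxy] at hζ h5
      exact (h'.var _ (hq z hz) x y ζ h6 (dy_eq P k ▸ hζ) (h5.trans
        (h2 z hz 1 zero_le_one one_le_two))).trans (ENNReal.ofReal_le_ofReal (by gcongr))
  refine ⟨γ, h3, fun i hi => (h4 i hi).2.2.2.1, fun g hg i hi => ?_⟩
  obtain ⟨-, -, ⟨z, hz, h5⟩, -, h6, -⟩ := h4 i ((h3 i).2 hi)
  replace h5 := h5.trans (preimage_mono (self_subset_cthickening (δ := 0) _))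
  have h7 := hg i ((h3 i).2 hi)
  refine ⟨⟨_, h7⟩, q z, hq z hz, h5.trans ((hq' z hz 0 le_rfl).trans (by simp)),
    fun x hx y hy => ?_⟩
  rw [h7 hx, h7 hy]
  exact h6 _ τ ((h.close _ (hq z hz)).mono (h5.trans (h2 z hz 0 le_rfl zero_le_two))) x hx y hy

end Gc

end P073
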