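import Vale.Agent.P073Y.Gc.Fare2
import Vale.Agent.P073Y.Gc.Fix
import Vale.Agent.P073Y.Gc.Pre
import Vale.Agent.P073Y.Ms.Mod
import Vale.Agent.P073Y.Nr.Near2

/-!
# The construction for a fixed shift and a modified map
-/

open Set Metric Topology Filter MeasureTheory
open scoped ENNReal NNReal

namespace P073

namespace Gc

open Me (dy)
open An (M3)
open M2 Zn P2
open _root_.P073.Top
open Nr (nrc nrs farE Ref Pre2L)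
open Vale.Agent.P073.HB (GoodSeg)

namespace Fx

variable {Ω Λ K V X : Set E3} {f f' f₁ f₁' : E3 → E3} {F : E3 → M3} {P : Par}
  {Y : Fin P.N → TyZ Ω f} {b τ₀ D τ s θ κ ε s₁ oN d β' d₁ c₁ : ℝ} {k n₀ : ℕ} {ς δ o : E3 → ℝ}
  {O : ℕ → Set E3} {σ₀ : ℕ → ℝ} {n : ℕ → ℕ} {σ : E3 → ℝ} {𝓒 : Set (ℕ × (Fin 3 → ℤ))} {M₀ : ℝ≥0}
  {Mt : Ty → ℕ → ℝ≥0} {S₀ : Set E3} {S : Ty → ℕ → Set E3} (𝓜 : Mesh2 Ω P σ 𝓒 M₀ Mt S₀ S)

theorem mdf_le (h : Mdf Ω K f f₁ d₁) (h0 : 0 ≤ d₁) {x : E3} (hx : x ∈ Ω) :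
    dist (f₁ x) (f x) ≤ d₁ := (h x hx).elim (fun a => by rwa [a, dist_self]) fun a => a.2

theorem mdf_eq (H : Hy2 Λ K V X f f' f₁ F P Y b τ₀ D τ s θ κ ε s₁ oN d β' d₁ c₁ k n₀ ς δ o O σ₀ n)
    (h : Mdf Ω K f f₁ d₁) (hD : 0 < D) (j : Fin P.N) : EqOn f₁ f (Y j).G := fun x hx =>
  (h x ((Y j).subΩ hx)).resolve_right fun ⟨⟨u, a1, a2⟩, _⟩ => by
    have : 0 < D * 2⁻¹ ^ k := by positivity
    linarith [H.gap j x hx u (H.K_V a1), H.d_mem.1]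

/-- the good cells near the types are good for the modified map -/
theorem moved (H : Hy2 Λ K V X f f' f₁ F P Y b τ₀ D τ s θ κ ε s₁ oN d β' d₁ c₁ k n₀ ς δ o O σ₀ n)
    (h : Mdf Ω K f f₁ d₁) (hD : 1 ≤ D) (γ₁ : Fin P.N → Good 𝓜.Q' f STR.kap β')
    (g1 : ∀ j, ∀ i ∈ (γ₁ j).G, 𝓜.Q'.cell i ⊆ G2.Fine1 P j ∧
      ∀ x ∈ 𝓜.Q'.cell i, ∃ v ∈ 𝓜.Q'.cell i ∩ (Y j).K, dist ((γ₁ j).A i x) (f v) ≤ β') :
    ∃ γ' : Good 𝓜.Q' f₁ STR.kap β', (∀ j, ∀ i ∈ (γ₁ j).G, i ∈ γ'.G ∧ γ'.A i = (γ₁ j).A i) ∧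
      ∀ i ∈ γ'.G, ∀ x ∈ 𝓜.Q'.cell i, ∃ v ∈ ⋃ j, (Y j).K, dist (γ'.A i x) (f₁ v) ≤ β' := by
  have q4 := mdf_eq H h (one_pos.trans_le hD)
  have r0 : (2:ℝ)⁻¹ ^ k ≤ D * 2⁻¹ ^ k := le_mul_of_one_le_left (by positivity) hD
  obtain ⟨γ₂, g3, g4⟩ := G2.gsum γ₁ H.β_pos fun j j' hj i hi i' hi' _ ⟨x, hx, e1⟩ _ ⟨y, hy, e2⟩ => by
    obtain ⟨v, a1, a2⟩ := (g1 j i hi).2 x hx
    obtain ⟨v', a3, a4⟩ := (g1 j' i' hi').2 y hy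
    rw [← e1, ← e2]
    linarith [H.sep j j' hj v a1.2 v' a3.2, dist_comm (f v) ((γ₁ j).A i x),
      dist_triangle4 (f v) ((γ₁ j).A i x) ((γ₁ j').A i' y) (f v')]
  have g8 : ∀ i ∈ γ₂.G, ∀ x ∈ 𝓜.Q'.cell i, ∃ j, x ∈ P.U j ∧
      ∃ v ∈ (Y j).K, dist (γ₂.A i x) (f v) ≤ β' := fun i hi x hx => by
    obtain ⟨j, hj⟩ := (g3 i).1 hi
    obtain ⟨v, b1, b2⟩ := (g1 j i hj).2 x hx
    exact ⟨j, Cube.buf_U H.ok j (Cube.fine_buf j ((g1 j i hj).1 hx).1), v, b1.2,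
      (g4 j i hj).1 ▸ b2⟩
  obtain ⟨γ', g9, g10, -⟩ := Nr.move (f₁ := f₁) γ₂ (U := ⋃ j, (Y j).G)
    (fun x hx => let ⟨j, hj⟩ := mem_iUnion.1 hx; q4 j hj)
    (fun i hi l ⟨x, b1, b2⟩ y hy => by
      obtain ⟨j, b3, -⟩ := g8 i hi x b2
      obtain ⟨l', -, b4⟩ := 𝓜.refine l
      exact mem_iUnion.2 ⟨j, (H.near j (meet_U 𝓜 ⟨x, b4 b1, b3⟩ (b4 hy))).1⟩)
    fun i hi x hx hne _ ⟨y, hy, e1⟩ => by
      obtain ⟨j, -, v, b1, b2⟩ := g8 i hi y hy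
      obtain ⟨⟨u, b3, b4⟩, b5⟩ := (h x (𝓜.carrier' ▸ hx)).resolve_left hne
      rw [← e1]
      linarith [H.gap j v ((Y j).sub b1) u (H.K_V b3), H.β_le j v b1, H.δ_le.1 (f v), H.β_pos,
        dist_triangle4 (f v) (γ₂.A i y) (f₁ x) (f x), dist_triangle (f v) (f x) (f u),
        dist_comm (f v) (γ₂.A i y), dist_comm (f₁ x) (γ₂.A i y)]
  rw [← g9, ← g10] at g8
  refine ⟨γ', fun j i hi => ⟨g9 ▸ (g3 i).2 ⟨j, hi⟩, g10 ▸ (g4 j i hi).1⟩, fun i hi x hx => ?_⟩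
  obtain ⟨j, -, v, b1, b2⟩ := g8 i hi x hx
  exact ⟨v, mem_iUnion.2 ⟨j, b1⟩, by rwa [q4 j ((Y j).sub b1)]⟩

/-- **the uniform distance** -/
theorem sup13 (H : Hy2 Λ K V X f f' f₁ F P Y b τ₀ D τ s θ κ ε s₁ oN d β' d₁ c₁ k n₀ ς δ o O σ₀ n)
    (h : Mdf Ω K f f₁ d₁) (hD : 1 ≤ D) {I J : Type} {x : I → E3} {r : I → ℝ} {y : J → E3}
    {g h₁ h₂ h₃ : E3 → E3} (hx : ∀ l, closedBall (x l) (r l) ⊆ Ω)
    (hy : ∀ z, closedBall (y z) (2⁻¹ ^ k / 2) ⊆ V) (e₁ : ∀ u ∈ Ω, dist (h₁ u) (f₁ u) ≤ ε)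
    (e₂ : ∀ u ∈ Ω, ∃ u', h₂ u = h₁ u' ∧ ((∃ c, u ∈ 𝓜.Q.cell c ∧ u' ∈ 𝓜.Q.cell c) ∨
      ∃ l, u ∈ closedBall (Sum.elim x y l) (Sum.elim r (fun _ => 2⁻¹ ^ k / 2) l) ∧
        u' ∈ closedBall (Sum.elim x y l) (Sum.elim r (fun _ => 2⁻¹ ^ k / 2) l)))
    (e₃ : ∀ u ∈ Ω, ∃ y ∈ Ω, dist y u ≤ P.ς u ∧ h₃ u = h₂ y)
    (c₁ : ∀ c, ∀ u ∈ 𝓜.Q.cell c, ∀ y ∈ 𝓜.Q.cell c, dist (g u) (f₁ y) ≤ D * 2⁻¹ ^ k)
    (c₂ : ∀ l, ∀ u ∈ closedBall (x l) (r l), ∀ u' ∈ closedBall (x l) (r l),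
      dist (f₁ u) (f₁ u') ≤ ε) : ∀ u ∈ Ω, dist (h₃ u) (f u) ≤ 13 * ε := fun u hu => by
  have r0 : (2:ℝ)⁻¹ ^ k ≤ D * 2⁻¹ ^ k := le_mul_of_one_le_left (by positivity) hD
  obtain ⟨δ1, δ2⟩ := H.d_mem
  have ρ1 := H.ρ_le.1
  have b6 : ∀ z, ∀ u ∈ closedBall (y z) (2⁻¹ ^ k / 2), ∀ v ∈ closedBall (y z) (2⁻¹ ^ k / 2),
      dist (f₁ u) (f₁ v) ≤ 3 * ε := fun z u hu v hv => by
    have b8 := hy z hu
    have b9 := hy z hv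
    linarith [H.oscV u b8 v b9 ((dist_triangle_right _ _ _).trans
      ((add_le_add (mem_closedBall.1 hu) (mem_closedBall.1 hv)).trans_eq (add_halves _))),
      mdf_le h δ1 (H.V_sub b8), mdf_le h δ1 (H.V_sub b9),
      dist_triangle4 (f₁ u) (f u) (f v) (f₁ v), dist_comm (f v) (f₁ v)]
  have b7 := sup_le 𝓜 (f := f₁) (g := g) (ε := 3 * ε) (x := Sum.elim x y)
    (r := Sum.elim r fun _ => 2⁻¹ ^ k / 2) (Sum.forall.2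
    ⟨hx, fun z => (hy z).trans H.V_sub⟩) (fun u hu => by linarith [e₁ u hu]) e₂ e₃
    (fun i u hu y hy => by linarith [c₁ i u hu y hy]) (Sum.forall.2
      ⟨fun l u hu y hy => (c₂ l u hu y hy).trans (by linarith), b6⟩)
    (fun u hu y hy hd => by
      linarith [H.osc u hu y hy (by linarith [(H.ok.pos u hu).1]), H.δ_le.1 (f₁ u)]) u hu
  linarith [mdf_le h δ1 hu, dist_triangle (h₃ u) (f₁ u) (f u)]

end Fx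

open Fx

theorem fix2 {p : ℝ} (hp : 1 ≤ p) (h3 : p < 3) : FIX2 p := by
  obtain ⟨K₂, hS⟩ := start
  obtain ⟨C, CR, hR⟩ := fare2 hp h3
  have p0 : 0 < p := one_pos.trans_le hp
  refine ⟨K₂, CR, fun m u l => (cf (2 ^ p) (9 * (C + 2 * m * CR m + 1))
    (672 * (m : ℝ≥0∞) ^ 5 * ((m : ℝ≥0∞) ^ p + 4 * m ^ 2)) m u
    ((2 * m * (K₂ * l)) ^ p * m)).toNNReal, ?_⟩
  intro M₀ h1 b hb
  obtain ⟨τ₁, Mg, t0, m1, hG⟩ := good_core' STR.kap_pos M₀ hb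
  have d1 : 210 ≤ 200 * Mg + 10 * b := by linarith
  have d2 : 70 * (200 * Mg + 10 * b) ≤ 70 * b * (200 * Mg + 10 * b) := by nlinarith
  refine ⟨min τ₁ (1 / 8), 70 * b * (200 * Mg + 10 * b), by positivity,
    (min_le_right _ _).trans (by norm_num), by linarith, ?_⟩
  intro Ω Λ K V X f f' f₁ f₁' F A P Y τ s θ κ ε s₁ oN d β' d₁ c₁ c₀ e k n₀ ς δ o O σ₀ n Cz CM Cu Ct
    Mt S₀ Sl Tg B Γ P₁ P₂ 𝓣 CL Φ δ₀ H hM h' hB hN hδ₀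
  have h := h'.sol
  have r0 : (0:ℝ) < 2⁻¹ ^ k := by positivity
  obtain ⟨c, hc⟩ : ∃ c, c = (200 * Mg + 10 * b) * (2:ℝ)⁻¹ ^ k := ⟨_, rfl⟩
  have c1 : 210 * (2:ℝ)⁻¹ ^ k ≤ c := hc ▸ mul_le_mul_of_nonneg_right d1 r0.le
  have c2 : 70 * c ≤ 70 * b * (200 * Mg + 10 * b) * 2⁻¹ ^ k := by
    rw [hc, ← mul_assoc]
    exact mul_le_mul_of_nonneg_right d2 r0.le
  obtain ⟨s1, s2, s3⟩ := H.s_ge
  obtain ⟨ρ1, ρ2⟩ := H.ρ_le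
  have δ1 := H.d_mem.1
  have τ1 := H.τ_mem.2.trans (min_le_right _ _)
  have hΩ := H.std.oΩ
  have hV := H.V_sub
  have hU : ∀ x ∈ V, ∀ j, x ∉ cthickening (100 * (P.T j).b * P.η) (P.K j) := fun x hx j hj =>
    disjoint_left.1 (H.V_G j) hx (H.near j hj).1
  have hUG : ∀ j, P.U j ⊆ (Y j).G := fun j u hu => (H.near j (U_sub j hu)).1
  have d3 : 1 ≤ 70 * b * (200 * Mg + 10 * b) := by linarith
  have q4 := mdf_eq H h'.mdf (one_pos.trans_le d3)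
  have hth : ∀ z ∈ zof P k P₁ s, ∀ x, dy P k x ∈ cthickening 20 (ucube z) → x ∈ V :=
    fun z hz x hx => h.thick (by linarith) hz (by norm_num) le_rfl hx
  obtain ⟨hok, hoff⟩ := size_ok P ς k (zof P k P₁ s) H.ok H.lip H.pos (fun j x hx => by
      have h2 : (1:ℝ) ≤ (P.T j).b := by exact_mod_cast (P.T j).b_pos
      nlinarith [(H.ok.big j x hx).2, H.le_ς.1 x, Cube.eta_pos (P := P)])
    (fun x ⟨z, hz, hx⟩ => by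
      have h2 := h.thick (by linarith) hz zero_le_two (by norm_num) hx
      exact ⟨hV h2, H.le_ς.2 x h2⟩)
    (fun z hz j x hx h2 => hU x (hth z hz x h2) j hx) H.k_le.1
  obtain ⟨𝓜⟩ := hM _ _ hok
  have hs : Sz P (size P ς k (zof P k P₁ s)) V k s θ :=
    ⟨fun x hx => ⟨size_le' H.k_le.1 x, fun j hj => hU x hx j (U_sub j hj)⟩, by linarith, s3⟩
  have h𝓩 : ∀ z ∈ zof P k P₁ s, (k, z) ∈ (fun z => (k, z)) '' zof P k P₁ s :=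
    fun z hz => ⟨z, hz, rfl⟩
  have hseg := wires 𝓜 H.good
  have cell : ∀ i, 𝓜.Q.cell i ⊆ Ω := fun i => (𝓜.Q.cell_subset_carrier i).trans_eq 𝓜.carrier
  obtain ⟨γ₁, δN, Pw, d0, g1, g2, hN⟩ := hN 𝓜 H.ok β' le_rfl H.inv hseg
  obtain ⟨γ', g3, g4⟩ := moved 𝓜 H h'.mdf d3 γ₁ g1
  obtain ⟨γ, g5, g6, g7⟩ := hG h' H.std.oΛ hV (by linarith) (meshc 𝓜 k _ hok h𝓩).2 H.τ_mem.1
    (H.τ_mem.2.trans (min_le_left _ _)) le_rfl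
  have fΓ : ∑ j, (Γ j : ℝ≥0∞) ≠ ⊤ := ENNReal.sum_ne_top.2 fun _ _ => ENNReal.coe_ne_top
  have fC : ∑ j, (Ct M₀ (Y j).θ (Y j).N (Y j).t (Y j).L : ℝ≥0∞) ≠ ⊤ :=
    ENNReal.sum_ne_top.2 fun _ _ => ENNReal.coe_ne_top
  have f2 : (2 : ℝ≥0∞) ^ p ≠ ⊤ := ENNReal.rpow_ne_top_of_nonneg p0.le ENNReal.ofNat_ne_top
  obtain ⟨δ', e0, e1, e2⟩ := exists_small (c := 2 ^ p * (9 * (C + 2 * M₀ * CR M₀ + 1) * (Cu M₀ +
    (Cu M₀ * ∑ j, (Γ j : ℝ≥0∞) + (∑ j, (Ct M₀ (Y j).θ (Y j).N (Y j).t (Y j).L : ℝ≥0∞)) *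
      (1 + ∑ j, (Γ j : ℝ≥0∞))) + 1) + 1)) (by finiteness) hδ₀ d0
  obtain ⟨Ys, hYs⟩ : ∃ Ys : ℕ → Set E3, Ys = fun i => O i \ ((⋃ j, thickening s₁ (Y j).K) ∪
    cubes P₁ (3 * s / 4) ∪ tzs (2⁻¹ ^ k) P.w 𝓣 P₁ s) := ⟨_, rfl⟩
  have y1 : ∀ i, Ys i ⊆ O i := fun i => hYs ▸ sdiff_subset
  have y2 : ∀ i, Disjoint (Ys i) (cubes P₁ (3 * s / 4)) := fun i =>
    hYs ▸ disjoint_sdiff_left.mono_right (subset_union_right.trans subset_union_left)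
  obtain ⟨η, t, a1, a2, a3, hW⟩ := 𝓜.far_tol' h1 H.ok hp (w := 𝓜.wt Ys n V k)
    (fun φ _ _ => 𝓜.wt_ne_top _ _ _ _ H.O_lf y1 φ) e0.ne'
  obtain ⟨g₀, O', o1, o2, o3, o4⟩ := hS (K₀ := ⋃ j, (Y j).K) (c := c) 𝓜 γ' γ η
    (H.std.mod h'.hom h'.lip) H.ok H.k_le.1
    h hV (iUnion_subset fun j => (Y j).sub.trans (Y j).subΩ) hb (by linarith) H.β_pos
    (by positivity) a1 (by rw [hc]; linarith) (by rw [hc]; linarith) H.tg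
    (fun z => by linarith [H.δ_le.1 z]) H.osc H.min_le
    (fun v hv => by
      obtain ⟨j, hj⟩ := mem_iUnion.1 hv
      rw [q4 j ((Y j).sub hj)]
      refine ⟨H.β_le j v hj, fun x hx => ?_⟩
      linarith [H.gap j v ((Y j).sub hj) x hx, mdf_le h'.mdf δ1 (hV hx),
        dist_triangle (f v) (f₁ x) (f x)]) g4
    (fun i hi => ⟨(g5 i).1 hi, g6 i hi⟩) fun e x y he hs => h'.lip.elim fun _ hl =>
      M2.segVar_lt_top hl (hs ▸ (𝓜.Q'.cell_subset_carrier e).trans 𝓜.carrier'.le)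
        (Mid.segVar_lt_top (hseg e x y he hs))
  obtain ⟨Θ, q1, q2, q3⟩ := csw 𝓜.Q g₀ Pw hΩ 𝓜.cvx 𝓜.carrier
  obtain ⟨g, hg⟩ : ∃ g : ConHomeo Ω Λ, g.toFun = g₀.toFun ∘ Θ.toFun := ⟨Θ.trans g₀, rfl⟩
  have cl : ∀ i, ∀ x ∈ 𝓜.Q.cell i, ∀ y ∈ 𝓜.Q.cell i, dist (g.toFun x) (f₁ y) ≤ 6 * δ (f₁ y) ∨
      (y ∈ cubes P₁ (3 * s / 4) ∧ dist (g.toFun x) (f₁ y) ≤ 6 * c) := fun i x hx y hy =>
    hg ▸ o4 i _ ((q1 i).subset (mem_image_of_mem _ hx)) y hy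
  have cl' : ∀ i, ∀ x ∈ 𝓜.Q.cell i, ∀ y ∈ 𝓜.Q.cell i, dist (g.toFun x) (f₁ y) ≤ 6 * c :=
    fun i x hx y hy => (cl i x hx y hy).elim (fun a => by linarith [H.δ_le.1 (f₁ y)]) fun a => a.2
  obtain ⟨𝓢, ψ, a, m, n1, hN⟩ := hN g₀.toFun Θ.toFun g.toFun (fun _ x _ => congrFun hg x)
    ⟨fun j i hi => (g3 j i hi).2 ▸ o2 i (g3 j i hi).1,
      ⟨η, a2.trans e1, fun e x y he hs ⟨j, hj⟩ => P073.segVar_congr
        ((q4 j).mono (hs ▸ hj.trans (hUG j))) ▸ o1.var e x y he hs⟩, q1, q3,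
      fun j i hi x hx y hy => by
        have := cl' i x hx y hy
        rw [hg, Function.comp, q4 j (hUG j (hi hy))] at this
        linarith⟩
  have ha : Aff 𝓜.Q (CoreZ P k (zof P k P₁ s)) P₁ A (s / 2 + 2⁻¹ ^ k) (8 * τ) g.toFun := by
    have b1 := Aff.coarse 𝓜 hok h𝓩 (g7 _ o3)
    refine b1.congr fun i hi => ⟨fun x hx => ?_, i, rfl⟩
    obtain ⟨D, hD⟩ := (b1 i hi).1
    rw [hg, Function.comp, q2 i D hD hx, id]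
  have z1 : ∀ z ∈ 𝓣, closedBall (rc (2⁻¹ ^ k) P.w z) (2⁻¹ ^ k / 2) ⊆ V := fun z hz =>
    rcube_ball r0 P.w z ▸ h'.sub z hz
  have z2 : ∀ z : tzi (2⁻¹ ^ k) P.w 𝓣 P₁ s, closedBall (rc (2⁻¹ ^ k) P.w z) (2⁻¹ ^ k / 2) ⊆
      tzs (2⁻¹ ^ k) P.w 𝓣 P₁ s := fun z =>
    rcube_ball r0 P.w z ▸ subset_biUnion_of_mem (u := rcube _ _) z.2
  have z3 : ∀ z : tzi (2⁻¹ ^ k) P.w 𝓣 P₁ s,
      Disjoint (closedBall (rc (2⁻¹ ^ k) P.w z) (2⁻¹ ^ k / 2)) (cubes P₁ (s / 2)) := fun z =>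
    rcube_ball r0 P.w z ▸ z.2.2
  have z4 : (tzi (2⁻¹ ^ k) P.w 𝓣 P₁ s).Finite := h'.fin.subset fun _ hz => hz.1
  have := z4.to_subtype
  obtain ⟨𝓐, h𝓐⟩ : ∃ 𝓐 : Set 𝓜.Q.ι, ∀ φ, φ ∈ 𝓐 ↔ ∀ z : tzi (2⁻¹ ^ k) P.w 𝓣 P₁ s,
    Disjoint (𝓜.Q.cell φ) (ball (rc (2⁻¹ ^ k) P.w z) (2⁻¹ ^ k / 2)) := ⟨_, fun _ => Iff.rfl⟩
  have z5 : ∀ φ, 𝓜.Q.cell φ ⊆ plns P.w (2⁻¹ ^ k) → φ ∈ 𝓐 := fun φ hφ =>
    (h𝓐 φ).2 fun z => disjoint_left.2 fun x hx hx' => ball_off r0 hx' (hφ hx)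
  obtain ⟨w, hw⟩ : ∃ w, w = wf 𝓜 Ys n V k (deepc P₁ s (2 * θ)) (∑ j, (Γ j : ℝ≥0∞)) := ⟨_, rfl⟩
  have w1 : ∀ φ, wd 𝓜 Ys n V k (deepc P₁ s (2 * θ)) φ ≤ w φ := hw ▸ wd_le_wf 𝓜
  obtain ⟨h₁, I, x, r, b1, b2, b3, b4, b5, b6⟩ := hB (𝓜.src h1) g M₀ P.w (fun i => 2⁻¹ ^ n i)
    (2⁻¹ ^ k) (𝓐.indicator w) (nrc 𝓜) 𝓜.ν (𝓜.nrm h1 H.ok) δ' 𝓢 ψ a m e0
    (fun i x hx y hy => (cl i x hx y hy).imp (fun a => a.trans (H.δ_le.2 y (cell i hy)))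
      fun a => ⟨⟨y, hy, a.1⟩, by linarith [a.2]⟩)
    (fun j => ⟨let ⟨u, v, b1, b2, b3⟩ := 𝓜.cond H.ok j; ⟨u, v, b1, b2, b3.trans (H.L_ge j)⟩,
      fun i hi x hx => (H.near j (U_sub j (hi.2 hx))).2, n1 j⟩)
    (fun φ _ hφ => ⟨𝓜.MI_far φ ((far_iff 𝓜).1 hφ), ne_top_of_le_ne_top
      (hw ▸ wf_ne_top 𝓜 H.O_lf y1 fΓ φ) (indicator_le_self 𝓐 w φ)⟩)
    (fun i => ⟨(H.shell i).1, by
      rw [← show Ys i = _ from congrFun hYs i]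
      refine cand_ind (cand_mono (cand_shell 𝓜 h1 hs.pos.le ?_ ((y1 i).trans (H.O_sub i))
        (fun x hx => ⟨?_, fun j hj => ?_⟩) (y2 i)) w1) fun φ hφ =>
          (h𝓐 φ).2 fun z => disjoint_left.2 fun x hx hx' => ?_
      · exact le_of_mul_le_mul_right (by linarith) hs.pos
      · have b1 := H.O_sub i (y1 i hx)
        rw [hoff x fun z hz b2 => ?_]
        · exact (H.min_le x b1).trans_lt ((H.shell i).2.1 x b1 (y1 i hx))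
        · obtain ⟨q, hq, b3⟩ := zof_near hz
          exact disjoint_left.1 (y2 i) hx (mem_cubes.2 ⟨q, hq,
            (mem_closedBall.1 (b3 20 (by norm_num) b2)).trans (by linarith)⟩)
      · rw [hYs] at hx
        exact hx.2 (Or.inl (Or.inl (mem_iUnion.2 ⟨j, (H.near j (U_sub j hj)).2⟩)))
      · rw [hYs] at hφ
        exact (hφ hx).1.2 (Or.inr (z2 z (ball_subset_closedBall hx')))⟩)
    (by linarith) (fun q hq => cand_ind (cand_mono (h.cand' 𝓜 hs hV h1 Ys n hq) w1)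
      fun φ hφ => z5 φ (hφ.trans inter_subset_right))
    fun φ _ hφ => indicator_of_notMem (fun b1 => by
      obtain ⟨x, hx⟩ := 𝓜.Q.cell_nonempty φ
      obtain ⟨z, hz, b2⟩ := mem_iUnion₂.1 (hφ hx).1
      exact disjoint_left.1 ((h𝓐 φ).1 b1 ⟨z, hz⟩) hx
        (mem_ball_of r0 b2 fun b3 => (hφ hx).2 ⟨(hφ hx).1, b3⟩)) _
  have θ0 : 0 ≤ θ * s := r0.le.trans s3
  obtain ⟨h₂, r1, r2, r3, r4, r5⟩ := hR 𝓜 h1 h₁ x r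
    (fun z : tzi (2⁻¹ ^ k) P.w 𝓣 P₁ s => rc (2⁻¹ ^ k) P.w z) (fun _ => 2⁻¹ ^ k / 2)
    (⋃ j, cthickening (100 * (P.T j).b * P.η) (P.K j)) (deepc P₁ s θ) (𝓐.indicator w)
    (fun j => Γ j) hΩ H.ok e0 b3 (fun l => (b4 l).1.mono_right (union_subset_union_left _
      (iUnion_mono fun j => (H.near j).trans inter_subset_right)))
    (fun z => ⟨⟨half_pos r0, sub_rc 𝓜 hs hV (z1 z z.2.1)⟩, disjoint_union_right.2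
      ⟨disjoint_iUnion_right.2 fun j => disjoint_left.2 fun u hu => hU u (z1 z z.2.1 hu) j,
        (z3 z).mono_right (deep_cubes θ0)⟩, fun φ hφ => by
      obtain ⟨u, hu⟩ := 𝓜.Q.cell_nonempty φ
      have b7 := hφ.trans sphere_subset_closedBall
      refine ⟨𝓜.far_of hu (hs.size u (z1 z z.2.1 (b7 hu))).2, ?_⟩
      rw [indicator_of_mem (z5 φ (hφ.trans (sph_plns r0)))]
      refine le_trans ?_ (w1 φ)
      rw [wd_of 𝓜 θ0 hu fun b8 => disjoint_left.1 (z3 z) (b7 hu) (deep_cubes θ0 b8)]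
      exact (ENNReal.ofReal_le_ofReal (half_le_self r0.le)).trans (𝓜.le_wt' _ _ _ _
        (subset_inter (b7.trans (z1 z z.2.1)) (hφ.trans (sph_plns r0))))⟩)
    (fun z z' hz => ball_disj r0 (Subtype.coe_ne_coe.2 hz))
    (fun l z => (b4 l).2.2.elim (fun b7 => Or.inr (b7.mono ball_subset_closedBall
      (ball_subset_closedBall.trans (z2 z)))) fun ⟨b7, i, b8⟩ => b8 ▸ latt_dich r0 b7 i z)
    (enc_cubes r0 z4) (fun j i hi u hu => mem_iUnion.2 ⟨j, meet_U 𝓜 hi hu⟩) (h.deep_U hs)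
    (fun i φ b7 b8 b9 => by
      rw [indicator_of_mem ((h𝓐 φ).2 fun z => (b7 z).mono_left b9), hw]
      exact wf_face 𝓜 hok h𝓩 hs i φ b8 b9)
    fun φ j hj => by
      rw [indicator_of_mem ((h𝓐 φ).2 fun z => disjoint_left.2 fun u hu hu' =>
        hU u (z1 z z.2.1 (ball_subset_closedBall hu')) j (meet_U 𝓜 hj hu)), hw]
      exact wf_U 𝓜 φ j hj
  obtain ⟨h₃, k1, k2, k3⟩ := hN h₁.toFun h₂ B δ' e1 b6 r2 fun j i hi hd =>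
    (r3 j i hi hd).trans (add_le_add le_rfl e1)
  refine ⟨h₃, sup13 𝓜 H h'.mdf d3 (g := g.toFun)
    (fun l => (b3.sub l).subset_carrier.trans_eq 𝓜.carrier)
    (fun z : tzi (2⁻¹ ^ k) P.w 𝓣 P₁ s => z1 z z.2.1) b1 r1 k1
    (fun i u hu y hy => by linarith [cl' i u hu y hy]) fun l => (b4 l).2.1, ?_⟩
  have far : ∀ φ, 𝓜.far φ → 𝓜.Q.cell φ ⊆ Ω \ ⋃ j, (Y j).K := fun φ hφ u hu =>
    ⟨cell φ hu, fun b7 => let ⟨j, hj⟩ := mem_iUnion.1 b7; far_off 𝓜 hφ hu j (H.K_sub j hj)⟩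
  have k5 := hW (K := K₂ * CL) (g := g.toFun) (Ω \ ocubes (2⁻¹ ^ k) P.w 𝓣) H.meas
    (fun e x y he hs hZ => ⟨hseg e x y he hs, (o1.var e x y he hs).trans (add_le_add
      ((mul_le_mul_right (h'.len x y hZ) _).trans_eq (mul_assoc _ _ _).symm) le_rfl)⟩)
    fun e x y hf he hs _ => by
      have b7 := (q3 e x y he hs).1
      rw [g2 e (𝓜.far_keep H.ok hf).1] at b7
      exact hg ▸ b7
  have k4 := h.rhs' 𝓜 (Γ := ∑ j, (Γ j : ℝ≥0∞)) (𝓐 := 𝓐) hs hΩ H.K_V H.K_meas H.meas h1 p0 h𝓩 H.K_b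
    H.k_le.2
    (fun i hi => (H.shell i).2.2 (hi.mono (inter_subset_inter_left _ (y1 i)))) y1 H.O_disj y2
    (by linarith) far (L := (b + 1).toNNReal)
    (fun i hi => ha.lip h.bil (le_trans (by linarith) (Real.le_coe_toNNReal _)) hi)
    (fun φ b7 b8 b9 => k5 φ b8 fun u hu => ⟨cell φ hu, fun b10 => by
      obtain ⟨z, hz, b11⟩ := mem_iUnion₂.1 b10
      rw [int_rcube r0] at b11
      by_cases b12 : Disjoint (rcube (2⁻¹ ^ k) P.w z) (cubes P₁ (s / 2))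
      · exact disjoint_left.1 ((h𝓐 φ).1 b7 ⟨z, hz, b12⟩) hu b11
      obtain ⟨v, b13, b14⟩ := not_disjoint_iff.1 b12
      refine disjoint_left.1 (off_ball (sub_rc 𝓜 hs hV (z1 z hz)) fun b15 => b9 fun y hy =>
        ⟨z, ⟨v, b14, dy_eq P k ▸ b13⟩, ?_⟩) hu b11
      rw [← rcube_ball r0] at b15
      exact dy_eq P k ▸ b15 hy⟩) a3 (G := fun j => (Y j).G) hUG H.V_G
    (X' := X) (fun φ j hφ ⟨u, hu, hj⟩ y hy => H.X_ge ⟨⟨cell φ hy, mem_iUnion.2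
      ⟨j, mem_cthickening_of_dist_le y u _ _ hj (by
        have b7 := (𝓜.zone φ u hu).1
        rw [hoff u fun z hz b8 => disjoint_left.1 (H.V_G j) (hth z hz u b8) hj] at b7
        linarith [𝓜.far_diam φ hφ y hy u hu, min_le_right (ς u) (3 / 2 * P.η),
          Cube.eta_pos (P := P)])⟩⟩, (far φ hφ hy).2⟩) (Cu M₀)
    fun j => Ct M₀ (Y j).θ (Y j).N (Y j).t (Y j).L
  rw [← hw] at k4
  rw [ENNReal.coe_toNNReal (by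
    have := ENNReal.rpow_ne_top_of_nonneg p0.le (ENNReal.coe_ne_top (r := M₀))
    have := ENNReal.rpow_ne_top_of_nonneg (x := 2 * M₀ * (K₂ * CL)) p0.le (by finiteness)
    unfold cf
    finiteness)]
  refine arith (h.total 𝓜 hs hΩ hok h𝓩 hp H.meas H.K_meas H.K_b H.τ_mem.1 ha
    (by linarith [H.τ_mem.1]) (by linarith) (by linarith) b2 r4 k2) k3 r5
    (b5.trans (add_le_add k4 le_rfl)) (ENNReal.one_le_rpow one_le_two p0)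
    (ENNReal.rpow_le_rpow_of_exponent_le one_le_two (by linarith))
    (ENNReal.rpow_le_rpow (ENNReal.ofReal_le_ofReal (by linarith)) p0.le) (le_of_eq ?_)
    (lintegral_mono_set (sdiff_subset_sdiff_right
      (union_subset_union_right _ (iUnion_mono H.K_sub)))) e2
  rw [← ENNReal.ofReal_ofNat, ← ENNReal.ofReal_mul (by norm_num)]
  congr 1
  ring

end Gc

end P073
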