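import Vale.Agent.P073Y.Gc.Sk
import Vale.Agent.P073Y.Gd.Sharp
import Vale.Agent.P073Y.Ms.Geo
import Vale.Agent.P073Z.A7a.Cvx

/-!
# The source complexes near the cores
-/

open Set Metric Topology Filter MeasureTheory
open scoped ENNReal NNReal

namespace P073

namespace Gc

open Gd M2
open Me (dy)

variable {Ω : Set E3} {P : Par} {σ : E3 → ℝ} {𝓒 : Set (ℕ × (Fin 3 → ℤ))} {M₀ : ℝ≥0}
  {Mt : Ty → ℕ → ℝ≥0} {S₀ : Set E3} {S : Ty → ℕ → Set E3}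

/-- away from the special sets the two complexes have the same cells -/
theorem same (𝓜 : Mesh2 Ω P σ 𝓒 M₀ Mt S₀ S) (h : P.Ok Ω) {i' : 𝓜.Q'.ι} {x : E3}
    (hx : x ∈ 𝓜.Q'.ocell i') (hU : ∀ j, x ∉ P.U j) :
    ∃ i, 𝓜.Q.cell i = 𝓜.Q'.cell i' ∧ x ∈ 𝓜.Q.ocell i ∧ 𝓜.Q.dim i = 𝓜.Q'.dim i' := by
  obtain ⟨i, hi⟩ := 𝓜.back i' fun j h1 => hU j (fine_U h (h1 hx.1).1)
  refine ⟨i, hi, ?_, ?_⟩
  · rwa [𝓜.cvx.ocell_eq, hi, ← 𝓜.cvx'.ocell_eq]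
  · rw [(𝓜.cvx i).2.2, (𝓜.cvx' i').2.2, hi]

theorem hull_edge (P : Par) (k : ℕ) {x y ξ : E3} (h : segment ℝ x y = dy P k ⁻¹' hull ξ) :
    ∃ ζ, segment ℝ x y = dy P k ⁻¹' kcell ζ := by
  obtain ⟨ν, hν⟩ := Me.exists_dy P k
  have h0 : dy P k = ν := funext fun u => (hν u).symm
  rw [h0] at h ⊢
  have h1 : hull ξ = segment ℝ (ν x) (ν y) := by
    rw [← image_preimage_eq (hull ξ) ν.surjective, ← h]
    exact image_segment ℝ ν.toAffineEquiv.toAffineMap x y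
  obtain ⟨lo, hi, h2, h3⟩ := isBox_hull ξ
  obtain ⟨ζ, h4⟩ := G2.boxk 1 (hull ξ) le_rfl ⟨lo, hi, h2, h3⟩ fun u hu => by
    rw [Nat.cast_one, inv_one, one_smul]
    exact (box_seg h2 (h3.symm.trans h1)).2 (h1 ▸ hu)
  exact ⟨ζ, h4 ▸ h⟩

theorem meshc : MESHC := by
  intro Ω P σ 𝓒 M₀ Mt S₀ S 𝓜 k 𝓩 hok h𝓩
  have h1 : Cm Ω P k 𝓩 M₀ 𝓜.Q := by
    refine ⟨𝓜.cvx, 𝓜.carrier, 𝓜.mult, fun i z hz x hx h1 => ?_, fun e he z hz x hx h1 => ?_⟩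
    · exact (𝓜.core_nbr i _ (h𝓩 z hz) x hx (self_subset_cthickening (δ := 1) (ucube z) h1)).2.2.1
        ⟨_, h𝓩 z hz, h1⟩
    · obtain ⟨-, -, h2, h3⟩ := 𝓜.core_nbr e _ (h𝓩 z hz) x hx h1
      by_cases h4 : x ∈ Core P 𝓒
      · exact ⟨_, h2 h4⟩
      · obtain ⟨a, a', -, -, -, hs, -⟩ := 𝓜.cvx.exists_segment he
        rw [hs] at h3 ⊢
        exact hull_edge P k (h3 h4)
  refine ⟨h1, 𝓜.cvx', 𝓜.carrier', 𝓜.mult', fun i z hz x hx h2 => ?_, fun e he z hz x hx h2 => ?_⟩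
  · obtain ⟨l, h3, h4, -⟩ := same 𝓜 hok.ok hx
      (hok.cpin _ (h𝓩 z hz) x (self_subset_cthickening (δ := 2) (ucube z) h2)).2.2
    exact h3 ▸ h1.kuhn l z hz x h4 h2
  · obtain ⟨l, h3, h4, h5⟩ := same 𝓜 hok.ok hx
      (hok.cpin _ (h𝓩 z hz) x (cthickening_mono one_le_two (ucube z) h2)).2.2
    exact h3 ▸ h1.wire l (h5.trans he) z hz x h4 h2

end Gc

end P073
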