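import Vale.Agent.P073Y.Gc.Solid
import Vale.Agent.P073Y.Gc.MeshC
import Vale.Agent.P073Y.Zn.Bas
import Vale.Agent.P073Z.AVG

/-!
# The cores: selection, geometry, good cells and the energy on the cores
-/

open Set Metric Topology Filter MeasureTheory
open scoped ENNReal NNReal

namespace P073

namespace Gc

open Me (dy)
open An (M3)
open Zn (cubes deepc Cores)
open Vale.Agent.P073.HB (GoodSeg)

/-- the good cubes `P₁` and the bad cubes `P₂` for the shift `w` -/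
structure Sol (p : ℝ) (f : E3 → E3) (F : E3 → M3) (K V : Set E3) (b τ ρ s : ℝ) (w : E3)
    (P₁ P₂ : Finset E3) (A : E3 → M3) : Prop where
  lat : ∀ q, q ∈ P₁ ∨ q ∈ P₂ →
    q ∈ lat0 s ∧ closedBall q (3 * s) ⊆ V ∧ (closedBall q (s / 2) ∩ K).Nonempty
  cover : K ⊆ cubes P₁ (s / 2) ∪ cubes P₂ (s / 2)
  bil : ∀ q ∈ P₁, Bil b (A q)
  close : ∀ q ∈ P₁, Close f (A q) (closedBall q (2 * s)) (τ * ρ)
  int : ∀ q ∈ P₁, ∫⁻ x in closedBall q (3 * s), ‖F x - A q‖ₑ ^ p ≤ ENNReal.ofReal (τ * ρ ^ 3)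
  wire : ∀ q ∈ P₁, ∀ x y ζ, x ≠ y → segment ℝ x y = (fun u => ρ⁻¹ • (u - w)) ⁻¹' kcell ζ →
    segment ℝ x y ⊆ closedBall q (2 * s) →
    ∫⁻ u in segment ℝ x y, ‖F u - A q‖ₑ ∂(μH[1]) ≤ ENNReal.ofReal (τ * ρ)

variable {p b τ ρ s t r : ℝ} {Ω K V X : Set E3} {f g : E3 → E3} {F A : E3 → M3} {w : E3}
  {P₁ P₂ : Finset E3} {P : Par} {k : ℕ} {Q : RCx E3} {M₀ : ℝ≥0}

theorem mem_cubes {T : Finset E3} {x : E3} : x ∈ cubes T r ↔ ∃ q ∈ T, dist x q ≤ r := by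
  simp [cubes]

theorem exists_lat (hs : 0 < s) (x : E3) : ∃ q ∈ lat0 s, dist x q ≤ s / 2 := by
  refine ⟨fun i => (round (x i / s) : ℤ) * s, fun i => ⟨_, rfl⟩,
    (dist_pi_le_iff (by positivity)).2 fun i => ?_⟩
  have h5 := abs_sub_round (x i / s)
  rw [Real.dist_eq, show x i - (round (x i / s) : ℤ) * s =
    s * (x i / s - (round (x i / s) : ℤ)) by field_simp, abs_mul, abs_of_pos hs]
  nlinarith

/-- **selection of the cores** -/
theorem sel (h : SOLID0 p f F K V b) (hK : IsCompact K) (hV : IsOpen V) (hKV : K ⊆ V)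
    {N τ : ℝ} {δ : ℝ≥0∞} (hN : 1 ≤ N) (hτ : 0 < τ) (hδ : 0 < δ) : ∃ ρ₁ : ℝ, 0 < ρ₁ ∧
    ∀ ρ R : ℝ, 0 < ρ → ρ ≤ ρ₁ → ρ ≤ R → ∃ Φ, Mean R Φ δ ∧ ∀ w, ∃ P₁ P₂ A,
      Sol p f F K V b τ ρ (N * ρ) w P₁ P₂ A ∧ ENNReal.ofReal ((N * ρ) ^ 3) * P₂.card ≤ Φ w := by
  classical
  obtain ⟨ρ₁, h0, h⟩ := h N τ (δ / 2) hN hτ (ENNReal.half_pos hδ.ne')
  obtain ⟨r, hr, hV'⟩ := hK.exists_cthickening_subset_open hV hKV
  refine ⟨min ρ₁ (r / (4 * N)), by positivity, fun ρ R hρ h1 hR => ?_⟩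
  obtain ⟨h1, h2⟩ := le_min_iff.1 h1
  rw [le_div_iff₀ (by positivity)] at h2
  obtain ⟨P₀, A, Φ, h3, h4, h5, h6⟩ := h ρ R hρ h1 hR
  have hs : 0 < N * ρ := by positivity
  obtain ⟨T, hT⟩ := (cand_finite hK hs).exists_finset
  have h7 : {q ∈ lat0 (N * ρ) | (closedBall q (N * ρ / 2) ∩ K).Nonempty ∧ q ∉ P₀} =
      ↑(T \ P₀) := by
    ext q
    simp only [mem_ofPred_eq, Finset.mem_coe, Finset.mem_sdiff, hT, and_assoc]
  rw [h7, encard_coe_eq_coe_finsetCard, ENat.toENNReal_coe] at h4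
  have h8 : Mean R (fun _ => δ / 2) (δ / 2) := ⟨measurable_const, (setLIntegral_const _ _).le⟩
  refine ⟨_, (h8.add h5).mono (ENNReal.add_halves δ).le, fun w => ?_⟩
  obtain ⟨P₁, h9, h10, h11⟩ := h6 w
  refine ⟨P₁, T \ P₁, A, ⟨fun q hq => ?_, fun x hx => ?_, fun q hq => (h3 q (h9 hq)).2.2.2.1,
    fun q hq => (h3 q (h9 hq)).2.2.2.2.1, fun q hq => (h3 q (h9 hq)).2.2.2.2.2, h11⟩,
    le_trans ?_ (add_le_add h4 h10)⟩
  · obtain ⟨h12, y, h13⟩ : q ∈ lat0 (N * ρ) ∧ (closedBall q (N * ρ / 2) ∩ K).Nonempty :=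
      hq.elim (fun hq => ⟨(h3 q (h9 hq)).1, (h3 q (h9 hq)).2.1⟩)
        fun hq => (hT q).1 (Finset.mem_sdiff.1 hq).1
    refine ⟨h12, fun x hx => hV' (mem_cthickening_of_dist_le x y r K h13.2 ?_), y, h13⟩
    linarith [dist_triangle_right x y q, mem_closedBall.1 hx, mem_closedBall.1 h13.1]
  · obtain ⟨q, h12, h13⟩ := exists_lat hs x
    by_cases h14 : q ∈ P₁
    · exact Or.inl (mem_cubes.2 ⟨q, h14, h13⟩)
    · exact Or.inr (mem_cubes.2 ⟨q, Finset.mem_sdiff.2 ⟨(hT q).2 ⟨h12, x, h13, hx⟩, h14⟩, h13⟩)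
  · rw [← mul_add]
    refine mul_le_mul_right ?_ _
    exact_mod_cast (Finset.card_le_card (sdiff_triangle T P₀ P₁)).trans (Finset.card_union_le _ _)

theorem Sol.cores (h : Sol p f F K V b τ ρ s w P₁ P₂ A) {Ω₀ G : Set E3} {κ : ℝ} (hs : 0 ≤ s)
    (hV : V ⊆ Ω₀) (hG : Disjoint V G) (hb : 1 ≤ b) (hκ : b * (τ * ρ) ≤ κ * s) :
    Cores Ω₀ f G P₁ s b κ := by
  refine ⟨P₁.finite_toSet, fun q hq => ?_, fun q hq x hx y hy => ?_⟩
  · have h1 := (closedBall_subset_closedBall (show 3 * s / 2 ≤ 3 * s by linarith)).trans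
      (h.lat q (Or.inl hq)).2.1
    exact ⟨h1.trans hV, hG.mono_left h1⟩
  · have h0 := closedBall_subset_closedBall (x := q) (show 3 * s / 2 ≤ 2 * s by linarith)
    have h1 := h.close q hq y (h0 hy) x (h0 hx)
    have h2 := (h.bil q hq).2 (x - y)
    have h3 := (A q).le_of_opNorm_le (h.bil q hq).1 (x - y)
    have h4 := norm_le_norm_add_norm_sub (f x - f y) (A q (x - y))
    have h5 := norm_le_norm_add_norm_sub' (f x - f y) (A q (x - y))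
    have h6 := (norm_nonneg _).trans h1
    have h7 := mul_le_mul_of_nonneg_left (h4.trans (add_le_add_right h1 _)) (zero_le_one.trans hb)
    rw [dist_eq_norm, dist_eq_norm]
    exact ⟨by nlinarith, by linarith⟩

/-- separated points with balls in `Y` -/
theorem lcount (hr : 0 < r) (T : Finset E3) (hT : ∀ v ∈ T, ∀ i, ∃ m : ℤ, v i = w i + m * r)
    {Y : Set E3} (h : ∀ v ∈ T, ball v (r / 2) ⊆ Y) :
    ENNReal.ofReal (r ^ 3) * T.card ≤ volume Y := by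
  have h1 : (T : Set E3).PairwiseDisjoint fun v => ball v (r / 2) := fun u hu v hv hne => by
    obtain ⟨i, hi⟩ := Function.ne_iff.1 hne
    obtain ⟨m, hm⟩ := hT u hu i
    obtain ⟨n, hn⟩ := hT v hv i
    have h2 : (1:ℝ) ≤ |(m:ℝ) - n| := by
      exact_mod_cast Int.one_le_abs (sub_ne_zero.2 fun e => hi (by rw [hm, hn, e]))
    refine ball_disjoint_ball (le_trans ?_ (dist_le_pi_dist u v i))
    rw [Real.dist_eq, hm, hn, add_sub_add_left_eq_sub, ← sub_mul, abs_mul, abs_of_pos hr]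
    nlinarith
  refine le_trans (le_of_eq ?_) (measure_mono (iUnion₂_subset h))
  rw [measure_biUnion_finset h1 fun _ _ => measurableSet_ball, mul_comm, ← nsmul_eq_mul,
    ← Finset.sum_const]
  refine Finset.sum_congr rfl fun v _ => ?_
  rw [Real.volume_pi_ball _ (half_pos hr), Fintype.card_fin, mul_div_cancel₀ _ two_ne_zero]

theorem Sol.card (h : Sol p f F K V b τ ρ s w P₁ P₂ A) (hs : 0 < s) :
    ENNReal.ofReal (s ^ 3) * P₁.card ≤ volume V :=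
  lcount (w := 0) hs P₁ (fun q hq i => by simpa using (h.lat q (Or.inl hq)).1 i) fun q hq =>
    (ball_subset_closedBall.trans (closedBall_subset_closedBall (by linarith))).trans
      (h.lat q (Or.inl hq)).2.1

/-- the indices of the dyadic cubes which meet the cores -/
def zof (P : Par) (k : ℕ) (P₁ : Finset E3) (s : ℝ) : Set (Fin 3 → ℤ) :=
  {z | ∃ x ∈ cubes P₁ (s / 2), dy P k x ∈ ucube z}

theorem zof_fin (P : Par) (k : ℕ) (P₁ : Finset E3) (s : ℝ) : (zof P k P₁ s).Finite := by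
  obtain ⟨ν, hν⟩ := Me.exists_dy P k
  have h1 : IsCompact (cubes P₁ (s / 2)) :=
    P₁.finite_toSet.isCompact_biUnion fun q _ => isCompact_closedBall q _
  exact (Me.finite_cubes (h1.image ν.continuous).isBounded).subset fun z ⟨x, hx, h⟩ =>
    ⟨_, h, x, hx, hν x⟩

theorem cubes_sub (P : Par) (k : ℕ) (P₁ : Finset E3) (s : ℝ) :
    cubes P₁ (s / 2) ⊆ CoreZ P k (zof P k P₁ s) := fun x hx =>
  ⟨_, ⟨x, hx, Me.floor_mem _⟩, Me.floor_mem _⟩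

theorem zof_near {z : Fin 3 → ℤ} (hz : z ∈ zof P k P₁ s) : ∃ q ∈ P₁, ∀ c, 0 ≤ c →
    dy P k ⁻¹' cthickening c (ucube z) ⊆ closedBall q (s / 2 + (c + 1) * 2⁻¹ ^ k) := by
  obtain ⟨x, hx, h1⟩ := hz
  obtain ⟨q, hq, h2⟩ := mem_cubes.1 hx
  refine ⟨q, hq, fun c hc u hu => ?_⟩
  rw [mem_preimage, (show IsCompact (ucube z) from isCompact_Icc).cthickening_eq_biUnion_closedBall
    hc] at hu
  obtain ⟨ζ, h3, h4⟩ := mem_iUnion₂.1 hu
  have h5 := (dist_triangle _ _ _).trans (add_le_add h4 (Me.dist_ucube h3 h1))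
  have h6 := Me.dist_dy (P := P) k u x
  have h7 := mul_le_mul_of_nonneg_left h5 (show (0:ℝ) ≤ 2⁻¹ ^ k by positivity)
  rw [mem_closedBall]
  linarith [dist_triangle u x q]

theorem core_sub (P : Par) (k : ℕ) (P₁ : Finset E3) (s : ℝ) :
    CoreZ P k (zof P k P₁ s) ⊆ cubes P₁ (s / 2 + 2⁻¹ ^ k) := fun x ⟨z, hz, hx⟩ => by
  obtain ⟨q, hq, h⟩ := zof_near hz
  have h1 := h 0 le_rfl (self_subset_cthickening (δ := 0) (ucube z) hx)
  rw [zero_add, one_mul] at h1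
  exact mem_cubes.2 ⟨q, hq, h1⟩

/-- the neighbourhoods of the core cubes which matter for the mesh size are in `V` -/
theorem Sol.thick (h : Sol p f F K V b τ ρ s w P₁ P₂ A) (hs : 10 * (2:ℝ)⁻¹ ^ k ≤ s)
    {z : Fin 3 → ℤ} (hz : z ∈ zof P k P₁ s) {c : ℝ} (h0 : 0 ≤ c) (hc : c ≤ 20) :
    dy P k ⁻¹' cthickening c (ucube z) ⊆ V := by
  obtain ⟨q, hq, h1⟩ := zof_near hz
  have h2 : (0:ℝ) < 2⁻¹ ^ k := by positivity
  exact ((h1 c h0).trans (closedBall_subset_closedBall (by nlinarith))).trans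
    (h.lat q (Or.inl hq)).2.1

/-- `g` is affine on the cells inside `X` with derivatives close to the matrices -/
def Aff (Q : RCx E3) (X : Set E3) (P₁ : Finset E3) (A : E3 → M3) (r t : ℝ) (g : E3 → E3) :
    Prop :=
  ∀ i, Q.cell i ⊆ X → (∃ B : E3 →ᵃ[ℝ] E3, EqOn g B (Q.cell i)) ∧ ∃ q ∈ P₁,
    Q.cell i ⊆ closedBall q r ∧
    ∀ x ∈ Q.cell i, ∀ y ∈ Q.cell i, ‖g y - g x - A q (y - x)‖ ≤ t * ‖y - x‖

theorem Aff.congr (h : Aff Q X P₁ A r t g) {Q' : RCx E3} {g' : E3 → E3}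
    (h' : ∀ i, Q'.cell i ⊆ X → EqOn g' g (Q'.cell i) ∧ ∃ l, Q.cell l = Q'.cell i) :
    Aff Q' X P₁ A r t g' := fun i hi => by
  obtain ⟨h1, l, h2⟩ := h' i hi
  obtain ⟨⟨B, h3⟩, q, hq, h4, h5⟩ := h l (h2 ▸ hi)
  rw [h2] at h3 h4 h5
  exact ⟨⟨B, h1.trans h3⟩, q, hq, h4, fun x hx y hy => by
    rw [h1 hx, h1 hy]
    exact h5 x hx y hy⟩

theorem dy_eq (P : Par) (k : ℕ) : dy P k = fun u => ((2:ℝ)⁻¹ ^ k)⁻¹ • (u - P.w) := by
  rw [inv_pow, inv_inv]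
  rfl

/-- **the cells of the core are good** -/
theorem good_core {κ₀ : ℝ → ℝ} (hκ : ∀ M, 0 < κ₀ M) (M₀ : ℝ≥0) (hb : 1 ≤ b) :
    ∃ τ₀ M : ℝ, 0 < τ₀ ∧ 1 ≤ M ∧ ∀ {p τ s β : ℝ} {Ω K V : Set E3} {f : E3 → E3} {F A : E3 → M3}
    {P₁ P₂ : Finset E3} {P : Par} {k : ℕ} {Q : RCx E3},
    Sol p f F K V b τ (2⁻¹ ^ k) s P.w P₁ P₂ A → ContinuousOn f Ω → An.OpenOn f Ω → InjOn f Ω →
    V ⊆ Ω → Measurable F → 2 * (2:ℝ)⁻¹ ^ k ≤ s → Cm Ω P k (zof P k P₁ s) M₀ Q → 0 ≤ τ → τ ≤ τ₀ →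
    M * (2:ℝ)⁻¹ ^ k ≤ β →
    (∀ e x y, Q.dim e = 1 → Q.cell e = segment ℝ x y → GoodSeg f F x (y - x)) →
    ∃ γ : Good Q f κ₀ β, (∀ i, i ∈ γ.G ↔ Q.cell i ⊆ CoreZ P k (zof P k P₁ s)) ∧
      (∀ i ∈ γ.G, ∀ x ∈ Q.cell i, dist (γ.A i x) (f x) ≤ 2 * (τ * (2:ℝ)⁻¹ ^ k)) ∧
      ∀ g, (∀ i ∈ γ.G, EqOn g (γ.A i) (Q.cell i)) →
        Aff Q (CoreZ P k (zof P k P₁ s)) P₁ A (s / 2 + 2⁻¹ ^ k) (8 * τ) g := by
  obtain ⟨τ₀, M, h0, h1, H⟩ := goodc κ₀ hκ M₀ b hb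
  refine ⟨τ₀ / 2, M, half_pos h0, h1, ?_⟩
  intro p τ s β Ω K V f F A P₁ P₂ P k Q h hf ho hi hV hF hs hQ hτ hτ' hβ hg
  have hρ : (0:ℝ) < 2⁻¹ ^ k := by positivity
  choose! q hq hq' using fun z (hz : z ∈ zof P k P₁ s) => zof_near hz
  have h2 : ∀ z ∈ zof P k P₁ s, ∀ c, 0 ≤ c → c ≤ 2 →
      dy P k ⁻¹' cthickening c (ucube z) ⊆ closedBall (q z) (2 * s) := fun z hz c h3 h4 =>
    (hq' z hz c h3).trans (closedBall_subset_closedBall (by nlinarith))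
  obtain ⟨γ, h3, h4⟩ := H P k _ Q (fun z => A (q z)) hf ho hi (zof_fin P k P₁ s) hQ hτ
    (by linarith) hβ (fun z hz => ⟨h.bil _ (hq z hz), ((h2 z hz 2 zero_le_two le_rfl).trans
      (closedBall_subset_closedBall (by linarith))).trans ((h.lat _ (Or.inl (hq z hz))).2.1.trans
        hV), (h.close _ (hq z hz)).mono (h2 z hz 2 zero_le_two le_rfl)⟩)
    fun z hz e x y he hxy _ ⟨ζ, hζ⟩ h5 => by
      have h6 := (Gd.edge_ends hQ.cvx he hxy).1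
      rw [hxy] at hζ h5
      refine (segv (A (q z)) le_rfl h6 hF (hg e x y he hxy)).2.2.1.trans
        ((mul_le_mul_right (h.wire _ (hq z hz) x y ζ h6 (dy_eq P k ▸ hζ)
          (h5.trans (h2 z hz 1 zero_le_one one_le_two))) _).trans ?_)
      rw [← ENNReal.ofReal_ofNat, ← ENNReal.ofReal_mul zero_le_two]
      exact ENNReal.ofReal_le_ofReal (by nlinarith)
  refine ⟨γ, h3, fun i hi => (h4 i hi).2.2.2.1, fun g hg i hi => ?_⟩
  obtain ⟨-, -, ⟨z, hz, h5⟩, -, h6, -⟩ := h4 i ((h3 i).2 hi)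
  replace h5 := h5.trans (preimage_mono (self_subset_cthickening (δ := 0) _))
  have h7 := hg i ((h3 i).2 hi)
  refine ⟨⟨_, h7⟩, q z, hq z hz, h5.trans ((hq' z hz 0 le_rfl).trans (by simp)),
    fun x hx y hy => ?_⟩
  rw [h7 hx, h7 hy]
  exact h6 _ τ ((h.close _ (hq z hz)).mono (h5.trans (h2 z hz 0 le_rfl zero_le_two))) x hx y hy

theorem Aff.lip (h : Aff Q X P₁ A r t g) (hA : ∀ q ∈ P₁, Bil b (A q)) {L : ℝ≥0} (hL : b + t ≤ L)
    {i : Q.ι} (hi : Q.cell i ⊆ X) : LipschitzOnWith L g (Q.cell i) := by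
  obtain ⟨-, q, hq, -, h1⟩ := h i hi
  refine LipschitzOnWith.of_dist_le_mul fun y hy x hx => ?_
  have h2 := (A q).le_of_opNorm_le (hA q hq).1 (y - x)
  have h3 := norm_le_norm_add_norm_sub' (g y - g x) (A q (y - x))
  rw [dist_eq_norm, dist_eq_norm]
  nlinarith [h1 x hx y hy, mul_le_mul_of_nonneg_right hL (norm_nonneg (y - x))]

theorem Aff.fderiv (h : Aff Q X P₁ A r t g) (ht : 0 ≤ t) {i : Q.ι} (hi : Q.cell i ⊆ X)
    {k : E3 → E3} (hk : EqOn k g (interior (Q.cell i))) {x : E3} (hx : x ∈ interior (Q.cell i)) :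
    ∃ q ∈ P₁, x ∈ closedBall q r ∧ ‖fderiv ℝ k x - A q‖ ≤ t := by
  obtain ⟨⟨B, h1⟩, q, hq, h2, h3⟩ := h i hi
  have h0 := isOpen_interior.mem_nhds hx
  have h4 : k =ᶠ[𝓝 x] B := eventuallyEq_of_mem h0 (hk.trans (h1.mono interior_subset))
  have h5 : DifferentiableAt ℝ k x :=
    ((⟨B, B.continuous_of_finiteDimensional⟩ : E3 →ᴬ[ℝ] E3).differentiable x).congr_of_eventuallyEq
      h4
  refine ⟨q, hq, h2 (interior_subset hx), (h5.hasFDerivAt.sub (A q).hasFDerivAt).le_of_lip' ht ?_⟩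
  filter_upwards [h0] with y hy
  have h6 := h3 x (interior_subset hx) y (interior_subset hy)
  rwa [← hk hx, ← hk hy, map_sub, sub_sub_sub_comm] at h6

/-- **the energy on the cores** -/
theorem Sol.energy (h : Sol p f F K V b τ ρ s w P₁ P₂ A) (hp : 1 ≤ p) (hF : Measurable F)
    (hQ : Q.Cvx) (ha : Aff Q X P₁ A r t g) (hX : X ⊆ V) (hτ : 0 ≤ τ) (h0 : 0 ≤ t) (h1 : t ≤ 1)
    (hρ : 0 ≤ ρ) (hρ' : ρ ≤ s) (hs : 0 < s) (hr : r ≤ 3 * s) {𝓖 : Set Q.ι} (hG : 𝓖.Countable)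
    {k : E3 → E3} (hk : ∀ c ∈ 𝓖, Q.cell c ⊆ X ∧ EqOn k g (interior (Q.cell c))) :
    ∫⁻ x in ⋃ c ∈ 𝓖, Q.cell c, ‖fderiv ℝ k x - F x‖ₑ ^ p ≤
      2 ^ (p - 1) * (ENNReal.ofReal (t + τ) * volume V) := by
  have hm : ∀ q, Measurable ((closedBall q (3 * s)).indicator fun x => ‖F x - A q‖ₑ ^ p) :=
    fun q => ((hF.sub_const _).enorm.pow_const p).indicator measurableSet_closedBall
  have h2 : (⋃ c ∈ 𝓖, Q.cell c : Set E3) =ᵐ[volume] (⋃ c ∈ 𝓖, interior (Q.cell c) : Set E3) :=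
    Filter.EventuallyEq.countable_bUnion hG fun c _ =>
      (interior_ae_eq_of_null_frontier ((hQ c).1.addHaar_frontier volume)).symm
  have h3 : MeasurableSet (⋃ c ∈ 𝓖, interior (Q.cell c)) :=
    (isOpen_biUnion fun _ _ => isOpen_interior).measurableSet
  rw [setLIntegral_congr h2]
  refine (setLIntegral_mono' (g := fun x => 2 ^ (p - 1) * (ENNReal.ofReal t +
    ∑ q ∈ P₁, (closedBall q (3 * s)).indicator (fun x => ‖F x - A q‖ₑ ^ p) x)) h3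
    fun x hx => ?_).trans ?_
  · obtain ⟨c, hc, hx⟩ := mem_iUnion₂.1 hx
    obtain ⟨q, hq, h4, h5⟩ := ha.fderiv h0 (hk c hc).1 (hk c hc).2 hx
    have h6 : ‖fderiv ℝ k x - F x‖ₑ ≤ ENNReal.ofReal t + ‖F x - A q‖ₑ := by
      rw [← sub_sub_sub_cancel_right _ _ (A q)]
      refine enorm_sub_le.trans (add_le_add ?_ le_rfl)
      rw [← ofReal_norm]
      exact ENNReal.ofReal_le_ofReal h5
    refine ((ENNReal.rpow_le_rpow h6 (by linarith)).trans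
      (ENNReal.rpow_add_le_mul_rpow_add_rpow _ _ hp)).trans (mul_le_mul_right (add_le_add
        (ENNReal.rpow_le_self_of_le_one (ENNReal.ofReal_le_one.2 h1) hp) ?_) _)
    exact (indicator_of_mem (closedBall_subset_closedBall hr h4) _).ge.trans
      (Finset.single_le_sum (f := fun q => (closedBall q (3 * s)).indicator
        (fun x => ‖F x - A q‖ₑ ^ p) x) (fun _ _ => zero_le) hq)
  · rw [lintegral_const_mul' _ _ (ENNReal.rpow_ne_top_of_nonneg (by linarith) (by simp)),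
      lintegral_add_left measurable_const, setLIntegral_const, lintegral_finsetSum _
        fun q _ => hm q, ENNReal.ofReal_add h0 hτ, add_mul]
    refine mul_le_mul_right (add_le_add (mul_le_mul_right (measure_mono (iUnion₂_subset
      fun c hc => interior_subset.trans ((hk c hc).1.trans hX))) _) ?_) _
    refine (Finset.sum_le_card_nsmul _ _ (ENNReal.ofReal (τ * s ^ 3)) fun q hq => ?_).trans ?_
    · refine (setLIntegral_le_lintegral _ _).trans ?_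
      rw [lintegral_indicator measurableSet_closedBall]
      exact (h.int q hq).trans (ENNReal.ofReal_le_ofReal (by gcongr))
    · rw [nsmul_eq_mul, ENNReal.ofReal_mul hτ, mul_comm, mul_assoc]
      exact mul_le_mul_right (h.card hs) _

end Gc

end P073
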