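import Vale.Agent.P073Y.Gc.Tot
import Vale.Agent.P073Y.Ms.Start

/-!
# The construction for a fixed shift: statement
-/

open Set Metric Topology Filter MeasureTheory
open scoped ENNReal NNReal

namespace P073

namespace Gc

open An (M3)
open M2 Zn
open _root_.P073.Top
open Nr (nrc nrs farE Ref Pre2)
open G2 (Fine1)
open Vale.Agent.P073.HB (GoodSeg)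

/-- the inner clause of `BATCH` -/
def BIn (p c₀ : ℝ) (Cz : ℝ → ℝ≥0) (CM : ℝ → ℝ≥0 → ℝ≥0) (Cu : ℝ≥0 → ℝ≥0)
    (Ct : ℝ≥0 → ℝ → ℕ → ℝ → ℝ≥0 → ℝ≥0) (κ : ℝ) {Ω : Set E3} (Λ Ω₀ : Set E3) {f : E3 → E3} (ε : ℝ)
    {J : Type} [Fintype J] (Y : J → TyZ Ω f) (T : J → (E3 ≃ᴬ[ℝ] E3)) (B : J → Set (Fin 3 → ℤ))
    (s₁ s b θ e : ℝ) (o : E3 → ℝ) (O : ℕ → Set E3) (σ₀ : ℕ → ℝ) : Prop :=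
  ∀ P : Set E3, Cores Ω₀ f (⋃ j, (Y j).G) P s b κ →
  ∀ (S : Src Ω) (g : ConHomeo Ω Λ) (M₀ : ℝ≥0) (w₀ : E3) (σ : ℕ → ℝ) (ρ : ℝ)
    (w : S.Q.ι → ℝ≥0∞) (Nr : J → Set S.Q.ι) (ν : J → (E3 ≃ᴬ[ℝ] E3)) (n : ∀ j, Nrm S (ν j))
    (η : ℝ≥0∞) (𝓢 : J → Set S.Q.ι) (ψ : J → S.Q.ι → (E2 →ᵃ[ℝ] E3)) (a : J → S.Q.ι → ℝ)
    {ι : Type} [Fintype ι] (m : J → ι → S.Q.ι → ℝ≥0∞), 0 < η →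
    (∀ c, ∀ x ∈ S.Q.cell c, ∀ y ∈ S.Q.cell c, dist (g.toFun x) (f y) ≤ o y ∨
      ((S.Q.cell c ∩ cubes P (3 * s / 4)).Nonempty ∧ dist (g.toFun x) (f y) ≤ κ * s)) →
    (∀ j, Cond (ν j) (Y j).L ∧ (∀ c ∈ Nr j, S.Q.cell c ⊆ thickening s₁ (Y j).K) ∧
      ∀ φ ∈ 𝓢 j, Marked (n j).src (T j ∘ g.toFun ∘ (ν j).symm) (Y j).θ φ (ψ j φ) (a j φ)) →
    (∀ φ, S.Q.dim φ = 2 → (∀ j, φ ∉ Nr j) → S.M φ = M₀ ∧ w φ ≠ ⊤) →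
    (∀ k, σ k ≤ σ₀ k ∧
      Cand S w₀ (σ k) (O k \ ((⋃ j, thickening s₁ (Y j).K) ∪ cubes P (3 * s / 4))) w) →
    ρ ≤ κ * s → (∀ q ∈ P, Cand S w₀ ρ (closedBall q (3 * s / 2) \ deepc P s θ) w) →
  ∃ (h : ConHomeo Ω Λ) (I : Type) (x : I → E3) (r : I → ℝ),
    (∀ u ∈ Ω, dist (h.toFun u) (f u) ≤ ε) ∧ EqOn h.toFun g.toFun (deepc P s θ) ∧ Free S x r ∧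
    (∀ k, Disjoint (closedBall (x k) (r k)) ((⋃ j, thickening s₁ (Y j).K) ∪ deepc P s θ) ∧
      ∀ u ∈ closedBall (x k) (r k), ∀ u' ∈ closedBall (x k) (r k), dist (f u) (f u') ≤ ε) ∧
    (tot {φ | S.Q.dim φ = 2 ∧ (∀ j, φ ∉ Nr j) ∧ ∀ k, Disjoint (S.Q.cell φ) (ball (x k) (r k))}
        (fun φ => w φ * S.E p h.toFun φ) +
      ∑' k, ENNReal.ofReal (r k) * En 2 p h.toFun (sphere (x k) (r k)) ≤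
      Cu M₀ * tot {φ | S.Q.dim φ = 2 ∧ ∀ j, φ ∉ Nr j}
        (fun φ => w φ * pot S p g.toFun (cubes P (s / 2)) φ) +
      ∑ j, Ct M₀ (Y j).θ (Y j).N (Y j).t (Y j).L *
        tot {φ | S.Q.dim φ = 2 ∧ (∀ j, φ ∉ Nr j) ∧ (S.Q.cell φ ∩ (Y j).G).Nonempty}
          (fun φ => w φ * S.W p g.toFun φ) + η) ∧
    ∀ j, (∀ φ ∈ Nr j, ∀ u ∈ S.Q.cell φ, ∃ z, nbr 1 {z} ⊆ B j ∧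
        T j (g.toFun u) ∈ lbox (Y j).N 0 z) ∧
      ∃ c k, NearOut p c₀ (Y j).θ (Y j).ϑ e (Cz (Y j).θ) (CM (Y j).θ) (n j).src (Y j).N (Y j).t
        (B j) (T j ∘ g.toFun ∘ (ν j).symm) (T j ∘ h.toFun ∘ (ν j).symm) (Nr j) η (𝓢 j) (ψ j)
        (a j) (m j) c k

/-- the inner clause of `NEAR2` at the shift `P.w`; `Φ` is the value of the functional -/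
def NIn (p : ℝ) (K₂ : ℝ≥0) {M₀ : ℝ≥0} (h1 : 1 ≤ M₀) (c₀ : ℝ) (Cz : ℝ → ℝ≥0)
    (CM : ℝ → ℝ≥0 → ℝ≥0) (CR : ℝ≥0 → ℝ≥0) (Mt : Ty → ℕ → ℝ≥0) (Sl : Ty → ℕ → Set E3)
    {Ω : Set E3} (Λ : Set E3) {f : E3 → E3} (F : E3 → M3) (P : Par) (Y : Fin P.N → TyZ Ω f)
    (Tg : Fin P.N → (E3 ≃ᴬ[ℝ] E3)) (Γ : Fin P.N → ℝ≥0) (o e d β' : ℝ) (Φ : ℝ≥0∞) : Prop :=
  ∀ {σ : E3 → ℝ} {𝓒 : Set (ℕ × (Fin 3 → ℤ))} {S₀ : Set E3} (𝓜 : Mesh2 Ω P σ 𝓒 M₀ Mt S₀ Sl)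
    (ok : P.Ok Ω) (β : ℝ), β' ≤ β →
  (∀ j, ∀ x ∈ P.U j, ∀ y ∈ Ω, dist (f x) (f y) ≤ 20 * β' → dist x y ≤ d) →
  (∀ e x y, 𝓜.Q'.dim e = 1 → 𝓜.Q'.cell e = segment ℝ x y → GoodSeg f F x (y - x)) →
  ∃ (γ : Fin P.N → Good 𝓜.Q' f STR.kap β) (δ : ℝ≥0∞) (Pw : 𝓜.Q.ι → (E3 ≃L[ℝ] E3)), 0 < δ ∧
    (∀ j, ∀ i ∈ (γ j).G, 𝓜.Q'.cell i ⊆ Fine1 P j ∧
      ∀ x ∈ 𝓜.Q'.cell i, ∃ v ∈ 𝓜.Q'.cell i ∩ (Y j).K, dist ((γ j).A i x) (f v) ≤ β') ∧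
    (∀ e, (∀ j, ¬ 𝓜.Q.cell e ⊆ Fine1 P j) → Pw e = ContinuousLinearEquiv.refl ℝ E3) ∧
  ∀ (g₀ Θ g : E3 → E3), (∀ x, g x = g₀ (Θ x)) → Pre2 P 𝓜.Q 𝓜.Q' f g₀ Θ K₂ γ Pw o δ →
  ∃ (𝓢 : Fin P.N → Set 𝓜.Q.ι) (ψ : Fin P.N → 𝓜.Q.ι → (E2 →ᵃ[ℝ] E3)) (a : Fin P.N → 𝓜.Q.ι → ℝ)
    (m : Fin P.N → Fin 4 → 𝓜.Q.ι → ℝ≥0∞),
    (∀ j, ∀ φ ∈ 𝓢 j, Marked (𝓜.nrm h1 ok j).src (Tg j ∘ g ∘ (𝓜.ν j).symm) (Y j).θ φ (ψ j φ)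
      (a j φ)) ∧
  ∀ (h : E3 → E3) (h' : ConHomeo Ω Λ) (B : Fin P.N → Set (Fin 3 → ℤ)) (η : ℝ≥0∞), η ≤ δ →
    (∀ j, (∀ φ ∈ nrc 𝓜 j, ∀ u ∈ 𝓜.Q.cell φ,
        ∃ z, nbr 1 {z} ⊆ B j ∧ Tg j (g u) ∈ lbox (Y j).N 0 z) ∧
      ∃ c k, NearOut p c₀ (Y j).θ (Y j).ϑ e (Cz (Y j).θ) (CM (Y j).θ) (𝓜.nrm h1 ok j).src (Y j).N
        (Y j).t (B j) (Tg j ∘ g ∘ (𝓜.ν j).symm) (Tg j ∘ h ∘ (𝓜.ν j).symm) (nrc 𝓜 j) η (𝓢 j)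
        (ψ j) (a j) (m j) c k) →
    (∀ j, ∀ u ∈ 𝓜.Q.skel 2 ∩ nrs 𝓜 j, h'.toFun u = h u) → (∀ j, Ref 𝓜 p CR h h'.toFun δ j) →
    ∃ k : ConHomeo Ω Λ, (∀ x ∈ Ω, ∃ y ∈ Ω, dist y x ≤ P.ς x ∧ k.toFun x = h'.toFun y) ∧
      (∀ x, (∀ j, x ∉ nrs 𝓜 j) → k.toFun =ᶠ[𝓝 x] h'.toFun) ∧
      ∑ j, ∫⁻ x in nrs 𝓜 j, ‖fderiv ℝ k.toFun x - F x‖ₑ ^ p ≤ Φ + ∑ j, Γ j * farE 𝓜 p h j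

/-- the inequalities and inclusions; `ρ = 2⁻¹ ^ k` is the mesh of the cores, `δ` the gauge in the
target, `ς` the bound for the mesh size, `2⁻¹ ^ n i` the step of the candidate planes in `O i` -/
structure Hy {Ω : Set E3} (Λ Ω₀ K V X : Set E3) (f f' : E3 → E3) (F : E3 → M3) (P : Par)
    (Y : Fin P.N → TyZ Ω f) (b τ₀ D τ s θ κ ε s₁ oN d β' : ℝ) (k n₀ : ℕ) (ς δ o : E3 → ℝ)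
    (O : ℕ → Set E3) (σ₀ : ℕ → ℝ) (n : ℕ → ℕ) : Prop where
  std : Std Ω Λ f f'
  meas : Measurable F
  ok : P.Ok Ω
  good : ∀ x y : E3, segment ℝ x y ⊆ Ω → (∀ i, ∃ q : ℚ, x i = P.w i + q) →
    (∀ i, ∃ q : ℚ, y i = P.w i + q) → GoodSeg f F x (y - x)
  K_meas : MeasurableSet K
  K_V : K ⊆ V
  K_b : ∀ x ∈ K, ‖F x‖ ≤ b
  V_sub : V ⊆ Ω₀
  Ω₀_sub : Ω₀ ⊆ Ω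
  V_G : ∀ j, Disjoint V (Y j).G
  K_sub : ∀ j, (Y j).K ⊆ P.K j
  near : ∀ j, cthickening (100 * (P.T j).b * P.η) (P.K j) ⊆ (Y j).G ∩ thickening s₁ (Y j).K
  L_ge : ∀ j, ((P.T j).b : ℝ≥0) ^ 2 * P.m j ≤ (Y j).L
  X_ge : (Ω ∩ ⋃ j, cthickening (3 * P.η) (Y j).G) \ (⋃ j, (Y j).K) ⊆ X
  τ_mem : 0 ≤ τ ∧ τ ≤ τ₀
  k_le : k ≤ P.k₀ ∧ k ≤ n₀
  s_ge : D * 2⁻¹ ^ k ≤ s ∧ D * 2⁻¹ ^ k ≤ κ * s ∧ 2⁻¹ ^ k ≤ θ * s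
  ρ_le : D * 2⁻¹ ^ k ≤ ε ∧ D * 2⁻¹ ^ k ≤ oN
  far : ∀ j, ∀ v ∈ (Y j).K, ∀ x ∈ V, D * 2⁻¹ ^ k ≤ dist (f v) (f x)
  tg : Tg Λ δ
  δ_le : (∀ z, δ z ≤ 2⁻¹ ^ k) ∧ ∀ y ∈ Ω, 6 * δ (f y) ≤ o y
  osc : ∀ x ∈ Ω, ∀ y ∈ Ω, dist y x ≤ 2 * P.ς x → dist (f y) (f x) < δ (f x)
  shell : ∀ i, 2⁻¹ ^ n i ≤ σ₀ i ∧ (∀ x ∈ Ω, x ∈ O i → P.ς x < 2 * 2⁻¹ ^ n i) ∧
    ((O i ∩ K).Nonempty → n i = n₀)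
  O_sub : ∀ i, O i ⊆ Ω
  O_lf : LFIn O Ω
  O_disj : ∀ i i', i + 2 ≤ i' → Disjoint (O i) (O i')
  lip : LipschitzWith (1 / 10) ς
  pos : ∀ x ∈ Ω, 0 < ς x ∧ closedBall x (ς x) ⊆ Ω
  le_ς : (∀ x, P.ς x ≤ ς x) ∧ ∀ x ∈ V, 2 * 2⁻¹ ^ k ≤ ς x
  min_le : ∀ x ∈ Ω, min (ς x) (3 / 2 * P.η) ≤ P.ς x
  β_pos : 0 < β'
  β_le : ∀ j, ∀ v ∈ (Y j).K, 201 * β' ≤ δ (f v)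
  sep : ∀ j j', j ≠ j' → ∀ v ∈ (Y j).K, ∀ v' ∈ (Y j').K, 12 * β' ≤ dist (f v) (f v')
  inv : ∀ j, ∀ x ∈ P.U j, ∀ y ∈ Ω, dist (f x) (f y) ≤ 20 * β' → dist x y ≤ d

/-- **the construction for a fixed shift** -/
def FIX (p : ℝ) : Prop := ∃ (K₂ : ℝ≥0) (CR : ℝ≥0 → ℝ≥0) (Cf : ℝ≥0 → ℝ≥0 → ℝ≥0),
  ∀ {M₀ : ℝ≥0} (h1 : 1 ≤ M₀) (b : ℝ), 1 ≤ b → ∃ τ₀ D : ℝ, 0 < τ₀ ∧ 1 ≤ D ∧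
  ∀ {Ω Λ Ω₀ K V X : Set E3} {f f' : E3 → E3} {F A : E3 → M3} {P : Par} {Y : Fin P.N → TyZ Ω f}
    {τ s θ κ ε s₁ oN d β' c₀ e : ℝ} {k n₀ : ℕ} {ς δ o : E3 → ℝ} {O : ℕ → Set E3} {σ₀ : ℕ → ℝ}
    {n : ℕ → ℕ} {Cz : ℝ → ℝ≥0} {CM : ℝ → ℝ≥0 → ℝ≥0} {Cu : ℝ≥0 → ℝ≥0}
    {Ct : ℝ≥0 → ℝ → ℕ → ℝ → ℝ≥0 → ℝ≥0} {Mt : Ty → ℕ → ℝ≥0} {S₀ : Set E3} {Sl : Ty → ℕ → Set E3}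
    {Tg : Fin P.N → (E3 ≃ᴬ[ℝ] E3)} {B : Fin P.N → Set (Fin 3 → ℤ)} {Γ : Fin P.N → ℝ≥0}
    {P₁ P₂ : Finset E3} {Φ δ₀ : ℝ≥0∞},
  Hy Λ Ω₀ K V X f f' F P Y b τ₀ D τ s θ κ ε s₁ oN d β' k n₀ ς δ o O σ₀ n →
  (∀ σ 𝓒, Ok2 Ω P σ 𝓒 → Nonempty (Mesh2 Ω P σ 𝓒 M₀ Mt S₀ Sl)) →
  Sol p f F K V b τ (2⁻¹ ^ k) s P.w P₁ P₂ A →
  BIn p c₀ Cz CM Cu Ct κ Λ Ω₀ ε Y Tg B s₁ s b θ e o O σ₀ →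
  NIn p K₂ h1 c₀ Cz CM CR Mt Sl Λ F P Y Tg Γ oN e d β' Φ → 0 < δ₀ →
  ∃ h : ConHomeo Ω Λ, (∀ u ∈ Ω, dist (h.toFun u) (f u) ≤ 4 * ε) ∧
    ∫⁻ x in Ω, ‖fderiv ℝ h.toFun x - F x‖ₑ ^ p ≤ Φ + Cf M₀ (Cu M₀) *
      (LAM S₀ ς P.k₀ k O n (Ω \ ⋃ j, (Y j).K) (Kᶜ.indicator fun x => ‖F x‖ₑ ^ p) P.w +
        (1 + ∑ j, (Γ j : ℝ≥0∞)) * (1 + ∑ j, (Ct M₀ (Y j).θ (Y j).N (Y j).t (Y j).L : ℝ≥0∞)) *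
          LAM S₀ ς P.k₀ k O n X (fun x => ‖F x‖ₑ ^ p) P.w +
        ENNReal.ofReal (b + 1) ^ p *
          (ENNReal.ofReal (s ^ 3) * P₂.card + ENNReal.ofReal θ * volume V) +
        ENNReal.ofReal τ * volume V + ∫⁻ x in Ω \ (K ∪ ⋃ j, (Y j).K), ‖F x‖ₑ ^ p) + δ₀

end Gc

end P073
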