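import Vale.Agent.P073Y.Gc.Fix2Sk

/-!
# The threshold for the modified map
-/

open Set Metric Topology Filter MeasureTheory
open scoped ENNReal NNReal

namespace P073

namespace Gc

open M2 Zn P2

theorem rcube_eq {ρ : ℝ} (hρ : 0 < ρ) (w : E3) (z : Fin 3 → ℤ) :
    rcube ρ w z = Icc (fun i => w i + z i * ρ) (fun i => w i + (z i + 1 : ℤ) * ρ) := by
  ext x
  simp only [rcube, ucube, mem_preimage, mem_Icc, Pi.le_def, Pi.smul_apply, Pi.sub_apply,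
    smul_eq_mul, Int.cast_add, Int.cast_one, le_inv_mul_iff₀ hρ, inv_mul_le_iff₀ hρ]
  exact and_congr (forall_congr' fun i => ⟨fun h => by linarith, fun h => by linarith⟩)
    (forall_congr' fun i => ⟨fun h => by linarith, fun h => by linarith⟩)

theorem isCompact_rcube {ρ : ℝ} (hρ : 0 < ρ) (w : E3) (z : Fin 3 → ℤ) :
    IsCompact (rcube ρ w z) := rcube_eq hρ w z ▸ isCompact_Icc

theorem isClosed_plns {ρ : ℝ} (hρ : 0 < ρ) (w : E3) : IsClosed (plns w ρ) := by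
  have e : plns w ρ = ⋃ i, (fun x : E3 => (x i - w i) / ρ) ⁻¹' range ((↑) : ℤ → ℝ) := by
    ext x
    simp only [plns, mem_ofPred_eq, mem_iUnion, mem_preimage, mem_range, eq_div_iff hρ.ne']
    exact exists_congr fun i => exists_congr fun k => ⟨fun h => by linarith, fun h => by linarith⟩
  rw [e]
  exact isClosed_iUnion_of_finite fun i =>
    Int.isClosedEmbedding_coe_real.isClosed_range.preimage (by fun_prop)

theorem rcube_nhds {ρ : ℝ} (hρ : 0 < ρ) {w x : E3} {z : Fin 3 → ℤ} (hx : x ∈ rcube ρ w z)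
    (h : x ∉ plns w ρ) : rcube ρ w z ∈ 𝓝 x := by
  rw [rcube_eq hρ] at hx ⊢
  exact pi_Icc_mem_nhds (fun i => lt_of_le_of_ne (hx.1 i) fun e => h ⟨i, _, e.symm⟩)
    fun i => lt_of_le_of_ne (hx.2 i) fun e => h ⟨i, _, e⟩

theorem thr : THR := by
  intro p c₀ κ ε s₁ s₀ s b θ e τ d₁ Cz CM Cu Ct Ω Λ Ω₀ K V f f₁ f₁' J _ Y T B o O σ₀ C F A k w
    P₁ P₂ 𝓣 hB H hK hV hΩ hG hb hs hd hκ
  have hρ : (0 : ℝ) < 2⁻¹ ^ k := by positivity
  have hG' : Disjoint V (⋃ j, (Y j).G) := disjoint_iUnion_right.2 hG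
  have h1 : V ⊆ Ω₀ \ ⋃ j, (Y j).G := subset_sdiff.2 ⟨hV, hG'⟩
  have h2 : tzs (2⁻¹ ^ k) w 𝓣 P₁ s ⊆ V := iUnion₂_subset fun z hz => H.sub z hz.1
  have h3 : IsCompact (tzs (2⁻¹ ^ k) w 𝓣 P₁ s) :=
    (H.fin.subset fun _ hz => hz.1).isCompact_biUnion fun z _ => isCompact_rcube hρ w z
  refine hB f₁ f₁' P₁ _ _ H.hom (fun x hx => (H.mdf x hx).imp_right fun ⟨⟨u, u1, u2⟩, h⟩ =>
    ⟨⟨u, h1 (hK u1), u2.trans hd⟩, h.trans hd⟩) (H.sol.cores hs hV hG' hb hκ) (h2.trans h1)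
    (h3.inter_right (isClosed_plns hρ w)) inter_subset_left (fun x hx => ?_)
    (measure_mono_null (image_mono (inter_subset_inter_left _ (h2.trans (hV.trans hΩ)))) H.null)
  have h4 := h3.isClosed.frontier_subset hx
  refine ⟨h4, by_contra fun h => ?_⟩
  obtain ⟨z, hz, hxz⟩ := mem_iUnion₂.1 h4
  exact hx.2 (mem_interior_iff_mem_nhds.2
    (mem_of_superset (rcube_nhds hρ hxz h) (subset_biUnion_of_mem (u := rcube _ w) hz)))

end Gc

end P073
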