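import Vale.Agent.P073Y.Gc.GoodC
import Vale.Agent.P073Y.Gd.Mean
import Vale.Agent.P073Y.Gd.Var
import Vale.Agent.P073Y.An.All
import Vale.Agent.P073Z.Dens2
import Vale.Agent.P073Z.ACC.Mark

/-!
# Solid cubes
-/

open Set Metric Topology Filter MeasureTheory
open scoped ENNReal NNReal

namespace P073

namespace Gc

open Dens
open An (M3)

/-- solid cubes along a compact set on which the derivative is continuous -/
def SOLID0 (p : ℝ) (f : E3 → E3) (F : E3 → M3) (K V : Set E3) (b : ℝ) : Prop :=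
  ∀ (N τ : ℝ) (δ' : ℝ≥0∞), 1 ≤ N → 0 < τ → 0 < δ' → ∃ ρ₁ : ℝ, 0 < ρ₁ ∧
  ∀ ρ R : ℝ, 0 < ρ → ρ ≤ ρ₁ → ρ ≤ R →
  ∃ (P₀ : Finset E3) (A : E3 → M3) (Φ : E3 → ℝ≥0∞),
    (∀ q ∈ P₀, q ∈ lat0 (N * ρ) ∧ (closedBall q (N * ρ / 2) ∩ K).Nonempty ∧
      closedBall q (3 * (N * ρ)) ⊆ V ∧ Bil b (A q) ∧
      Close f (A q) (closedBall q (2 * (N * ρ))) (τ * ρ) ∧
      ∫⁻ x in closedBall q (3 * (N * ρ)), ‖F x - A q‖ₑ ^ p ≤ ENNReal.ofReal (τ * ρ ^ 3)) ∧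
    ENNReal.ofReal ((N * ρ) ^ 3) * ({q ∈ lat0 (N * ρ) |
      (closedBall q (N * ρ / 2) ∩ K).Nonempty ∧ q ∉ P₀}.encard : ℝ≥0∞) ≤ δ' ∧
    Mean R Φ δ' ∧ ∀ w, ∃ P₁ ⊆ P₀, ENNReal.ofReal ((N * ρ) ^ 3) * ((P₀ \ P₁).card : ℝ≥0∞) ≤ Φ w ∧
      ∀ q ∈ P₁, ∀ x y ζ, x ≠ y → segment ℝ x y = (fun u => ρ⁻¹ • (u - w)) ⁻¹' kcell ζ →
        segment ℝ x y ⊆ closedBall q (2 * (N * ρ)) →
        ∫⁻ u in segment ℝ x y, ‖F u - A q‖ₑ ∂(μH[1]) ≤ ENNReal.ofReal (τ * ρ)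

theorem lat0_sub {s : ℝ} {q : E3} (h : q ∈ lat0 s) : q ∈ pts fun _ => s := fun i =>
  let ⟨m, hm⟩ := h i; ⟨m, hm.trans (mul_comm _ _)⟩

theorem overlap (ν : Measure E3) {s : ℝ} (hs : 0 < s) (T : Finset E3) (hT : ∀ q ∈ T, q ∈ lat0 s)
    (X : Set E3) : ∑ q ∈ T, ν (closedBall q (3 * s) ∩ X) ≤ 343 * ν X := by
  classical
  have h1 : ∀ q, ν (closedBall q (3 * s) ∩ X) =
      ∫⁻ x in X, (closedBall q (3 * s)).indicator 1 x ∂ν := fun q => by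
    rw [lintegral_indicator_one measurableSet_closedBall,
      Measure.restrict_apply measurableSet_closedBall]
  simp only [h1]
  rw [← lintegral_finsetSum _ fun q _ => measurable_one.indicator measurableSet_closedBall,
    ← setLIntegral_const]
  refine lintegral_mono fun x => ?_
  obtain ⟨t, h2, h3⟩ := exists_finset (c := fun _ => s) (fun _ => hs) x (R := 3 * s)
    (by positivity)
  rw [Finset.prod_const, Finset.card_univ, Fintype.card_fin,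
    show 2 * (3 * s) / s + 1 = 7 by field_simp; norm_num] at h3
  have h4 : t.card ≤ 343 := by exact_mod_cast h3.trans (by norm_num : (7:ℝ) ^ 3 ≤ (343 : ℕ))
  simp only [indicator_apply, Pi.one_apply, Finset.sum_boole]
  exact_mod_cast (Finset.card_le_card fun q hq => h2 ⟨lat0_sub (hT q (Finset.mem_filter.1 hq).1),
    mem_closedBall_comm.1 (Finset.mem_filter.1 hq).2⟩).trans h4

theorem count (μ : Measure E3) (u : E3 → ℝ≥0∞) {s : ℝ} (hs : 0 < s) (T : Finset E3)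
    (hT : ∀ q ∈ T, q ∈ lat0 s) {X : Set E3} (hX : MeasurableSet X) {a : ℝ≥0∞}
    (h : ∀ q ∈ T, a ≤ ∫⁻ x in closedBall q (3 * s) ∩ X, u x ∂μ) :
    T.card * a ≤ 343 * ∫⁻ x in X, u x ∂μ := by
  rw [← nsmul_eq_mul, ← withDensity_apply u hX]
  exact (Finset.card_nsmul_le_sum T _ _ fun q hq => (h q hq).trans_eq
    (withDensity_apply u (measurableSet_closedBall.inter hX)).symm).trans (overlap _ hs T hT X)

theorem tail (u : E3 → ℝ≥0∞) {K : Set E3} (hK : IsClosed K) {r₀ : ℝ} (hr : 0 < r₀)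
    (hν : ∫⁻ x in cthickening r₀ K, u x ≠ ⊤) {ε : ℝ≥0∞} (hε : 0 < ε) :
    ∃ r, 0 < r ∧ r ≤ r₀ ∧ ∫⁻ x in cthickening r K \ K, u x ≤ ε := by
  have h0 : ∀ Y, MeasurableSet Y → (volume.withDensity u).restrict Kᶜ Y = ∫⁻ x in Y \ K, u x :=
    fun Y hY => by
      rw [Measure.restrict_apply hY, withDensity_apply u (hY.inter hK.measurableSet.compl)]
      rfl
  have h1 := tendsto_measure_cthickening_of_isClosed (μ := (volume.withDensity u).restrict Kᶜ)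
    ⟨r₀, hr, ne_top_of_le_ne_top hν ((h0 _ isClosed_cthickening.measurableSet).trans_le
      (lintegral_mono_set sdiff_subset))⟩ hK
  rw [h0 K hK.measurableSet, sdiff_self, Measure.restrict_empty,
    lintegral_zero_measure] at h1
  obtain ⟨r, h2, h3⟩ := (((h1.eventually (gt_mem_nhds hε)).filter_mono nhdsWithin_le_nhds).and
    (Ioc_mem_nhdsGT hr)).exists
  exact ⟨r, h3.1, h3.2, (h0 _ isClosed_cthickening.measurableSet).symm.trans_le h2.le⟩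

theorem split (μ : Measure E3) {Y K Z : Set E3} (hY : MeasurableSet Y) (hK : MeasurableSet K)
    {φ ψ : E3 → ℝ≥0∞} {a : ℝ≥0∞} (h1 : ∀ x ∈ Y ∩ K, φ x ≤ a) (h2 : ∀ x, φ x ≤ ψ x)
    (h3 : Y \ K ⊆ Z) : ∫⁻ x in Y, φ x ∂μ ≤ a * μ Y + ∫⁻ x in Z, ψ x ∂μ := by
  rw [← lintegral_inter_add_sdiff φ Y hK]
  refine add_le_add ((setLIntegral_mono' (hY.inter hK) h1).trans ?_)
    ((lintegral_mono_set h3).trans (lintegral_mono h2))
  rw [setLIntegral_const]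
  exact mul_le_mul_right (measure_mono inter_subset_left) _

theorem edge_facts {ρ : ℝ} (hρ : 0 < ρ) {w x y ζ : E3}
    (h : segment ℝ x y = (fun u => ρ⁻¹ • (u - w)) ⁻¹' kcell ζ) :
    μH[1] (segment ℝ x y) ≤ ENNReal.ofReal ρ ∧ ∀ u ∈ segment ℝ x y, ρ⁻¹ • (u - w) ∈ kwire := by
  obtain ⟨e, he⟩ := Me.exists_aff (LinearEquiv.smulOfNeZero ℝ E3 ρ⁻¹ (by positivity)) w
  have he' : ∀ u, e.toAffineEquiv u = ρ⁻¹ • (u - w) := he
  obtain ⟨t, ht⟩ := exists_rp e.toAffineEquiv he' h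
  have h1 := ht.near x (left_mem_segment ℝ x y) y (right_mem_segment ℝ x y)
  rw [← smul_sub, sub_sub_sub_cancel_right, norm_smul, Real.norm_of_nonneg (inv_pos.2 hρ).le,
    inv_mul_le_one₀ hρ] at h1
  refine ⟨?_, fun u hu => kcell_subset_kwire kuhn ?_ (h.subset hu)⟩
  · rw [hausdorffMeasure_segment, edist_dist, dist_eq_norm]
    exact ENNReal.ofReal_le_ofReal h1
  · have h2 : kcell ζ = segment ℝ (e x) (e y) := by
      rw [← funext he'] at h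
      exact (image_preimage_eq (kcell ζ) e.surjective).symm.trans
        (h ▸ image_segment ℝ e.toAffineEquiv.toAffineMap x y)
    rw [h2, vectorSpan_segment]
    exact (finrank_span_le_card _).trans (by simp)

/-- small integral oscillation of the derivative gives sup closeness -/
def Osc (p : ℝ) (f : E3 → E3) (F : E3 → M3) (V : Set E3) (b : ℝ) : Prop :=
  ∀ l, 0 < l → ∃ τ : ℝ, 0 < τ ∧ ∀ (A : M3) (q : E3) (r : ℝ), 0 < r → ‖A‖ ≤ b →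
    closedBall q (3 / 2 * r) ⊆ V →
    ∫⁻ x in closedBall q (3 / 2 * r), ‖F x - A‖ₑ ^ p ≤ ENNReal.ofReal (τ * r ^ 3) →
    Close f A (closedBall q r) (l * r)

variable {p b : ℝ} {Ω K V : Set E3} {f : E3 → E3} {F : E3 → M3}

theorem osc_of_mon (hp : 2 < p) (h : An.Mon Ω f F) (hV : V ⊆ Ω) (b : ℝ) : Osc p f F V b := by
  intro l hl
  obtain ⟨τ, h0, h1⟩ := (An.osc hp (θ := 1 / 2) (by norm_num) (by norm_num)).2 b l hl
  rw [show (1:ℝ) + 1 / 2 = 3 / 2 by norm_num] at h1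
  exact ⟨τ, h0, fun A q r hr hA h2 h3 => h1 A h hr hA (h2.trans hV) h3⟩

theorem fin_int (hp : 1 ≤ p) (hi : ∫⁻ x in V, ‖F x‖ₑ ^ p < ⊤) {Y : Set E3}
    (hY : IsCompact Y) (hV : Y ⊆ V) {c : ℝ≥0∞} (hc : c ≠ ⊤) :
    ∫⁻ x in Y, (‖F x‖ₑ + c) ^ p ≠ ⊤ := by
  refine ne_top_of_le_ne_top ?_
    (lintegral_mono fun x => ENNReal.rpow_add_le_mul_rpow_add_rpow _ _ hp)
  rw [lintegral_const_mul' _ _ (ENNReal.rpow_ne_top_of_nonneg (by linarith) (by simp)),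
    lintegral_add_right _ measurable_const, setLIntegral_const]
  exact ENNReal.mul_ne_top (ENNReal.rpow_ne_top_of_nonneg (by linarith) (by simp))
    (ENNReal.add_ne_top.2 ⟨((lintegral_mono_set hV).trans_lt hi).ne, ENNReal.mul_ne_top
      (ENNReal.rpow_ne_top_of_nonneg (by linarith) hc) hY.measure_lt_top.ne⟩)

theorem cand_finite (hK : IsCompact K) {s : ℝ} (hs : 0 < s) :
    {q ∈ lat0 s | (closedBall q (s / 2) ∩ K).Nonempty}.Finite := by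
  obtain ⟨R, hR, h⟩ := hK.isBounded.subset_closedBall_lt 0 0
  obtain ⟨t, h1, -⟩ := exists_finset (c := fun _ => s) (fun _ => hs) 0 (R := s / 2 + R)
    (by positivity)
  refine t.finite_toSet.subset fun q ⟨h2, x, h3, h4⟩ => h1 ⟨lat0_sub h2, ?_⟩
  exact (dist_triangle_left q 0 x).trans (add_le_add h3 (h h4))

theorem scale {N τ ρ : ℝ} (hτ : 0 < τ) (hN : 1 ≤ N) (hρ : 0 < ρ) (n c : ℝ≥0∞) (k : ℕ) {a : ℝ}
    (ha : a * ρ ^ k = τ * ρ ^ 3 / 2) (h : n * ENNReal.ofReal a ≤ 343 * c) :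
    ENNReal.ofReal ((N * ρ) ^ 3) * n ≤
      ENNReal.ofReal (2 * N ^ 3 / τ) * 343 * (ENNReal.ofReal ρ ^ k * c) := by
  have h1 : (N * ρ) ^ 3 = 2 * N ^ 3 / τ * (ρ ^ k * a) := by
    rw [mul_comm _ a, ha]
    field_simp
  rw [h1, ENNReal.ofReal_mul (by positivity), ENNReal.ofReal_mul (by positivity),
    ENNReal.ofReal_pow hρ.le, mul_assoc, mul_assoc, mul_assoc, mul_left_comm 343, mul_comm _ n]
  gcongr

open Classical in
theorem drop (μ : Measure E3) (u : E3 → ℝ≥0∞) {N τ ρ : ℝ} (hτ : 0 < τ) (hN : 1 ≤ N) (hρ : 0 < ρ)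
    (T : Finset E3) (hT : ∀ q ∈ T, q ∈ lat0 (N * ρ)) {X : Set E3} (hX : MeasurableSet X) (k : ℕ)
    {a : ℝ} (ha : a * ρ ^ k = τ * ρ ^ 3 / 2) : ∃ P ⊆ T,
    (∀ q ∈ P, ∫⁻ x in closedBall q (3 * (N * ρ)) ∩ X, u x ∂μ ≤ ENNReal.ofReal a) ∧
    ENNReal.ofReal ((N * ρ) ^ 3) * ((T \ P).card : ℝ≥0∞) ≤
      ENNReal.ofReal (2 * N ^ 3 / τ) * 343 * (ENNReal.ofReal ρ ^ k * ∫⁻ x in X, u x ∂μ) :=
  ⟨T.filter _, Finset.filter_subset _ _, fun _ hq => (Finset.mem_filter.1 hq).2,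
    scale hτ hN hρ _ _ k ha (count μ u (by positivity) _
      (fun q hq => hT q (Finset.mem_sdiff.1 hq).1) hX fun _ hq => le_of_not_ge fun h =>
        (Finset.mem_sdiff.1 hq).2 (Finset.mem_filter.2 ⟨(Finset.mem_sdiff.1 hq).1, h⟩))⟩

/-- the situation near one cube -/
structure Loc (F : E3 → M3) (K X : Set E3) (g : E3 → ℝ≥0∞) (t : ℝ) (Y : Set E3) (A : M3) :
    Prop where
  near : ∀ x ∈ Y ∩ K, ‖F x - A‖ₑ ≤ ENNReal.ofReal t
  off : Y \ K ⊆ X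
  le : ∀ x, ‖F x - A‖ₑ ≤ g x

variable {X : Set E3} {g : E3 → ℝ≥0∞} {t s ρ : ℝ} {q : E3} {A : M3}

theorem Loc.vol (h : Loc F K X g t (closedBall q (3 * s)) A) (hp : 1 ≤ p) (hK : MeasurableSet K)
    (h0 : 0 ≤ t) (h1 : t ≤ 1) (hs : 0 ≤ s) {a : ℝ} (ha : 0 ≤ a)
    (h2 : ∫⁻ x in closedBall q (3 * s) ∩ X, g x ^ p ≤ ENNReal.ofReal a) :
    ∫⁻ x in closedBall q (3 * s), ‖F x - A‖ₑ ^ p ≤ ENNReal.ofReal (t * (216 * s ^ 3) + a) := by
  refine (split volume (a := ENNReal.ofReal t) (Z := closedBall q (3 * s) ∩ X)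
    measurableSet_closedBall hK
    (fun x hx => (ENNReal.rpow_le_rpow (h.near x hx) (by linarith)).trans
      (ENNReal.rpow_le_self_of_le_one (ENNReal.ofReal_le_one.2 h1) hp))
    (fun x => ENNReal.rpow_le_rpow (h.le x) (by linarith))
    fun x hx => ⟨hx.1, h.off hx⟩).trans ((add_le_add le_rfl h2).trans_eq ?_)
  rw [Real.volume_pi_closedBall _ (by positivity), ← ENNReal.ofReal_mul h0,
    ← ENNReal.ofReal_add (by positivity) ha, Fintype.card_fin]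
  congr 1
  ring

theorem Loc.wire {Y : Set E3} (h : Loc F K X g t Y A) (hK : MeasurableSet K) (h0 : 0 ≤ t)
    (hρ : 0 < ρ) {w x y ζ : E3} (h1 : segment ℝ x y = (fun u => ρ⁻¹ • (u - w)) ⁻¹' kcell ζ)
    (h2 : segment ℝ x y ⊆ Y) {a : ℝ} (ha : 0 ≤ a)
    (h3 : ∫⁻ u in Y ∩ {u ∈ X | ρ⁻¹ • (u - w) ∈ kwire}, g u ∂(μH[1]) ≤ ENNReal.ofReal a) :
    ∫⁻ u in segment ℝ x y, ‖F u - A‖ₑ ∂(μH[1]) ≤ ENNReal.ofReal (t * ρ + a) := by
  obtain ⟨h8, h9⟩ := edge_facts hρ h1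
  refine (split μH[1] (Z := Y ∩ {u ∈ X | ρ⁻¹ • (u - w) ∈ kwire})
    (G2.seg_compact x y).measurableSet hK (fun u hu => h.near u ⟨h2 hu.1, hu.2⟩) h.le
    fun u hu => ⟨h2 hu.1, h.off ⟨h2 hu.1, hu.2⟩, h9 u hu.1⟩).trans
    ((add_le_add (mul_le_mul_right h8 _) h3).trans_eq ?_)
  rw [← ENNReal.ofReal_mul h0, ← ENNReal.ofReal_add (by positivity) ha]

theorem mean_kw {R : ℝ} (hρ : 0 < ρ) (hR : ρ ≤ R) (hX : MeasurableSet X) (hg : Measurable g) :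
    Mean R (fun w => ENNReal.ofReal ρ ^ 2 *
      ∫⁻ x in {x ∈ X | ρ⁻¹ • (x - w) ∈ kwire}, g x ∂(μH[1])) (27 * 3375 * ∫⁻ x in X, g x) := by
  refine G2.mean_lines (M := 3375) hρ hR measurableSet_kwire (fun y => ?_) hX hg
  have h5 := hm_kwire ∅ le_rfl y zero_le_one
  rw [show flat ∅ ((1 : ℕ) : ℝ) = univ by simp [flat], inter_univ] at h5
  norm_num at h5 ⊢
  exact h5

/-- the choice of the exceptional set and of the majorant -/
theorem prep (hp : 1 ≤ p) (hF : Measurable F) (hi : ∫⁻ x in V, ‖F x‖ₑ ^ p < ⊤) (hK : IsCompact K)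
    (hV : IsOpen V) (hKV : K ⊆ V) (hb : ∀ x ∈ K, ‖F x‖ ≤ b) (hc : ContinuousOn F K) (ht : 0 < t)
    {ε : ℝ≥0∞} (hε : 0 < ε) : ∃ (X : Set E3) (g : E3 → ℝ≥0∞) (r : ℝ), 0 < r ∧ MeasurableSet X ∧
      Measurable g ∧ ∫⁻ x in X, g x ≤ ε ∧ ∫⁻ x in X, g x ^ p ≤ ε ∧ ∀ s q, 0 ≤ s → s ≤ r →
      ∀ y ∈ closedBall q (s / 2) ∩ K, closedBall q (3 * s) ⊆ V ∧
        Loc F K X g t (closedBall q (3 * s)) (F y) := by
  obtain ⟨r₁, hr₁, hu⟩ := Metric.uniformContinuousOn_iff_le.1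
    (hK.uniformContinuousOn_of_continuous hc) t ht
  obtain ⟨r₀, hr₀, hV'⟩ := hK.exists_cthickening_subset_open hV hKV
  obtain ⟨r, hr, hr', hX⟩ := tail (fun x => (‖F x‖ₑ + (ENNReal.ofReal b + 1)) ^ p) hK.isClosed hr₀
    (fin_int hp hi hK.cthickening hV' (by finiteness)) hε
  refine ⟨cthickening r K \ K, fun x => ‖F x‖ₑ + (ENNReal.ofReal b + 1), min r r₁ / 4,
    by positivity, isClosed_cthickening.measurableSet.diff hK.measurableSet, hF.enorm.add_const _,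
    (lintegral_mono fun x => ENNReal.le_rpow_self_of_one_le (le_add_self.trans le_add_self)
      hp).trans hX, hX, fun s q h0 hs y hy => ?_⟩
  rw [le_div_iff₀ (by norm_num), le_min_iff] at hs
  have hd : ∀ x ∈ closedBall q (3 * s), dist x y ≤ s * 4 := fun x hx => by
    linarith [dist_triangle_right x y q, mem_closedBall.1 hx, mem_closedBall.1 hy.1]
  have hB : closedBall q (3 * s) ⊆ cthickening r K := fun x hx =>
    mem_cthickening_of_dist_le x _ r K hy.2 ((hd x hx).trans hs.1)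
  refine ⟨hB.trans ((cthickening_mono hr' K).trans hV'), fun x hx => ?_,
    sdiff_subset_sdiff_left hB, fun x => ?_⟩
  · rw [← ofReal_norm, ← dist_eq_norm]
    exact ENNReal.ofReal_le_ofReal (hu x hx.2 _ hy.2 ((hd x hx.1).trans hs.2))
  · refine enorm_sub_le.trans (add_le_add le_rfl (le_trans ?_ le_self_add))
    rw [← ofReal_norm]
    exact ENNReal.ofReal_le_ofReal (hb y hy.2)

theorem solid_of (hp : 1 ≤ p) (ho : Osc p f F V b) (hF : Measurable F)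
    (hi : ∫⁻ x in V, ‖F x‖ₑ ^ p < ⊤) (hK : IsCompact K) (hV : IsOpen V) (hKV : K ⊆ V)
    (hb : ∀ x ∈ K, Bil b (F x)) (hc : ContinuousOn F K) : SOLID0 p f F K V b := by
  classical
  intro N τ δ' hN hτ hδ
  obtain ⟨τ₁, hτ₁, h1⟩ := ho (τ / (2 * N)) (by positivity)
  obtain ⟨τ₂, h0, h2, h3, h4⟩ : ∃ τ₂, 0 < τ₂ ∧ τ₂ ≤ τ ∧ τ₂ ≤ τ₁ ∧ τ₂ ≤ 1 :=
    ⟨min τ (min τ₁ 1), by positivity, min_le_left _ _, (min_le_right _ _).trans (min_le_left _ _),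
      (min_le_right _ _).trans (min_le_right _ _)⟩
  have hN3 : 1 ≤ N ^ 3 := one_le_pow₀ hN
  obtain ⟨t, ht, ht'⟩ : ∃ t, 0 < t ∧ t * (432 * N ^ 3) = τ₂ :=
    ⟨τ₂ / (432 * N ^ 3), by positivity, by field_simp⟩
  have ht2 : t * 432 ≤ τ₂ := by nlinarith
  obtain ⟨ε, hε, hε'⟩ := ENNReal.exists_nnreal_pos_mul_lt
    (a := ENNReal.ofReal (2 * N ^ 3 / τ₂) * 343 * (27 * 3375)) (by finiteness) hδ.ne'
  rw [mul_comm, mul_assoc] at hε'
  obtain ⟨X, g, r, hr, hXm, hgm, hX, hX', hL⟩ := prep hp hF hi hK hV hKV (fun x hx => (hb x hx).1)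
    hc ht (ENNReal.coe_pos.2 hε)
  refine ⟨r / N, by positivity, fun ρ R hρ hρ₁ hR => ?_⟩
  rw [le_div_iff₀' (by positivity)] at hρ₁
  have hs0 : 0 < N * ρ := by positivity
  obtain ⟨T, hT⟩ := (cand_finite hK hs0).exists_finset
  choose! ξ hξ using fun q (hq : q ∈ T) => ((hT q).1 hq).2
  replace hL := fun q hq => hL _ q hs0.le hρ₁ _ (hξ q hq)
  obtain ⟨P₀, hP, h5, h6⟩ := drop volume (fun x => g x ^ p) h0 hN hρ T
    (fun q hq => ((hT q).1 hq).1) hXm 0 (mul_one _)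
  refine ⟨P₀, fun q => F (ξ q), fun w => ENNReal.ofReal (2 * N ^ 3 / τ₂) * 343 *
    (ENNReal.ofReal ρ ^ 2 * ∫⁻ x in {x ∈ X | ρ⁻¹ • (x - w) ∈ kwire}, g x ∂(μH[1])),
    fun q hq => ?_, ?_, ((mean_kw hρ hR hXm hgm).const_mul _).mono (le_trans ?_ hε'.le),
    fun w => ?_⟩
  · have h7 := (hL q (hP hq)).2.vol hp hK.measurableSet ht.le (by linarith) hs0.le
      (by positivity) (h5 q hq)
    rw [show t * (216 * (N * ρ) ^ 3) + τ₂ * ρ ^ 3 / 2 = τ₂ * ρ ^ 3 by rw [← ht']; ring] at h7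
    refine ⟨((hT q).1 (hP hq)).1, ((hT q).1 (hP hq)).2, (hL q (hP hq)).1, hb _ (hξ q (hP hq)).2,
      ?_, h7.trans (ENNReal.ofReal_le_ofReal (by gcongr))⟩
    have h8 := h1 (F (ξ q)) q (2 * (N * ρ)) (by positivity) (hb _ (hξ q (hP hq)).2).1
    rw [show 3 / 2 * (2 * (N * ρ)) = 3 * (N * ρ) by ring,
      show τ / (2 * N) * (2 * (N * ρ)) = τ * ρ by field_simp] at h8
    exact h8 (hL q (hP hq)).1 (h7.trans (ENNReal.ofReal_le_ofReal (by gcongr; nlinarith)))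
  · have h7 : {q ∈ lat0 (N * ρ) | (closedBall q (N * ρ / 2) ∩ K).Nonempty ∧ q ∉ P₀} =
        ↑(T \ P₀) := by
      ext q
      simp only [mem_ofPred_eq, Finset.mem_coe, Finset.mem_sdiff, hT, and_assoc]
    rw [h7, encard_coe_eq_coe_finsetCard, ENat.toENNReal_coe]
    refine h6.trans (le_trans (mul_le_mul_right ?_ _) hε'.le)
    rw [pow_zero, one_mul]
    exact hX'.trans (le_mul_of_one_le_left zero_le (by norm_num))
  · exact mul_le_mul_right (mul_le_mul_right hX _) _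
  · obtain ⟨P₁, h7, h8, h9⟩ := drop μH[1] g h0 hN hρ P₀ (fun q hq => ((hT q).1 (hP hq)).1)
      (X := {x ∈ X | ρ⁻¹ • (x - w) ∈ kwire})
      (hXm.inter (((measurable_sub_const w).const_smul ρ⁻¹) measurableSet_kwire)) 2
      (a := τ₂ * ρ / 2) (by ring)
    refine ⟨P₁, h7, h9, fun q hq x y ζ _ h10 h11 => ((hL q (hP (h7 hq))).2.wire hK.measurableSet
      ht.le hρ h10 (h11.trans (closedBall_subset_closedBall (by linarith))) (by positivity)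
      (h8 q hq)).trans (ENNReal.ofReal_le_ofReal (by nlinarith))⟩

end Gc

end P073
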