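import Vale.Agent.P073Y.Gc.Sk
import Vale.Agent.P073Z.GOOD.Gen
import Vale.Agent.P073Z.KUHN

/-!
# Kuhn simplices in affine coordinates and affine interpolation
-/

open Set Metric Topology Filter MeasureTheory
open scoped ENNReal NNReal

namespace P073

namespace Gc

open Gd
open An (M3)

/-- a Kuhn simplex in the coordinates `Z` with its vertices -/
structure Rp (Z : E3 → E3) (t : Finset E3) (C : Set E3) : Prop where
  mem : ∀ v, v ∈ t ↔ v ∈ C ∧ Int3 (Z v)
  card : t.card ≤ 4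
  indep : AffineIndependent ℝ ((↑) : t → E3)
  hull : C = convexHull ℝ (t : Set E3)
  one : ∀ v ∈ t, ∀ w ∈ t, v ≠ w → ‖Z v - Z w‖ = 1
  near : ∀ x ∈ C, ∀ y ∈ C, ‖Z x - Z y‖ ≤ 1
  sum1 : ∀ x ∈ C, ∑ v ∈ t, hat (Z x - Z v) = 1
  sumv : ∀ x ∈ C, ∑ v ∈ t, hat (Z x - Z v) • v = x
  zero : ∀ x ∈ C, ∀ v, Int3 (Z v) → v ∉ t → hat (Z x - Z v) = 0

variable {Z : E3 → E3} {t t' : Finset E3} {C C' : Set E3} {x y : E3}

theorem exists_rp (e : E3 ≃ᵃ[ℝ] E3) (he : ∀ x, e x = Z x) {ζ₀ : E3} (hζ : C = Z ⁻¹' kcell ζ₀) :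
    ∃ t, Rp Z t C := by
  classical
  obtain ⟨t, h1, h2, h3, h4, h5, h6⟩ := kuhn.2 ζ₀
  have hC : ∀ x, x ∈ C ↔ Z x ∈ kcell ζ₀ := fun x => by
    rw [hζ]
    rfl
  have hm : ∀ v, v ∈ t.image e.symm ↔ Z v ∈ t := fun v => by
    rw [Finset.mem_image, ← he]
    exact ⟨fun ⟨u, hu, h⟩ => by rwa [← h, e.apply_symm_apply], fun h => ⟨_, h, by simp⟩⟩
  have hz : ∀ u, Z (e.symm u) = u := fun u => by rw [← he, e.apply_symm_apply]
  have hn : ∀ x ∈ C, ∀ y ∈ C, ‖Z x - Z y‖ ≤ 1 := by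
    intro x hx y hy
    rw [hC, h4] at hx hy
    obtain ⟨u, hu, w, hw, h7⟩ := convexHull_exists_dist_ge2 hx hy
    rw [dist_eq_norm, dist_eq_norm] at h7
    rcases eq_or_ne u w with rfl | h8
    · exact h7.trans (by simp)
    · exact h7.trans (h5 u hu w hw h8).le
  have hk : ∀ x ∈ C, ∀ v, Int3 (Z v) → hat (Z x - Z v) ≠ 0 → v ∈ t.image e.symm :=
    fun x hx v hv h7 => by
      rw [hm, ← Finset.mem_coe, h1]
      exact (h6 _).1.1 ((hC x).1 hx) ⟨hv, h7⟩
  refine ⟨t.image e.symm, fun v => ⟨fun hv => ?_, fun hv => hk v hv.1 v hv.2 ?_⟩,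
    Finset.card_image_le.trans h2, ?_, ?_, fun v hv w hw h7 => ?_, hn,
    fun x hx => ?_, fun x hx => ?_, fun x hx v hv h7 => by_contra fun h8 => h7 (hk x hx v hv h8)⟩
  · rw [hm] at hv
    refine ⟨?_, (show Z v ∈ kv ζ₀ from h1 ▸ hv).1⟩
    rw [hC, h4]
    exact subset_convexHull ℝ _ hv
  · rw [sub_self, hat_zero]
    exact one_ne_zero
  · have h7 := (e.symm.affineIndependent_set_of_eq_iff (s := (t : Set E3))).2 h3
    rwa [← Finset.coe_image] at h7
  · ext x
    rw [hC, h4, Finset.coe_image, ← he, ← AffineEquiv.coe_toAffineMap e.symm,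
      ← AffineMap.image_convexHull]
    exact ⟨fun h => ⟨_, h, by simp⟩, fun ⟨u, hu, h⟩ => by simpa [← h] using hu⟩
  · refine h5 _ ((hm v).1 hv) _ ((hm w).1 hw) fun h8 => h7 (e.injective ?_)
    rwa [he, he]
  · rw [Finset.sum_image e.symm.injective.injOn]
    simpa only [hz] using ((h6 _).2 ((hC x).1 hx)).1
  · obtain ⟨h7, h8⟩ := (h6 _).2 ((hC x).1 hx)
    have h9 := affine_sum e.symm.toAffineMap t h7
    rw [h8, ← he, AffineEquiv.coe_toAffineMap, e.symm_apply_apply, he] at h9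
    rw [Finset.sum_image e.symm.injective.injOn]
    simpa only [hz] using h9.symm

theorem Rp.sub (h : Rp Z t C) {v : E3} (hv : v ∈ t) : v ∈ C := ((h.mem v).1 hv).1

theorem Rp.int (h : Rp Z t C) {v : E3} (hv : v ∈ t) : Int3 (Z v) := ((h.mem v).1 hv).2

theorem Rp.exists_mem (h : Rp Z t C) (hx : x ∈ C) : ∃ v, v ∈ t := by
  rw [h.hull] at hx
  exact convexHull_nonempty_iff.1 ⟨x, hx⟩

theorem end_extreme (x y : E3) : x ∈ extremePoints ℝ (segment ℝ x y) := by
  refine mem_extremePoints_iff_left.2 ⟨left_mem_segment ℝ x y, ?_⟩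
  rw [segment_eq_image']
  rintro _ ⟨s, hs, rfl⟩ _ ⟨r, hr, rfl⟩ ⟨a, b, ha, hb, hab, h⟩
  have h1 : (a * s + b * r) • (y - x) = 0 := by
    have h2 : (a * s + b * r) • (y - x) =
        a • (x + s • (y - x)) + b • (x + r • (y - x)) - (a + b) • x := by module
    rw [h2, hab, one_smul]
    exact sub_eq_zero.2 h
  rcases smul_eq_zero.1 h1 with h2 | h2
  · have h3 : s = 0 := by nlinarith [mul_nonneg ha.le hs.1, mul_nonneg hb.le hr.1, hs.1]
    simp [h3]
  · simp [h2]

open Classical in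
theorem Rp.edge (e : E3 ≃ᵃ[ℝ] E3) (he : ∀ x, e x = Z x) (ht : Rp Z t (segment ℝ x y))
    (h1 : x ≠ y) : Rp Z {x, y} (segment ℝ x y) := by
  have hx : x ∈ t := extremePoints_convexHull_subset (ht.hull ▸ end_extreme x y)
  have hy : y ∈ t := extremePoints_convexHull_subset
    (ht.hull ▸ segment_symm ℝ y x ▸ end_extreme y x)
  suffices t = {x, y} by rwa [← this]
  refine Finset.ext fun w => ⟨fun hw => by_contra fun h4 => ?_, fun hw => ?_⟩
  · simp only [Finset.mem_insert, Finset.mem_singleton, not_or] at h4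
    have h5 := mem_image_of_mem e.toAffineMap (ht.sub hw)
    rw [image_segment] at h5
    have h6 := dist_add_dist_of_mem_segment h5
    simp only [AffineEquiv.coe_toAffineMap, he, dist_eq_norm] at h6
    rw [ht.one x hx w hw (Ne.symm h4.1), ht.one w hw y hy h4.2, ht.one x hx y hy h1] at h6
    norm_num at h6
  · rcases Finset.mem_insert.1 hw with rfl | h4
    exacts [hx, Finset.mem_singleton.1 h4 ▸ hy]

open Classical in
theorem Rp.hat_edge (h : Rp Z {x, y} (segment ℝ x y)) (hne : x ≠ y) {s : ℝ}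
    (hs : s ∈ Icc (0 : ℝ) 1) : hat (Z (AffineMap.lineMap x y s) - Z y) = s := by
  have h1 := lineMap_mem_segment ℝ x y hs
  have h2 := h.sum1 _ h1
  have h3 := h.sumv _ h1
  rw [Finset.sum_pair hne] at h2 h3
  generalize hat (Z (AffineMap.lineMap x y s) - Z y) = c at h2 h3
  rw [eq_sub_of_add_eq h2, ← AffineMap.lineMap_apply_module] at h3
  exact AffineMap.lineMap_injective ℝ hne h3

variable {f : E3 → E3} {A A' : E3 →ᵃ[ℝ] E3} {B : M3} {ε : ℝ}

theorem Rp.val (h : Rp Z t C) (hA : ∀ v ∈ t, A v = f v) (hx : x ∈ C) :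
    A x = ∑ v ∈ t, hat (Z x - Z v) • f v := by
  have h1 := affine_sum A t (h.sum1 x hx)
  rw [h.sumv x hx] at h1
  rw [h1]
  exact Finset.sum_congr rfl fun v hv => by rw [hA v hv]

theorem Rp.val' (h : Rp Z t C) (hA : ∀ v ∈ t, A v = f v) (hx : x ∈ C) {T : Finset E3}
    (hT : t ⊆ T) (hI : ∀ v ∈ T, Int3 (Z v)) (B : M3) (u : E3) :
    ∑ v ∈ T, hat (Z x - Z v) • (f v - f u - B (v - u)) = A x - f u - B (x - u) := by
  rw [← Finset.sum_subset hT fun v hv h1 => by rw [h.zero x hx v (hI v hv) h1, zero_smul]]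
  simp only [map_sub, smul_sub, Finset.sum_sub_distrib, ← Finset.sum_smul, ← map_smul, ← map_sum]
  rw [h.sum1 x hx, h.sumv x hx, h.val hA hx, one_smul, one_smul]

/-- the interpolation is close to the map -/
theorem Rp.sup (h : Rp Z t C) (hA : ∀ v ∈ t, A v = f v) (hc : Close f B C ε) (hx : x ∈ C) :
    dist (A x) (f x) ≤ ε := by
  have h1 := h.val' hA hx Finset.Subset.rfl (fun v hv => h.int hv) B x
  rw [sub_self, map_zero, sub_zero] at h1
  rw [dist_eq_norm, ← h1]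
  exact mem_closedBall_zero_iff.1 ((convex_closedBall (0 : E3) ε).sum_mem
    (fun w _ => (hat_mem _).1) (h.sum1 x hx) fun w hw =>
      mem_closedBall_zero_iff.2 (hc x hx w (h.sub hw)))

open Classical in
/-- the key estimate -/
theorem key (h : Rp Z t C) (h' : Rp Z t' C') (hA : ∀ v ∈ t, A v = f v)
    (hA' : ∀ v ∈ t', A' v = f v) {X : Set E3} (hc : Close f B X ε) (hC : C ⊆ X) (hC' : C' ⊆ X)
    (hx : x ∈ C) (hy : y ∈ C') :
    ‖A x - A' y - B (x - y)‖ ≤ (t ∪ t').card * (2 * ‖Z x - Z y‖ * ε) := by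
  have hI : ∀ v ∈ t ∪ t', Int3 (Z v) := fun v hv => (Finset.mem_union.1 hv).elim h.int h'.int
  have e1 := h.val' hA hx Finset.subset_union_left hI B x
  have e2 := h'.val' hA' hy Finset.subset_union_right hI B x
  have e3 : A x - A' y - B (x - y) = ∑ v ∈ t ∪ t', (hat (Z x - Z v) - hat (Z y - Z v)) •
      (f v - f x - B (v - x)) := by
    simp only [sub_smul, Finset.sum_sub_distrib, e1, e2]
    simp only [map_sub]
    abel
  rw [e3, ← nsmul_eq_mul]
  refine (norm_sum_le _ _).trans (Finset.sum_le_card_nsmul _ _ _ fun v hv => ?_)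
  have h5 := kuhn.1.dist_le_mul (Z x - Z v) (Z y - Z v)
  rw [dist_sub_right, dist_eq_norm, dist_eq_norm, NNReal.coe_ofNat] at h5
  rw [norm_smul]
  exact mul_le_mul h5 (hc x (hC hx) v ((Finset.mem_union.1 hv).elim (fun h1 => hC (h.sub h1))
    fun h1 => hC' (h'.sub h1))) (norm_nonneg _) (by positivity)

/-- the hat function of a vertex which is not in the second simplex -/
theorem hat_le (h' : Rp Z t' C') (hy : y ∈ C') {w : E3} (hw : Int3 (Z w)) (hw' : w ∉ C') :
    hat (Z x - Z w) ≤ 2 * ‖Z x - Z y‖ := by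
  have h2 := kuhn.1.dist_le_mul (Z x - Z w) (Z y - Z w)
  rwa [dist_sub_right, h'.zero y hy w hw fun h3 => hw' (h'.sub h3),
    dist_zero_right, dist_eq_norm, NNReal.coe_ofNat, Real.norm_of_nonneg (hat_mem _).1] at h2

/-- the local inverse modulus of an open injective map which is close to a linear one -/
theorem inv_near {Ω : Set E3} (hf : ContinuousOn f Ω) (ho : An.OpenOn f Ω) (hi : InjOn f Ω)
    {b r : ℝ} {p : E3} (hb : 0 < b) (hB : ∀ u, ‖u‖ ≤ b * ‖B u‖) (hr : 0 < r)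
    (hΩ : closedBall p r ⊆ Ω) (hc : Close f B (closedBall p r) ε) (hy : y ∈ Ω)
    (hd : dist (f y) (f p) < r / b - ε) : dist y p < r := by
  have h1 : IsOpen (f '' ball p r) := ho _ isOpen_ball (ball_subset_closedBall.trans hΩ)
  have h2 : IsClosed (f '' closedBall p r) :=
    ((isCompact_closedBall p r).image_of_continuousOn (hf.mono hΩ)).isClosed
  have h3 : ball (f p) (r / b - ε) ⊆ f '' ball p r := by
    refine (convex_ball _ _).isPreconnected.subset_left_of_subset_union h1 h2.isOpen_compl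
      (disjoint_left.2 fun u hu hu' => hu' (image_mono ball_subset_closedBall hu))
      (fun u hu => ?_) ⟨f p, mem_ball_self (dist_nonneg.trans_lt hd),
        mem_image_of_mem _ (mem_ball_self hr)⟩
    by_cases h4 : u ∈ f '' closedBall p r
    · obtain ⟨q, hq, rfl⟩ := h4
      refine Or.inl ⟨q, mem_ball.2 (lt_of_le_of_ne hq fun h5 => ?_), rfl⟩
      have h6 := hc p (mem_closedBall_self hr.le) q hq
      have h7 := hB (q - p)
      have h8 := norm_le_norm_add_norm_sub (f q - f p) (B (q - p))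
      rw [← dist_eq_norm, h5, ← div_le_iff₀' hb] at h7
      rw [mem_ball, dist_eq_norm] at hu
      linarith
    · exact Or.inr h4
  obtain ⟨q, hq, h4⟩ := h3 hd
  rwa [← hi (hΩ (ball_subset_closedBall hq)) hy h4]

end Gc

end P073
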