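import Vale.Agent.P073Y.Gc.Vol

/-!
# The rims of the cores and the bad cubes
-/

open Set Metric Topology Filter MeasureTheory
open scoped ENNReal NNReal

namespace P073

namespace Gc

open Me (dy)
open An (M3)
open M2 Zn
open _root_.P073.Top

theorem vol_shell (q : E3) {a R : ℝ} (h : a ≤ R) (hR : 0 ≤ R) :
    volume (closedBall q R \ ball q a) ≤ ENNReal.ofReal (24 * R ^ 2 * (R - a)) := by
  rcases le_or_gt a 0 with h0 | h0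
  · refine (measure_mono sdiff_subset).trans ?_
    rw [Real.volume_pi_closedBall _ hR, Fintype.card_fin]
    refine ENNReal.ofReal_le_ofReal ?_
    nlinarith [mul_nonneg (sq_nonneg R) (neg_nonneg.2 h0), pow_nonneg hR 3]
  · rw [measure_sdiff (ball_subset_closedBall.trans (closedBall_subset_closedBall h))
      measurableSet_ball.nullMeasurableSet measure_ball_lt_top.ne, Real.volume_pi_closedBall _ hR,
      Real.volume_pi_ball _ h0, Fintype.card_fin, ← ENNReal.ofReal_sub _ (by positivity)]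
    refine ENNReal.ofReal_le_ofReal ?_
    have h1 : a ^ 2 ≤ R ^ 2 := by gcongr
    have h2 : a * R ≤ R ^ 2 := by nlinarith
    nlinarith [mul_le_mul_of_nonneg_left h1 (sub_nonneg.2 h),
      mul_le_mul_of_nonneg_left h2 (sub_nonneg.2 h)]

/-- the bad cubes and the rims of the good cubes -/
def reg (P₁ P₂ : Finset E3) (s a c : ℝ) : Set E3 :=
  cubes P₂ (s / 2 + c) ∪ ⋃ q ∈ P₁, closedBall q (s / 2 + c) \ ball q (s / 2 - a - c)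

variable {P₁ P₂ : Finset E3} {s a c e : ℝ} {x : E3}

theorem reg_ball (hx : x ∈ reg P₁ P₂ s a c) : closedBall x e ⊆ reg P₁ P₂ s a (c + e) := by
  intro u hu
  rw [mem_closedBall] at hu
  rcases hx with hx | hx
  · obtain ⟨q, hq, h⟩ := mem_cubes.1 hx
    exact Or.inl (mem_cubes.2 ⟨q, hq, by linarith [dist_triangle u x q]⟩)
  · obtain ⟨q, hq, h1, h2⟩ := mem_iUnion₂.1 hx
    rw [mem_ball, not_lt] at h2
    rw [mem_closedBall] at h1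
    exact Or.inr (mem_biUnion hq ⟨mem_closedBall.2 (by linarith [dist_triangle u x q]),
      fun h3 => by linarith [mem_ball.1 h3, dist_triangle_left x q u]⟩)

theorem reg_bdd (P₁ P₂ : Finset E3) (s a c : ℝ) : Bornology.IsBounded (reg P₁ P₂ s a c) :=
  ((Bornology.isBounded_biUnion P₂.finite_toSet).2 fun _ _ => isBounded_closedBall).union
    ((Bornology.isBounded_biUnion_finset P₁).2 fun _ _ => isBounded_closedBall.subset sdiff_subset)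

theorem vol_reg (hs : 0 < s) (ha : 0 ≤ a) (h0 : 0 ≤ c) (hc : 2 * c ≤ s) {θ : ℝ}
    (hθ : a + 2 * c ≤ θ * s) : volume (reg P₁ P₂ s a c) ≤
      8 * (ENNReal.ofReal (s ^ 3) * P₂.card) +
        24 * ENNReal.ofReal θ * (ENNReal.ofReal (s ^ 3) * P₁.card) := by
  have h1 : 0 ≤ θ := nonneg_of_mul_nonneg_left (by linarith) hs
  refine (measure_union_le _ _).trans (add_le_add
    ((measure_biUnion_finset_le _ _).trans ((Finset.sum_le_card_nsmul _ _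
      (8 * ENNReal.ofReal (s ^ 3)) fun q _ => ?_).trans_eq (by rw [nsmul_eq_mul]; ring)))
    ((measure_biUnion_finset_le _ _).trans ((Finset.sum_le_card_nsmul _ _
      (24 * ENNReal.ofReal θ * ENNReal.ofReal (s ^ 3)) fun q _ => ?_).trans_eq
        (by rw [nsmul_eq_mul]; ring))))
  · rw [Real.volume_pi_closedBall _ (by positivity), Fintype.card_fin, ← ENNReal.ofReal_ofNat,
      ← ENNReal.ofReal_mul (by norm_num), show 8 * s ^ 3 = (2 * s) ^ 3 by ring]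
    exact ENNReal.ofReal_le_ofReal (by gcongr; linarith)
  · refine (vol_shell q (by linarith) (by positivity)).trans ?_
    rw [← ENNReal.ofReal_ofNat 24, ← ENNReal.ofReal_mul (by norm_num),
      ← ENNReal.ofReal_mul (by positivity), show 24 * θ * s ^ 3 = 24 * s ^ 2 * (θ * s) by ring]
    exact ENNReal.ofReal_le_ofReal (by gcongr <;> linarith)

variable {Ω : Set E3} {P : Par} {σ : E3 → ℝ} {𝓒 : Set (ℕ × (Fin 3 → ℤ))} {M₀ : ℝ≥0}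
  {Mt : Ty → ℕ → ℝ≥0} {S₀ : Set E3} {S : Ty → ℕ → Set E3} (𝓜 : Mesh2 Ω P σ 𝓒 M₀ Mt S₀ S)
  {k : ℕ} {𝓩 : Set (Fin 3 → ℤ)}

theorem core_far (h𝓩 : ∀ z ∈ 𝓩, (k, z) ∈ 𝓒) {i : 𝓜.Q.ι} (hi : 𝓜.Q.cell i ⊆ CoreZ P k 𝓩) :
    𝓜.far i ∧ 𝓜.kf i = k := by
  obtain ⟨x, hx⟩ := 𝓜.Q.ocell_nonempty i
  obtain ⟨z, hz, h⟩ := hi hx.1
  have h1 := 𝓜.core_nbr i _ (h𝓩 z hz) x hx (self_subset_cthickening (δ := 1) (ucube z) h)
  exact ⟨h1.1, h1.2.1⟩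

theorem core_keep (hok : Ok2 Ω P σ 𝓒) (h𝓩 : ∀ z ∈ 𝓩, (k, z) ∈ 𝓒) {i : 𝓜.Q.ι}
    (hi : 𝓜.Q.cell i ⊆ CoreZ P k 𝓩) : ∃ l, 𝓜.Q'.cell l = 𝓜.Q.cell i := by
  obtain ⟨x, hx⟩ := 𝓜.Q.cell_nonempty i
  obtain ⟨z, hz, h⟩ := hi hx
  exact 𝓜.keep i fun j hj => (hok.cpin _ (h𝓩 z hz) x
    (self_subset_cthickening (δ := 2) (ucube z) h)).2.2 j (Gd.fine_U hok.ok (hj hx).1)

/-- from the refined complex to the coarse complex -/
theorem Aff.coarse (hok : Ok2 Ω P σ 𝓒) (h𝓩 : ∀ z ∈ 𝓩, (k, z) ∈ 𝓒) {A : E3 → M3} {r t : ℝ}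
    {g : E3 → E3} (h : Aff 𝓜.Q' (CoreZ P k 𝓩) P₁ A r t g) :
    Aff 𝓜.Q (CoreZ P k 𝓩) P₁ A r t g :=
  h.congr fun _ hi => ⟨fun _ _ => rfl, core_keep 𝓜 hok h𝓩 hi⟩

/-- the weights of a far face on which the map is Lipschitz -/
theorem face_le (h1 : 1 ≤ M₀) {p : ℝ} (hp : 0 < p) {g : E3 → E3} {L : ℝ≥0} {φ : 𝓜.Q.ι}
    (hf : 𝓜.far φ) (hd : 𝓜.Q.dim φ = 2) (hL : LipschitzOnWith L g (𝓜.Q.cell φ)) :
    (𝓜.src h1).W p g φ + (𝓜.src h1).E p g φ ≤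
      ((M₀ : ℝ≥0∞) ^ p + 4 * M₀ ^ 2) * (L : ℝ≥0∞) ^ p * rr 𝓜 φ ^ 2 := by
  classical
  have h2 : (𝓜.src h1).A g φ ≤ M₀ * L := by
    refine le_trans (ENNReal.tsum_le_tsum (g := {l | 𝓜.Q.cell l ⊆ 𝓜.Q.cell φ}.indicator
      fun _ => (L : ℝ≥0∞)) fun l => ?_) ((tot_const_le fun _ _ => le_rfl).trans
        (mul_le_mul_left (far_faces 𝓜 hf) _))
    split_ifs with h
    · exact le_trans (iSup₂_le fun u hu => iSup₂_le fun w hw =>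
        ENNReal.div_le_of_le_mul (hL (h.2 hu) (h.2 hw)))
        (indicator_of_mem (s := {l | 𝓜.Q.cell l ⊆ 𝓜.Q.cell φ}) h.2 fun _ => (L : ℝ≥0∞)).ge
    · exact zero_le
  have h3 := ENNReal.rpow_le_rpow h2 hp.le
  rw [ENNReal.mul_rpow_of_nonneg _ _ hp.le] at h3
  have h4 := (EN.en_le_of_lip (k := 2) hp (𝓜.Q.isClosed_cell φ).measurableSet hL).trans
    (mul_le_mul_right (far_meas 𝓜 hf hd).2 _)
  refine (add_le_add (mul_le_mul_right h3 _) h4).trans_eq ?_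
  change rr 𝓜 φ ^ 2 * _ + _ = _
  ring

variable {p b τ θ : ℝ} {K V : Set E3} {f g : E3 → E3} {F A : E3 → M3} {w : E3}

/-- the sizes near the cores -/
structure Sz (P : Par) (σ : E3 → ℝ) (V : Set E3) (k : ℕ) (s θ : ℝ) : Prop where
  size : ∀ x ∈ V, σ x ≤ 3 / 2 * (2:ℝ)⁻¹ ^ k ∧ ∀ j, x ∉ P.U j
  le : 12 * (2:ℝ)⁻¹ ^ k ≤ s
  le' : (2:ℝ)⁻¹ ^ k ≤ θ * s

theorem Sz.pos (h : Sz P σ V k s θ) : 0 < s := lt_of_lt_of_le (by positivity) h.le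

theorem Sol.vol_reg (h : Sol p f F K V b τ (2⁻¹ ^ k) s w P₁ P₂ A) (hs : Sz P σ V k s θ)
    (T : Finset E3) (h0 : 0 ≤ c) (hc : c ≤ 6 * (2:ℝ)⁻¹ ^ k) :
    volume (reg P₁ T s (2 * θ * s) c) ≤
      8 * (ENNReal.ofReal (s ^ 3) * T.card) + 336 * ENNReal.ofReal θ * volume V := by
  have h1 : (0:ℝ) < 2⁻¹ ^ k := by positivity
  refine (Gc.vol_reg (θ := 14 * θ) hs.pos (by linarith [hs.le']) h0 (by linarith [hs.le])
    (by linarith [hs.le'])).trans (add_le_add le_rfl ?_)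
  rw [ENNReal.ofReal_mul (by norm_num), ENNReal.ofReal_ofNat]
  exact mul_le_mul' (le_of_eq (by ring)) (h.card hs.pos)

/-- **the faces in the rims of the cores** -/
theorem Sol.ring (h : Sol p f F K V b τ (2⁻¹ ^ k) s w P₁ P₂ A) (hs : Sz P σ V k s θ) (hΩ : IsOpen Ω)
    (h𝓩 : ∀ z ∈ zof P k P₁ s, (k, z) ∈ 𝓒) (h1 : 1 ≤ M₀) (hp : 0 < p) {L : ℝ≥0}
    (hL : ∀ i, 𝓜.Q.cell i ⊆ CoreZ P k (zof P k P₁ s) → LipschitzOnWith L g (𝓜.Q.cell i)) :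
    tot {φ | 𝓜.Q.dim φ = 2 ∧ 𝓜.Q.cell φ ⊆ CoreZ P k (zof P k P₁ s) ∧
        ¬ 𝓜.Q.cell φ ⊆ deepc P₁ s (2 * θ)}
      (fun φ => ENNReal.ofReal (2⁻¹ ^ k) * ((𝓜.src h1).W p g φ + (𝓜.src h1).E p g φ)) ≤
      336 * (M₀ : ℝ≥0∞) ^ 5 * ((M₀ : ℝ≥0∞) ^ p + 4 * M₀ ^ 2) * (L : ℝ≥0∞) ^ p *
        ENNReal.ofReal θ * volume V := by
  have h0 : (0:ℝ) < 2⁻¹ ^ k := by positivity
  have h2 := (far_vol 𝓜 (Y := V ∩ reg P₁ ∅ s (2 * θ * s) (2⁻¹ ^ k)) hΩ (fun x hx => hs.size x hx.1)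
    fun x hx => reg_ball hx.2).trans (mul_le_mul_right (h.vol_reg hs ∅ (by positivity)
      (by linarith)) _)
  rw [Finset.card_empty, Nat.cast_zero, mul_zero, mul_zero, zero_add] at h2
  refine (tot_mono (b := fun φ => ((M₀ : ℝ≥0∞) ^ p + 4 * M₀ ^ 2) * (L : ℝ≥0∞) ^ p * rr 𝓜 φ ^ 3)
    (B := {φ | (𝓜.Q.cell φ ∩ (V ∩ reg P₁ ∅ s (2 * θ * s) (2⁻¹ ^ k))).Nonempty})
    (fun φ hφ => ?_) fun φ hφ => ?_).trans ?_
  · obtain ⟨u, hu, h3⟩ := not_subset.1 hφ.2.2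
    obtain ⟨q, hq, h4⟩ := mem_cubes.1 (core_sub P k P₁ s (hφ.2.1 hu))
    refine ⟨u, hu, (h.lat q (Or.inl hq)).2.1 (mem_closedBall.2 (by linarith [hs.le])),
      Or.inr (mem_biUnion hq ⟨h4, fun h5 => h3 fun v hv => mem_cubes.2 ⟨q, hq, ?_⟩⟩)⟩
    linarith [dist_triangle v u q, mem_ball.1 h5, mem_closedBall.1 hv]
  · obtain ⟨h3, h4⟩ := core_far 𝓜 h𝓩 hφ.2.1
    have h5 : ENNReal.ofReal (2⁻¹ ^ k) = rr 𝓜 φ := by
      rw [rr, h4, ← ENNReal.ofReal_coe_nnreal]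
      simp
    rw [h5]
    exact (mul_le_mul_right (face_le 𝓜 h1 hp h3 hφ.1 (hL φ hφ.2.1)) _).trans_eq (by ring)
  · rw [tot_mul]
    exact (mul_le_mul_right h2 _).trans_eq (by ring)

theorem Sol.meet (h : Sol p f F K V b τ (2⁻¹ ^ k) s w P₁ P₂ A) (hs : Sz P σ V k s θ) (hK : K ⊆ V)
    {φ : 𝓜.Q.ι} (h1 : ¬ 𝓜.Q.cell φ ⊆ CoreZ P k (zof P k P₁ s)) (h2 : (𝓜.Q.cell φ ∩ K).Nonempty) :
    (𝓜.Q.cell φ ∩ (V ∩ reg P₁ P₂ s (2 * θ * s) (2⁻¹ ^ k))).Nonempty := by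
  have h0 : (0:ℝ) < 2⁻¹ ^ k := by positivity
  obtain ⟨x, hx, hx'⟩ := h2
  refine ⟨x, hx, hK hx', ?_⟩
  rcases h.cover hx' with h3 | h3 <;> obtain ⟨q, hq, h3⟩ := mem_cubes.1 h3
  · refine Or.inr (mem_biUnion hq ⟨mem_closedBall.2 (by linarith), fun h4 => h1 fun u hu =>
      cubes_sub P k P₁ s (mem_cubes.2 ⟨q, hq, ?_⟩)⟩)
    linarith [dist_triangle u x q, mem_ball.1 h4, hs.le',
      mem_closedBall.1 ((far_ball 𝓜 hs.size hx (hK hx')).2 hu)]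
  · exact Or.inl (mem_cubes.2 ⟨q, hq, by linarith⟩)

/-- **the cells outside the cores which meet `K`** -/
theorem Sol.kpart (h : Sol p f F K V b τ (2⁻¹ ^ k) s w P₁ P₂ A) (hs : Sz P σ V k s θ)
    (hΩ : IsOpen Ω) (hK : K ⊆ V) :
    tot {φ | ¬ 𝓜.Q.cell φ ⊆ CoreZ P k (zof P k P₁ s) ∧ (𝓜.Q.cell φ ∩ K).Nonempty}
      (fun φ => rr 𝓜 φ ^ 3) ≤ (M₀ : ℝ≥0∞) ^ 5 *
      (8 * (ENNReal.ofReal (s ^ 3) * P₂.card) + 336 * ENNReal.ofReal θ * volume V) := by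
  have h0 : (0:ℝ) < 2⁻¹ ^ k := by positivity
  exact (tot_subset (fun φ hφ => h.meet 𝓜 hs hK hφ.1 hφ.2) _).trans
    ((far_vol 𝓜 hΩ (fun x hx => hs.size x hx.1) fun x hx => reg_ball hx.2).trans
      (mul_le_mul_right (h.vol_reg hs P₂ (by positivity) (by linarith)) _))

/-- **the same on the planes of a lattice** -/
theorem Sol.kpl (h : Sol p f F K V b τ (2⁻¹ ^ k) s w P₁ P₂ A) (hs : Sz P σ V k s θ) (hK : K ⊆ V)
    (he : 0 < e) (he' : e ≤ (2:ℝ)⁻¹ ^ k) (w₀ : E3) :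
    tot {φ | 𝓜.Q.dim φ = 2 ∧ ¬ 𝓜.Q.cell φ ⊆ CoreZ P k (zof P k P₁ s) ∧
        (𝓜.Q.cell φ ∩ K).Nonempty ∧ 𝓜.Q.cell φ ⊆ plns w₀ e}
      (fun φ => ENNReal.ofReal e * rr 𝓜 φ ^ 2) ≤ (M₀ : ℝ≥0∞) ^ 3 *
      (8 * (ENNReal.ofReal (s ^ 3) * P₂.card) + 336 * ENNReal.ofReal θ * volume V) := by
  have h0 : (0:ℝ) < 2⁻¹ ^ k := by positivity
  refine le_trans (tot_subset (fun φ hφ => ?_) _) ((far_pl 𝓜
    (Y := V ∩ reg P₁ P₂ s (2 * θ * s) (2⁻¹ ^ k)) (fun x hx => hs.size x hx.1)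
    ((reg_bdd _ _ _ _ _).subset inter_subset_right) he w₀ fun x hx => reg_ball hx.2).trans
      (mul_le_mul_right (h.vol_reg hs P₂ (by positivity) (by linarith)) _))
  exact ⟨hφ.1, h.meet 𝓜 hs hK hφ.2.1 hφ.2.2.1, hφ.2.2.2⟩

/-- the volume of the part of `K` outside the deep part of the cores -/
theorem Sol.rest (h : Sol p f F K V b τ (2⁻¹ ^ k) s w P₁ P₂ A) (hs : Sz P σ V k s θ) :
    volume (K \ deepc P₁ s (2 * θ)) ≤
      8 * (ENNReal.ofReal (s ^ 3) * P₂.card) + 336 * ENNReal.ofReal θ * volume V := by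
  refine (measure_mono fun x hx => ?_).trans (h.vol_reg hs P₂ le_rfl (by positivity))
  rcases h.cover hx.1 with h3 | h3 <;> obtain ⟨q, hq, h3⟩ := mem_cubes.1 h3
  · refine Or.inr (mem_biUnion hq ⟨mem_closedBall.2 (by linarith), fun h4 => hx.2 fun u hu =>
      mem_cubes.2 ⟨q, hq, ?_⟩⟩)
    linarith [dist_triangle u x q, mem_ball.1 h4, mem_closedBall.1 hu]
  · exact Or.inl (mem_cubes.2 ⟨q, hq, by linarith⟩)

end Gc

end P073
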