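import Vale.Agent.P073Y.Gc.Rp
import Vale.Agent.P073Z.DISC2.Path

/-!
# The Kuhn simplices of the core are good
-/

open Set Metric Topology Filter MeasureTheory
open scoped ENNReal NNReal

namespace P073

namespace Gc

open Gd
open Me (dy)
open An (M3)

theorem Close.mono {f : E3 → E3} {A : M3} {X Y : Set E3} {l : ℝ} (h : Close f A X l)
    (hY : Y ⊆ X) : Close f A Y l := fun u hu w hw => h u (hY hu) w (hY hw)

theorem kcell_ucube {z : Fin 3 → ℤ} {ζ₀ ζ : E3} (h0 : ζ₀ ∈ ucube z) (h : ζ ∈ kcell ζ₀) :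
    ζ ∈ ucube z :=
  ⟨fun i => (h.1 i (z i)).1 (h0.1 i), fun i => by
    have h1 := (h.1 i (z i + 1)).2 (by push_cast; exact h0.2 i)
    push_cast at h1
    exact h1⟩

theorem norm_dy (P : Par) (k : ℕ) (x y : E3) : ‖x - y‖ = (2:ℝ)⁻¹ ^ k * ‖dy P k x - dy P k y‖ := by
  rw [← dist_eq_norm, ← dist_eq_norm, Me.dist_dy (P := P) k]

theorem thick {z : Fin 3 → ℤ} {ξ ζ : E3} {c : ℝ} (h : ζ ∈ ucube z) (h' : ‖ξ - ζ‖ ≤ c) :
    ξ ∈ cthickening c (ucube z) := mem_cthickening_of_dist_le ξ ζ c _ h (by rwa [dist_eq_norm])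

variable {Ω : Set E3} {f : E3 → E3} {P : Par} {k : ℕ} {𝓩 : Set (Fin 3 → ℤ)} {M₀ : ℝ≥0}
  {Q : RCx E3} {A : (Fin 3 → ℤ) → M3} {b τ : ℝ} {z : Fin 3 → ℤ} {x y p : E3}

theorem Cm.cell (h : Cm Ω P k 𝓩 M₀ Q) {i : Q.ι} (hi : Q.cell i ⊆ CoreZ P k 𝓩) :
    (∃ z ∈ 𝓩, Q.cell i ⊆ dy P k ⁻¹' ucube z) ∧ ∃ t, Rp (dy P k) t (Q.cell i) := by
  obtain ⟨x, hx⟩ := Q.ocell_nonempty i
  obtain ⟨z, hz, h1⟩ := hi hx.1
  obtain ⟨e, he⟩ := Me.exists_dy P k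
  have h2 := h.kuhn i z hz x hx h1
  exact ⟨⟨z, hz, fun u hu => kcell_ucube h1 (by rwa [h2] at hu)⟩,
    exists_rp e.toAffineEquiv he h2⟩

theorem Cm.wire' (h : Cm Ω P k 𝓩 M₀ Q) {e : Q.ι} (he : Q.dim e = 1) (hz : z ∈ 𝓩)
    (hx : x ∈ Q.cell e) (hp : dy P k p ∈ ucube z) (hd : ‖dy P k x - dy P k p‖ < 1) :
    ∃ ζ, Q.cell e = dy P k ⁻¹' kcell ζ := by
  obtain ⟨ν, hν⟩ := Me.exists_dy P k
  have h1 : IsOpen {u | ‖ν u - dy P k p‖ < 1} :=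
    isOpen_lt (ν.continuous.sub continuous_const).norm continuous_const
  obtain ⟨u, h2, h3⟩ := _root_.mem_closure_iff.1 ((Q.ball e).subset_closure_int hx) _ h1
    (by rwa [mem_ofPred_eq, hν])
  rw [mem_ofPred_eq, hν] at h2
  exact h.wire e he z hz u h3 (thick hp h2.le)

open Classical in
theorem Cm.edge (h : Cm Ω P k 𝓩 M₀ Q) {e : Q.ι} (he : Q.dim e = 1)
    (hs : Q.cell e = segment ℝ x y) (h1 : ∃ ζ, Q.cell e = dy P k ⁻¹' kcell ζ) (f : E3 → E3) :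
    Rp (dy P k) {x, y} (segment ℝ x y) ∧ ∃ B : E3 →ᵃ[ℝ] E3,
      (∀ v ∈ ({x, y} : Finset E3), B v = f v) ∧
      ∀ s : ℝ, B (AffineMap.lineMap x y s) = AffineMap.lineMap (f x) (f y) s := by
  obtain ⟨ν, hν⟩ := Me.exists_dy P k
  obtain ⟨ζ, h1⟩ := h1
  obtain ⟨t, ht⟩ := exists_rp ν.toAffineEquiv hν (hs.symm.trans h1)
  have h2 := ht.edge ν.toAffineEquiv hν (edge_ends h.cvx he hs).1
  obtain ⟨B, hB⟩ := exists_interp h2.indep f
  exact ⟨h2, B, hB, fun s => by rw [B.apply_lineMap, hB x (by simp), hB y (by simp)]⟩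

/-- the analytic hypotheses -/
structure Hc (Ω : Set E3) (f : E3 → E3) (P : Par) (k : ℕ) (𝓩 : Set (Fin 3 → ℤ))
    (A : (Fin 3 → ℤ) → M3) (b τ : ℝ) : Prop where
  cont : ContinuousOn f Ω
  opn : An.OpenOn f Ω
  inj : InjOn f Ω
  one : 1 ≤ b
  pos : 0 ≤ τ
  le : τ * (64 * b) ≤ 1
  est : ∀ z ∈ 𝓩, Bil b (A z) ∧ dy P k ⁻¹' cthickening 2 (ucube z) ⊆ Ω ∧
    Close f (A z) (dy P k ⁻¹' cthickening 2 (ucube z)) (τ * (2:ℝ)⁻¹ ^ k)

theorem Hc.near (H : Hc Ω f P k 𝓩 A b τ) (hz : z ∈ 𝓩) (hp : dy P k p ∈ ucube z) (hy : y ∈ Ω)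
    (hd : dist (f y) (f p) * (4 * b) < (2:ℝ)⁻¹ ^ k) : ‖dy P k y - dy P k p‖ < 1 / 2 := by
  have h0 : (0:ℝ) < 2⁻¹ ^ k := by positivity
  have hb := H.one
  obtain ⟨h1, h2, h3⟩ := H.est z hz
  have h4 : closedBall p (2⁻¹ ^ k / 2) ⊆ dy P k ⁻¹' cthickening 2 (ucube z) := fun u hu => by
    rw [mem_closedBall, dist_eq_norm, norm_dy P k] at hu
    exact thick hp (by nlinarith)
  have h5 := inv_near H.cont H.opn H.inj (by linarith) h1.2 (by positivity) (h4.trans h2)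
    (h3.mono h4) hy (by
      rw [lt_sub_iff_add_lt, lt_div_iff₀ (by linarith)]
      nlinarith [mul_le_mul_of_nonneg_right H.le h0.le])
  rw [dist_eq_norm, norm_dy P k] at h5
  nlinarith

theorem Hc.low (H : Hc Ω f P k 𝓩 A b τ) (hz : z ∈ 𝓩) {t t' : Finset E3} {C C' : Set E3}
    {B B' : E3 →ᵃ[ℝ] E3} (h : Rp (dy P k) t C) (h' : Rp (dy P k) t' C')
    (hB : ∀ v ∈ t, B v = f v) (hB' : ∀ v ∈ t', B' v = f v)
    (hC : C ⊆ dy P k ⁻¹' cthickening 2 (ucube z)) (hC' : C' ⊆ dy P k ⁻¹' cthickening 2 (ucube z))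
    (hx : x ∈ C) (hy : y ∈ C') :
    (2:ℝ)⁻¹ ^ k * ‖dy P k x - dy P k y‖ ≤ 2 * b * dist (B x) (B' y) := by
  classical
  have h0 : (0:ℝ) < 2⁻¹ ^ k := by positivity
  have hb := H.one
  obtain ⟨h1, -, h3⟩ := H.est z hz
  have h4 := key h h' hB hB' h3 hC hC' hx hy
  have h5 : ((t ∪ t').card : ℝ) ≤ 8 := by
    exact_mod_cast (Finset.card_union_le _ _).trans (Nat.add_le_add h.card h'.card)
  have h6 := h1.2 (x - y)
  have h7 := norm_le_norm_add_norm_sub (B x - B' y) (A z (x - y))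
  have h8 := H.pos
  replace h4 := h4.trans (mul_le_mul_of_nonneg_right h5 (by positivity))
  rw [norm_dy P k] at h6
  rw [dist_eq_norm]
  have h9 := mul_le_mul_of_nonneg_right H.le (mul_nonneg h0.le (norm_nonneg (dy P k x - dy P k y)))
  nlinarith [mul_le_mul_of_nonneg_left (h7.trans (add_le_add_right h4 _)) (by linarith : 0 ≤ b),
    mul_nonneg h0.le (norm_nonneg (dy P k x - dy P k y))]

theorem sub_two {C : Set E3} {t : Finset E3} (h : Rp (dy P k) t C) (hx : x ∈ C)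
    (hp : dy P k p ∈ ucube z) (hd : ‖dy P k x - dy P k p‖ ≤ 1) :
    C ⊆ dy P k ⁻¹' cthickening 2 (ucube z) := fun u hu => thick hp (by
  linarith [norm_sub_le_norm_sub_add_norm_sub (dy P k u) (dy P k x) (dy P k p), h.near u hu x hx])

theorem core_compact (P : Par) (k : ℕ) (h : 𝓩.Finite) : IsCompact (CoreZ P k 𝓩) := by
  obtain ⟨ν, hν⟩ := Me.exists_dy P k
  have h1 : CoreZ P k 𝓩 = ⋃ z ∈ 𝓩, ν ⁻¹' ucube z := by
    ext x
    simp [CoreZ, hν]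
  rw [h1]
  exact h.isCompact_biUnion fun z _ => ν.toHomeomorph.isCompact_preimage.2 isCompact_Icc

/-- the interpolation on a cell of the core -/
def Ch (f : E3 → E3) (P : Par) (k : ℕ) (𝓩 : Set (Fin 3 → ℤ)) (τ : ℝ) (C : Set E3)
    (B : E3 →ᵃ[ℝ] E3) : Prop :=
  ∃ z ∈ 𝓩, C ⊆ dy P k ⁻¹' ucube z ∧ C ⊆ dy P k ⁻¹' cthickening 2 (ucube z) ∧
    (∀ x ∈ C, dist (B x) (f x) ≤ τ * (2:ℝ)⁻¹ ^ k) ∧ ∃ t, Rp (dy P k) t C ∧ ∀ v ∈ t, B v = f v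

variable {B B' : E3 →ᵃ[ℝ] E3} {C C' : Set E3}

theorem Hc.ch (H : Hc Ω f P k 𝓩 A b τ) (hQ : Cm Ω P k 𝓩 M₀ Q) (i : Q.ι) :
    ∃ B, Q.cell i ⊆ CoreZ P k 𝓩 → Ch f P k 𝓩 τ (Q.cell i) B := by
  by_cases h : Q.cell i ⊆ CoreZ P k 𝓩
  · obtain ⟨⟨z, hz, h1⟩, t, ht⟩ := hQ.cell h
    obtain ⟨B, hB⟩ := exists_interp ht.indep f
    have h2 : Q.cell i ⊆ dy P k ⁻¹' cthickening 2 (ucube z) :=
      h1.trans (preimage_mono (self_subset_cthickening _))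
    have h3 := (H.est z hz).2.2.mono h2
    exact ⟨B, fun _ => ⟨z, hz, h1, h2, fun x hx => ht.sup hB h3 hx, t, ht, hB⟩⟩
  · exact ⟨0, fun h' => absurd h' h⟩

theorem Hc.eps (H : Hc Ω f P k 𝓩 A b τ) (k : ℕ) : τ * (2:ℝ)⁻¹ ^ k * (64 * b) ≤ (2:ℝ)⁻¹ ^ k := by
  nlinarith [mul_le_mul_of_nonneg_right H.le (show (0:ℝ) ≤ 2⁻¹ ^ k by positivity)]

theorem Hc.eq (H : Hc Ω f P k 𝓩 A b τ) (h1 : Ch f P k 𝓩 τ C B) (h2 : Ch f P k 𝓩 τ C' B')
    (hΩ : C' ⊆ Ω) (hx : x ∈ C) (hy : y ∈ C') (h : B x = B' y) : x = y := by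
  obtain ⟨z, hz, h1, h2', h3, t, ht, h4⟩ := h1
  obtain ⟨-, -, -, -, h5, t', ht', h6⟩ := h2
  have h0 : (0:ℝ) < 2⁻¹ ^ k := by positivity
  have hb := H.one
  have hε := H.eps k
  have h7 := dist_triangle_left (f y) (f x) (B x)
  have h8 := h5 y hy
  rw [← h] at h8
  have h9 := H.near hz (h1 hx) (hΩ hy) (by nlinarith [h3 x hx])
  have h10 := H.low hz ht ht' h4 h6 h2' (sub_two ht' hy (h1 hx) (by linarith)) hx hy
  rw [h, dist_self, mul_zero, ← norm_dy] at h10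
  exact sub_eq_zero.1 (norm_le_zero_iff.1 h10)

theorem Cm.wire0 (hQ : Cm Ω P k 𝓩 M₀ Q) (hz : z ∈ 𝓩) {e : Q.ι} (he : Q.dim e = 1)
    (hs : Q.cell e = segment ℝ x y) (hx : dy P k x ∈ ucube z) :
    ∃ ζ, Q.cell e = dy P k ⁻¹' kcell ζ :=
  hQ.wire' he hz (hs ▸ left_mem_segment ℝ x y) hx (by simp)

theorem Hc.len (H : Hc Ω f P k 𝓩 A b τ) (hz : z ∈ 𝓩) (hx : dy P k x ∈ ucube z)
    (h5 : ‖dy P k y - dy P k x‖ = 1) :
    (2:ℝ)⁻¹ ^ k ≤ 2 * b * ‖f y - f x‖ ∧ ‖f y - f x‖ * (2 * b) ≤ 4 * b ^ 2 * (2:ℝ)⁻¹ ^ k := by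
  have h0 : (0:ℝ) < 2⁻¹ ^ k := by positivity
  have hb := H.one
  have hε := H.eps k
  obtain ⟨h6, -, h7⟩ := H.est z hz
  have h8 := h7 x (self_subset_cthickening (δ := 2) (ucube z) hx) y (thick hx (by linarith))
  have h9 := h6.2 (y - x)
  have h10 := (A z).le_of_opNorm_le h6.1 (y - x)
  rw [norm_dy P k, h5, mul_one] at h9 h10
  have h11 := norm_le_norm_add_norm_sub (f y - f x) (A z (y - x))
  have h12 := norm_le_norm_add_norm_sub' (f y - f x) (A z (y - x))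
  generalize (2:ℝ)⁻¹ ^ k = ρ at *
  generalize τ * ρ = ε at *
  have h13 := mul_le_mul_of_nonneg_left (h11.trans (add_le_add_right h8 _)) (by linarith : 0 ≤ b)
  have h14 := mul_le_mul_of_nonneg_left (h12.trans (add_le_add h10 h8)) (by linarith : 0 ≤ b)
  constructor
  · nlinarith
  · nlinarith [mul_le_mul_of_nonneg_right (one_le_pow₀ hb : 1 ≤ b ^ 2) h0.le]

theorem Hc.far (H : Hc Ω f P k 𝓩 A b τ) (hQ : Cm Ω P k 𝓩 M₀ Q) (h : Ch f P k 𝓩 τ C B) {e : Q.ι}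
    (he : Q.dim e = 1) (hd : Disjoint (Q.cell e) C) (hx : x ∈ Q.cell e) (hp : p ∈ C) {σ : ℝ}
    (hσ : σ * (32 * b) ≤ (2:ℝ)⁻¹ ^ k) : σ ≤ dist (f x) (B p) := by
  classical
  obtain ⟨z, hz, h1, h2, h3, t, ht, h4⟩ := h
  obtain ⟨a, a', -, -, h5, hs, -⟩ := hQ.cvx.exists_segment he
  have h0 : (0:ℝ) < 2⁻¹ ^ k := by positivity
  have hb := H.one
  have hε := H.eps k
  by_contra h9
  rw [not_le] at h9
  have h10 := dist_triangle (f x) (B p) (f p)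
  have h11 := H.near hz (h1 hp) ((hQ.carrier ▸ Q.cell_subset_carrier e :) hx)
    (by nlinarith [h3 p hp])
  obtain ⟨h12, E, h13, -⟩ := hQ.edge he hs (hQ.wire' he hz hx (h1 hp) (by linarith)) f
  rw [hs] at hx hd
  have h14 := sub_two h12 hx (h1 hp) (by linarith)
  have h15 := h12.sup h13 ((H.est z hz).2.2.mono h14) hx
  have h16 := H.low hz h12 ht h13 h4 h14 h2 hx hp
  have h17 := dist_triangle (E x) (f x) (B p)
  have h18 := hat_le (x := x) ht hp (h12.int (v := a) (by simp))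
    (disjoint_left.1 hd (left_mem_segment ℝ a a'))
  have h19 := hat_le (x := x) ht hp (h12.int (v := a') (by simp))
    (disjoint_left.1 hd (right_mem_segment ℝ a a'))
  have h20 := h12.sum1 x hx
  rw [Finset.sum_pair h5] at h20
  have h21 : (2:ℝ)⁻¹ ^ k ≤ 8 * b * dist (E x) (B p) := by nlinarith
  nlinarith

theorem Hc.ang (H : Hc Ω f P k 𝓩 A b τ) (hQ : Cm Ω P k 𝓩 M₀ Q) (h : Ch f P k 𝓩 τ C B) {e : Q.ι}
    (he : Q.dim e = 1) (hs : Q.cell e = segment ℝ x y) (hx : x ∈ C) (hy : y ∉ C) {r : ℝ}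
    (hr : r ∈ Icc (0:ℝ) 1) (hp : p ∈ C) {σ : ℝ} (hσ : σ * (32 * b) ≤ (2:ℝ)⁻¹ ^ k) :
    r * σ ≤ dist (AffineMap.lineMap (f x) (f y) r) (B p) := by
  classical
  obtain ⟨z, hz, h1, h2, h3, t, ht, h4⟩ := h
  have h0 : (0:ℝ) < 2⁻¹ ^ k := by positivity
  have hb := H.one
  obtain ⟨h12, E, h13, h14⟩ := hQ.edge he hs (hQ.wire0 hz he hs (h1 hx)) f
  have h15 := H.low hz h12 ht h13 h4 (sub_two h12 (left_mem_segment ℝ x y) (h1 hx) (by simp)) h2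
    (lineMap_mem_segment ℝ x y hr) hp
  have h16 := hat_le (x := AffineMap.lineMap x y r) ht hp (h12.int (v := y) (by simp)) hy
  rw [h12.hat_edge (edge_ends hQ.cvx he hs).1 hr] at h16
  rw [← h14]
  refine le_of_mul_le_mul_right ?_ (show 0 < 32 * b by positivity)
  nlinarith [mul_le_mul_of_nonneg_left hσ hr.1, mul_le_mul_of_nonneg_left h16 h0.le,
    mul_nonneg (zero_le_one.trans hb) (dist_nonneg (x := E (AffineMap.lineMap x y r)) (y := B p))]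

theorem Cm.deg (hQ : Cm Ω P k 𝓩 M₀ Q) (v : Q.ι) :
    (({e | Q.dim e = 1 ∧ Q.cell v ⊆ Q.cell e}.ncard : ℕ) : ℝ) ≤ M₀ := by
  obtain ⟨x, hx⟩ := Q.cell_nonempty v
  have h2 := (enc_mono (s := {e | Q.dim e = 1 ∧ Q.cell v ⊆ Q.cell e})
    fun e he => he.2 hx).trans (hQ.mult x)
  have h3 : {e | Q.dim e = 1 ∧ Q.cell v ⊆ Q.cell e}.Finite :=
    (Q.finite_meet_cell v).subset fun e he => ⟨x, he.2 hx, hx⟩
  rw [← h3.cast_ncard_eq, ENat.toENNReal_coe] at h2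
  exact_mod_cast h2

theorem Ch.out (h : Ch f P k 𝓩 τ C B) (hτ : 0 ≤ τ) :
    (∃ z ∈ 𝓩, C ⊆ dy P k ⁻¹' ucube z) ∧
    (∀ x ∈ C, dist (B x) (f x) ≤ 2 * (τ * (2:ℝ)⁻¹ ^ k)) ∧
    (∀ (D : M3) (l : ℝ), Close f D C (l * (2:ℝ)⁻¹ ^ k) → ∀ x ∈ C,
      ∀ y ∈ C, ‖B y - B x - D (y - x)‖ ≤ 8 * l * ‖y - x‖) ∧
    ∀ a : E3 →ᵃ[ℝ] E3, (∀ v ∈ C, (∀ l, ∃ m : ℤ, dy P k v l = m) → f v = a v) → EqOn B a C := by
  classical
  obtain ⟨z, hz, h1, h2, h3, t, ht, h4⟩ := h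
  have h0 : 0 ≤ τ * (2:ℝ)⁻¹ ^ k := by positivity
  refine ⟨⟨z, hz, h1⟩, fun x hx => (h3 x hx).trans (by linarith),
    fun D l hC x hx y hy => ?_, fun a ha x hx => ?_⟩
  · have h5 := key ht ht h4 h4 hC Subset.rfl Subset.rfl hy hx
    have h6 : (t.card : ℝ) ≤ 4 := by exact_mod_cast ht.card
    have h7 : 0 ≤ l * (2:ℝ)⁻¹ ^ k := by simpa using hC x hx x hx
    rw [Finset.union_idempotent] at h5
    refine h5.trans ((mul_le_mul_of_nonneg_right h6 (by positivity)).trans_eq ?_)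
    rw [norm_dy P k y x]
    ring
  · rw [ht.val h4 hx, ht.val (A := a) (f := f)
      (fun v hv => (ha v (ht.sub hv) (ht.int hv)).symm) hx]

theorem goodc : GOODC := by
  intro κ₀ hκ M₀ b hb
  have hM₀ := M₀.coe_nonneg
  have hb2 : 1 ≤ b ^ 2 := one_le_pow₀ hb
  obtain ⟨M, hM⟩ : ∃ M : ℝ, M = M₀ + 16 * b ^ 2 := ⟨_, rfl⟩
  have hκ' := hκ M
  have hM0 : 0 < M := by linarith
  refine ⟨min (1 / (64 * b)) (κ₀ M / (2 * b)), M, by positivity, by linarith, ?_⟩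
  intro Ω f P k 𝓩 Q A τ β hf ho hi hfin hQ hτ hτ' hβ hA hw
  classical
  have H : Hc Ω f P k 𝓩 A b τ := ⟨hf, ho, hi, hb, hτ,
    (le_div_iff₀ (by positivity)).1 (hτ'.trans (min_le_left _ _)), hA⟩
  have h0 : (0:ℝ) < 2⁻¹ ^ k := by positivity
  choose B hc using H.ch hQ
  have hΩ : ∀ i, Q.cell i ⊆ Ω := fun i => hQ.carrier ▸ Q.cell_subset_carrier i
  obtain ⟨G, hG⟩ : ∃ G : Finset Q.ι, ∀ i, i ∈ G ↔ Q.cell i ⊆ CoreZ P k 𝓩 :=
    ⟨(Q.finite_subset (core_compact P k hfin) (hQ.carrier ▸ fun x ⟨z, hz, hx⟩ =>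
      (hA z hz).2.1 (self_subset_cthickening (δ := 2) (ucube z) hx))).toFinset, fun i => Finite.mem_toFinset _⟩
  replace hc := fun i hi => hc i ((hG i).1 hi)
  have hσ : (2:ℝ)⁻¹ ^ k / (2 * b) / M * (32 * b) ≤ 2⁻¹ ^ k := by
    rw [div_mul_eq_mul_div, div_le_iff₀ hM0, div_mul_eq_mul_div, div_le_iff₀ (by positivity)]
    nlinarith [mul_le_mul_of_nonneg_left (show 16 ≤ M by linarith)
      (mul_pos h0 (one_pos.trans_le hb)).le]
  have heq : ∀ i ∈ G, ∀ l ∈ G, ∀ x ∈ Q.cell i, ∀ y ∈ Q.cell l, B i x = B l y → x = y :=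
    fun i hi l hl x hx y hy h => H.eq (hc i hi) (hc l hl) (hΩ l) hx hy h
  refine ⟨{ G := G, A := B, s := fun _ => 2⁻¹ ^ k / (2 * b), M := fun _ => M,
            face := ?_, simplex := ?_, vert := ?_,
            inj := fun i hi x hx y hy h => heq i hi i hi x hx y hy h, inter := ?_, pos := ?_,
            sep := fun _ _ _ _ h => (h.elim (fun h => h rfl) fun h => h rfl).elim,
            deg := fun v _ _ => (hQ.deg v).trans (by linarith),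
            wire := ?_, far := ?_, ang := ?_ }, hG, fun i hi => ⟨rfl, rfl, (hc i hi).out hτ⟩⟩
  · intro i hi l hl
    have h1 := (hG l).2 (hl.trans ((hG i).1 hi))
    obtain ⟨-, -, -, -, -, t, ht, h4⟩ := hc i hi
    obtain ⟨-, -, -, -, -, t', ht', h6⟩ := hc l h1
    refine ⟨h1, rfl, rfl, fun x hx => ?_⟩
    rw [ht'.val h6 hx, ht'.val (A := B i) (f := f)
      (fun v hv => h4 v ((ht.mem v).2 ⟨hl (ht'.sub hv), ht'.int hv⟩)) hx]
  · intro i hi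
    obtain ⟨-, -, -, -, -, t, ht, -⟩ := hc i hi
    refine ⟨t, ht.indep, ht.hull, fun l hl => ?_⟩
    obtain ⟨-, t', ht'⟩ := hQ.cell (hl.trans ((hG i).1 hi))
    exact ⟨t', fun v hv => (ht.mem v).2 ⟨hl (ht'.sub hv), ht'.int hv⟩, ht'.hull⟩
  · intro v hv h1 x hx
    obtain ⟨-, -, -, -, -, t, ht, h4⟩ := hc v hv
    obtain ⟨a, ha⟩ := Q.exists_vertex h1
    obtain ⟨u, hu⟩ := ht.exists_mem hx
    have h2 := ht.sub hu
    rw [ha] at hx h2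
    rw [hx, ← h2]
    exact h4 u hu
  · rintro i hi l hl _ ⟨⟨x, hx, rfl⟩, y, hy, h⟩
    obtain rfl := heq i hi l hl x hx y hy h.symm
    exact ⟨x, ⟨hx, hy⟩, rfl⟩
  · intro i hi
    exact ⟨by positivity, by linarith, (mul_le_mul_of_nonneg_left
      (div_le_self h0.le (by linarith)) hM0.le).trans hβ⟩
  · intro v hv e x y he hx hs
    obtain ⟨z, hz, h1, -⟩ := hc v hv
    have h2 : dy P k x ∈ ucube z := h1 (by simp [hx])
    have h3 := hQ.wire0 hz he hs h2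
    obtain ⟨h4, -⟩ := hQ.edge he hs h3 f
    obtain ⟨h5, h6⟩ := H.len hz h2
      (h4.one y (by simp) x (by simp) (edge_ends hQ.cvx he hs).1.symm)
    refine ⟨?_, ?_, (hw z hz e x y he hs h2 h3 fun u hu => thick h2
      (h4.near u (hs ▸ hu) x (left_mem_segment ℝ x y))).trans (ENNReal.ofReal_le_ofReal ?_)⟩
    · rwa [div_le_iff₀' (by positivity)]
    · rw [← mul_div_assoc, le_div_iff₀ (by positivity)]
      exact h6.trans (mul_le_mul_of_nonneg_right (by linarith) h0.le)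
    · rw [mul_div_assoc', ← div_mul_eq_mul_div]
      exact mul_le_mul_of_nonneg_right (min_le_right _ _) h0.le
  · rintro i hi e he hd x hx _ ⟨p, hp, rfl⟩
    exact H.far hQ (hc i hi) he hd hx hp hσ
  · rintro i hi e x y he hs hx hy r hr _ ⟨p, hp, rfl⟩
    exact H.ang hQ (hc i hi) he hs hx hy hr hp hσ

end Gc

end P073
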