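import Vale.Agent.P073Y.An.Sk
import Vale.Agent.P073Y.Ms.Sk
import Vale.Agent.P073Z.ACC.Sk

/-!
# Good simplices in the cores, solid cubes: statements
-/

open Set Metric Topology Filter MeasureTheory
open scoped ENNReal NNReal

namespace P073

namespace Gc

open Me (dy)
open An (M3)

/-- the union of the dyadic cubes of scale `k` with indices in `𝓩` -/
def CoreZ (P : Par) (k : ℕ) (𝓩 : Set (Fin 3 → ℤ)) : Set E3 := {x | ∃ z ∈ 𝓩, dy P k x ∈ ucube z}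

/-- what is used of the complex near the core cubes -/
structure Cm (Ω : Set E3) (P : Par) (k : ℕ) (𝓩 : Set (Fin 3 → ℤ)) (M₀ : ℝ≥0) (Q : RCx E3) :
    Prop where
  cvx : Q.Cvx
  carrier : Q.carrier = Ω
  mult : ∀ x, ({i | x ∈ Q.cell i}.encard : ℝ≥0∞) ≤ M₀
  kuhn : ∀ i, ∀ z ∈ 𝓩, ∀ x ∈ Q.ocell i, dy P k x ∈ ucube z →
    Q.cell i = dy P k ⁻¹' kcell (dy P k x)
  wire : ∀ e, Q.dim e = 1 → ∀ z ∈ 𝓩, ∀ x ∈ Q.ocell e, dy P k x ∈ cthickening 1 (ucube z) →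
    ∃ ζ, Q.cell e = dy P k ⁻¹' kcell ζ

/-- the matrix and its inverse are bounded by `b` -/
def Bil (b : ℝ) (A : M3) : Prop := ‖A‖ ≤ b ∧ ∀ u, ‖u‖ ≤ b * ‖A u‖

/-- `f` is close to the linear map `A` on `X` -/
def Close (f : E3 → E3) (A : M3) (X : Set E3) (l : ℝ) : Prop :=
  ∀ x ∈ X, ∀ y ∈ X, ‖f y - f x - A (y - x)‖ ≤ l

/-- all Kuhn simplices of the core are good -/
def GOODC : Prop := ∀ κ₀ : ℝ → ℝ, (∀ M, 0 < κ₀ M) → ∀ (M₀ : ℝ≥0) (b : ℝ), 1 ≤ b →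
  ∃ τ₀ M : ℝ, 0 < τ₀ ∧ 1 ≤ M ∧
  ∀ {Ω : Set E3} {f : E3 → E3} (P : Par) (k : ℕ) (𝓩 : Set (Fin 3 → ℤ)) (Q : RCx E3)
    (A : (Fin 3 → ℤ) → M3) {τ β : ℝ}, ContinuousOn f Ω → An.OpenOn f Ω → InjOn f Ω →
  𝓩.Finite → Cm Ω P k 𝓩 M₀ Q → 0 ≤ τ → τ ≤ τ₀ → M * (2:ℝ)⁻¹ ^ k ≤ β →
  (∀ z ∈ 𝓩, Bil b (A z) ∧ dy P k ⁻¹' cthickening 2 (ucube z) ⊆ Ω ∧
    Close f (A z) (dy P k ⁻¹' cthickening 2 (ucube z)) (τ * (2:ℝ)⁻¹ ^ k)) →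
  (∀ z ∈ 𝓩, ∀ e x y, Q.dim e = 1 → Q.cell e = segment ℝ x y → dy P k x ∈ ucube z →
    (∃ ζ, Q.cell e = dy P k ⁻¹' kcell ζ) → Q.cell e ⊆ dy P k ⁻¹' cthickening 1 (ucube z) →
    eVariationOn (fun t : ℝ => f (AffineMap.lineMap x y t) - AffineMap.lineMap (f x) (f y) t)
      (Icc 0 1) ≤ ENNReal.ofReal (τ₀ * (2:ℝ)⁻¹ ^ k)) →
  ∃ γ : Good Q f κ₀ β, (∀ i, i ∈ γ.G ↔ Q.cell i ⊆ CoreZ P k 𝓩) ∧ ∀ i ∈ γ.G,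
    γ.s i = (2:ℝ)⁻¹ ^ k / (2 * b) ∧ γ.M i = M ∧
    (∃ z ∈ 𝓩, Q.cell i ⊆ dy P k ⁻¹' ucube z) ∧
    (∀ x ∈ Q.cell i, dist (γ.A i x) (f x) ≤ 2 * (τ * (2:ℝ)⁻¹ ^ k)) ∧
    (∀ (B : M3) (l : ℝ), Close f B (Q.cell i) (l * (2:ℝ)⁻¹ ^ k) → ∀ x ∈ Q.cell i,
      ∀ y ∈ Q.cell i, ‖γ.A i y - γ.A i x - B (y - x)‖ ≤ 8 * l * ‖y - x‖) ∧
    ∀ a : E3 →ᵃ[ℝ] E3, (∀ v ∈ Q.cell i, (∀ l, ∃ m : ℤ, dy P k v l = m) → f v = a v) →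
      EqOn (γ.A i) a (Q.cell i)

/-- both complexes of the source mesh have the required form -/
def MESHC : Prop := ∀ {Ω : Set E3} {P : Par} {σ : E3 → ℝ} {𝓒 : Set (ℕ × (Fin 3 → ℤ))} {M₀ : ℝ≥0}
  {Mt : Ty → ℕ → ℝ≥0} {S₀ : Set E3} {S : Ty → ℕ → Set E3}
  (𝓜 : M2.Mesh2 Ω P σ 𝓒 M₀ Mt S₀ S) (k : ℕ) (𝓩 : Set (Fin 3 → ℤ)), M2.Ok2 Ω P σ 𝓒 →
  (∀ z ∈ 𝓩, (k, z) ∈ 𝓒) → Cm Ω P k 𝓩 M₀ 𝓜.Q ∧ Cm Ω P k 𝓩 M₀ 𝓜.Q'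

/-- the points of the cubic lattice of step `s` -/
def lat0 (s : ℝ) : Set E3 := {q | ∀ i, ∃ m : ℤ, q i = m * s}

/-- solid cubes: the candidates `P₀` do not depend on the shift, most of them have only good
wires -/
def SOLID : Prop := ∀ {p : ℝ}, 2 < p →
  ∀ {Ω K V : Set E3} {f : E3 → E3} {F : E3 → M3} {b : ℝ} {δ : ℝ≥0∞}, An.Mon Ω f F →
  Measurable F → ∫⁻ x in Ω, ‖F x‖ₑ ^ p < ⊤ → IsCompact K → IsOpen V → K ⊆ V → V ⊆ Ω →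
  (∀ x ∈ K, Bil b (F x)) → 0 < δ →
  ∃ K' ⊆ K, IsCompact K' ∧ volume (K \ K') ≤ δ ∧
  ∀ (N τ : ℝ) (δ' : ℝ≥0∞), 1 ≤ N → 0 < τ → 0 < δ' → ∃ ρ₁ : ℝ, 0 < ρ₁ ∧
  ∀ ρ R : ℝ, 0 < ρ → ρ ≤ ρ₁ → ρ ≤ R →
  ∃ (P₀ : Finset E3) (A : E3 → M3) (Φ : E3 → ℝ≥0∞),
    (∀ q ∈ P₀, q ∈ lat0 (N * ρ) ∧ (closedBall q (N * ρ / 2) ∩ K').Nonempty ∧
      closedBall q (3 * (N * ρ)) ⊆ V ∧ Bil b (A q) ∧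
      Close f (A q) (closedBall q (2 * (N * ρ))) (τ * ρ) ∧
      ∫⁻ x in closedBall q (3 * (N * ρ)), ‖F x - A q‖ₑ ^ p ≤ ENNReal.ofReal (τ * ρ ^ 3)) ∧
    ENNReal.ofReal ((N * ρ) ^ 3) * ({q ∈ lat0 (N * ρ) |
      (closedBall q (N * ρ / 2) ∩ K').Nonempty ∧ q ∉ P₀}.encard : ℝ≥0∞) ≤ δ' ∧
    Mean R Φ δ' ∧ ∀ w, ∃ P₁ ⊆ P₀, ENNReal.ofReal ((N * ρ) ^ 3) * ((P₀ \ P₁).card : ℝ≥0∞) ≤ Φ w ∧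
      ∀ q ∈ P₁, ∀ x y ζ, x ≠ y → segment ℝ x y = (fun u => ρ⁻¹ • (u - w)) ⁻¹' kcell ζ →
        segment ℝ x y ⊆ closedBall q (2 * (N * ρ)) →
        ∫⁻ u in segment ℝ x y, ‖F u - A q‖ₑ ∂(μH[1]) ≤ ENNReal.ofReal (τ * ρ)

end Gc

end P073
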