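import Vale.Agent.P073Y.Gc.Fare

/-!
# The full weights, the right hand side of the batches, the total energy
-/

open Set Metric Topology Filter MeasureTheory
open scoped ENNReal NNReal

namespace P073

namespace Gc

open Me (dy)
open An (M3)
open M2 Zn
open _root_.P073.Top
open Nr (nrc nrs farE Ref)

variable {Ω : Set E3} {P : Par} {σ : E3 → ℝ} {𝓒 : Set (ℕ × (Fin 3 → ℤ))} {M₀ : ℝ≥0}
  {Mt : Ty → ℕ → ℝ≥0} {S₀ : Set E3} {S : Ty → ℕ → Set E3} (𝓜 : Mesh2 Ω P σ 𝓒 M₀ Mt S₀ S)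
  {k : ℕ} {p b τ θ s : ℝ} {K V : Set E3} {f g : E3 → E3} {F A : E3 → M3} {w : E3}
  {P₁ P₂ : Finset E3} {Y : ℕ → Set E3} {n : ℕ → ℕ} {Y' D : Set E3} {φ : 𝓜.Q.ι} {Γ : ℝ≥0∞}

theorem cand_mono {S : Src Ω} {w₀ : E3} {σ : ℝ} {Y : Set E3} {w w' : S.Q.ι → ℝ≥0∞}
    (h : Cand S w₀ σ Y w) (h' : ∀ φ, w φ ≤ w' φ) : Cand S w₀ σ Y w' :=
  ⟨h.pos, h.sub, fun φ a b => (h.wt φ a b).trans (h' φ)⟩

/-- the full weights -/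
noncomputable def wf (Y : ℕ → Set E3) (n : ℕ → ℕ) (Y' : Set E3) (k : ℕ) (D : Set E3) (Γ : ℝ≥0∞)
    (φ : 𝓜.Q.ι) : ℝ≥0∞ := wd 𝓜 Y n Y' k D φ +
  {φ | ∃ j, (𝓜.Q.cell φ ∩ P.U j).Nonempty}.indicator (fun φ => Γ * 𝓜.rr φ) φ

theorem wd_le_wf (φ : 𝓜.Q.ι) : wd 𝓜 Y n Y' k D φ ≤ wf 𝓜 Y n Y' k D Γ φ := le_self_add

theorem wf_U (φ : 𝓜.Q.ι) (j : Fin P.N) (h : (𝓜.Q.cell φ ∩ P.U j).Nonempty) :
    Γ * 𝓜.rr φ ≤ wf 𝓜 Y n Y' k D Γ φ :=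
  le_add_left (indicator_of_mem (s := {φ | ∃ j, (𝓜.Q.cell φ ∩ P.U j).Nonempty}) ⟨j, h⟩
    fun φ => Γ * 𝓜.rr φ).ge

theorem wf_le (φ : 𝓜.Q.ι) : wf 𝓜 Y n Y' k D Γ φ ≤ (1 + Γ) * 𝓜.wt Y n Y' k φ := by
  rw [add_mul, one_mul]
  exact add_le_add (wd_le 𝓜 D φ) ((indicator_le_self _ _ φ).trans
    (mul_le_mul_right (𝓜.rr_le_wt Y n Y' k φ) Γ))

theorem wf_ne_top {O : ℕ → Set E3} (hO : LFIn O Ω) (hY : ∀ i, Y i ⊆ O i) (hΓ : Γ ≠ ⊤)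
    (φ : 𝓜.Q.ι) : wf 𝓜 Y n Y' k D Γ φ ≠ ⊤ :=
  ne_top_of_le_ne_top (ENNReal.mul_ne_top (ENNReal.add_ne_top.2 ⟨ENNReal.one_ne_top, hΓ⟩)
    (𝓜.wt_ne_top Y n Y' k hO hY φ)) (wf_le 𝓜 φ)

theorem diam_deep (hok : Ok2 Ω P σ 𝓒) (h𝓩 : ∀ z ∈ zof P k P₁ s, (k, z) ∈ 𝓒) (hs : Sz P σ V k s θ)
    {c : 𝓜.Q.ι} {x y : E3} (hx : x ∈ 𝓜.Q.cell c) (hy : y ∈ 𝓜.Q.cell c)
    (h : x ∈ deepc P₁ s (2 * θ)) : dist y x ≤ θ * s := by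
  have h0 : (0:ℝ) < 2⁻¹ ^ k := by positivity
  exact (diam_core 𝓜 hok h𝓩 hx hy (deep_core (by linarith [hs.le']) h)).trans hs.le'

/-- the first weight clause of `fare` -/
theorem wf_face (hok : Ok2 Ω P σ 𝓒) (h𝓩 : ∀ z ∈ zof P k P₁ s, (k, z) ∈ 𝓒) (hs : Sz P σ V k s θ)
    (c φ : 𝓜.Q.ι) (h : ¬ 𝓜.Q.cell c ⊆ deepc P₁ s θ) (hφ : 𝓜.Q.cell φ ⊆ 𝓜.Q.cell c) :
    𝓜.rr φ ≤ wf 𝓜 Y n Y' k (deepc P₁ s (2 * θ)) Γ φ :=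
  ((𝓜.rr_le_wt Y n Y' k φ).trans_eq (wd_face 𝓜
    (fun _ hx _ hy => diam_deep 𝓜 hok h𝓩 hs hx hy) h hφ).symm).trans (wd_le_wf 𝓜 φ)

theorem Sol.cubes_V {ρ r : ℝ} (h : Sol p f F K V b τ ρ s w P₁ P₂ A)
    (hr : r ≤ 3 * s) : cubes P₁ r ⊆ V := fun _ hx =>
  let ⟨q, hq, h1⟩ := mem_cubes.1 hx
  (h.lat q (Or.inl hq)).2.1 (h1.trans hr)

theorem Sol.deep_U (h : Sol p f F K V b τ (2⁻¹ ^ k) s w P₁ P₂ A) (hs : Sz P σ V k s θ)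
    (j : Fin P.N) : Disjoint (deepc P₁ s θ) (P.U j) := disjoint_left.2 fun x hx =>
  (hs.size x (h.cubes_V (by linarith [hs.pos])
    (deep_cubes (le_trans (by positivity) hs.le') hx))).2 j

/-- **the right hand side of the energy clause of the batches** -/
theorem Sol.rhs {ς : E3 → ℝ}
    (𝓜 : Mesh2 Ω P (size P ς k (zof P k P₁ s)) 𝓒 M₀ Mt S₀ S)
    (h : Sol p f F K V b τ (2⁻¹ ^ k) s w P₁ P₂ A) (hs : Sz P (size P ς k (zof P k P₁ s)) V k s θ)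
    (hΩ : IsOpen Ω) (hK : K ⊆ V) (hKm : MeasurableSet K) (hF : Measurable F) (h1 : 1 ≤ M₀)
    (hp : 0 < p) (h𝓩 : ∀ z ∈ zof P k P₁ s, (k, z) ∈ 𝓒) (hb : ∀ x ∈ K, ‖F x‖ ≤ b) {n₀ : ℕ}
    (hk : k ≤ n₀) (hn : ∀ i, (Y i ∩ K).Nonempty → n i = n₀) {O : ℕ → Set E3}
    (hO : ∀ i, Y i ⊆ O i) (hd : ∀ i i', i + 2 ≤ i' → Disjoint (O i) (O i'))
    (hY : ∀ i, Disjoint (Y i) (cubes P₁ (3 * s / 4))) (hs' : 72 * (2:ℝ)⁻¹ ^ k ≤ s)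
    {X : Set E3} (hX : ∀ φ, 𝓜.far φ → 𝓜.Q.cell φ ⊆ X) {L : ℝ≥0}
    (hL : ∀ i, 𝓜.Q.cell i ⊆ CoreZ P k (zof P k P₁ s) → LipschitzOnWith L g (𝓜.Q.cell i))
    {C δ : ℝ≥0∞} {t : 𝓜.Q.ι → ℝ≥0∞} (hW : ∀ φ, 𝓜.far φ → (𝓜.src h1).W p g φ ≤
      C * (𝓜.rr φ * wint 𝓜.Q (fun x => ‖F x‖ₑ ^ p) φ) + t φ)
    (ht : tot {φ | 𝓜.Q.dim φ = 2 ∧ 𝓜.far φ} (fun φ => 𝓜.wt Y n Y' k φ * t φ) ≤ δ)
    {G : Fin P.N → Set E3} (hG : ∀ j, P.U j ⊆ G j) {X' : Set E3}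
    (hX' : ∀ φ j, 𝓜.far φ → (𝓜.Q.cell φ ∩ G j).Nonempty → 𝓜.Q.cell φ ⊆ X') (Cu : ℝ≥0∞)
    (Ct : Fin P.N → ℝ≥0∞) :
    Cu * tot {φ | 𝓜.Q.dim φ = 2 ∧ ∀ j, φ ∉ nrc 𝓜 j}
        (fun φ => wf 𝓜 Y n Y' k (deepc P₁ s (2 * θ)) Γ φ *
          pot (𝓜.src h1) p g (cubes P₁ (s / 2)) φ) +
      ∑ j, Ct j * tot {φ | 𝓜.Q.dim φ = 2 ∧ (∀ j, φ ∉ nrc 𝓜 j) ∧ (𝓜.Q.cell φ ∩ G j).Nonempty}
        (fun φ => wf 𝓜 Y n Y' k (deepc P₁ s (2 * θ)) Γ φ * (𝓜.src h1).W p g φ) ≤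
      Cu * (672 * (M₀ : ℝ≥0∞) ^ 5 * ((M₀ : ℝ≥0∞) ^ p + 4 * M₀ ^ 2) * (L : ℝ≥0∞) ^ p *
          ENNReal.ofReal θ * volume V +
        C * (M₀ * LAM S₀ ς P.k₀ k O n X (Kᶜ.indicator fun x => ‖F x‖ₑ ^ p) P.w +
          4 * (M₀ : ℝ≥0∞) ^ 6 * ENNReal.ofReal b ^ p *
            (8 * (ENNReal.ofReal (s ^ 3) * P₂.card) + 336 * ENNReal.ofReal θ * volume V)) + δ) +
      (Cu * Γ + (∑ j, Ct j) * (1 + Γ)) *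
        (C * (M₀ * LAM S₀ ς P.k₀ k O n X' (fun x => ‖F x‖ₑ ^ p) P.w) + δ) := by
  classical
  have h2 := h.far_total 𝓜 hs hΩ hK hKm hF h1 hp h𝓩 hb hk hn hO hd hY hs' hX hL hW ht
  have h3 : tot {φ | 𝓜.Q.dim φ = 2 ∧ 𝓜.far φ ∧ ∃ j, (𝓜.Q.cell φ ∩ G j).Nonempty}
      (fun φ => 𝓜.wt Y n Y' k φ * (𝓜.src h1).W p g φ) ≤
      C * (M₀ * LAM S₀ ς P.k₀ k O n X' (fun x => ‖F x‖ₑ ^ p) P.w) + δ := by
    refine (tot_le (b := fun φ => C * (𝓜.wt Y n Y' k φ * (𝓜.rr φ * wint 𝓜.Q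
      (fun x => ‖F x‖ₑ ^ p) φ)) + 𝓜.wt Y n Y' k φ * t φ) fun φ hφ =>
        (mul_le_mul_right (hW φ hφ.2.1) _).trans_eq (by ring)).trans ?_
    rw [tot_add, tot_mul]
    refine add_le_add (mul_le_mul_right (𝓜.wt_sum n Y' _ (fun φ hφ => ?_)
      hO fun i x hx z hz h3 => ?_) _) ((tot_subset (fun φ hφ => ?_) _).trans ht)
    · exact ⟨hφ.2.1, hφ.2.2.elim fun j => hX' φ j hφ.2.1⟩
    · obtain ⟨q, hq, h4⟩ := zof_near hz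
      exact disjoint_left.1 (hY i) hx (mem_cubes.2 ⟨q, hq,
        (mem_closedBall.1 (h4 17 (by norm_num) h3)).trans (by linarith)⟩)
    · exact ⟨hφ.1, hφ.2.1⟩
  simp only [far_iff]
  rw [add_mul, ← add_assoc, mul_assoc Cu Γ, ← mul_add, mul_assoc (∑ j, Ct j), Finset.sum_mul]
  refine add_le_add (mul_le_mul_right ?_ _) (Finset.sum_le_sum fun j _ => mul_le_mul_right
    (le_trans (tot_mono (fun φ hφ => ?_) fun φ _ => ?_) ((tot_mul _ _ _).trans_le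
      (mul_le_mul_right h3 _))) _)
  · simp only [wf, add_mul, tot_add, ← indicator_mul_const]
    refine add_le_add h2 ((tot_indicator _ _ _).trans_le (le_trans (tot_mono
      (fun φ ⟨a, j, c⟩ => ?_) fun φ ⟨a, j, x, hx, c⟩ => ?_) ((tot_mul _ _ _).trans_le
        (mul_le_mul_right h3 _))))
    · exact ⟨a.1, a.2, j, c.mono (inter_subset_inter_right _ (hG j))⟩
    · have h7 : pot (𝓜.src h1) p g (cubes P₁ (s / 2)) φ = (𝓜.src h1).W p g φ :=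
        (congrArg _ (if_neg fun h7 =>
          (hs.size x (h.cubes_V (by linarith [hs.pos]) (h7 hx))).2 j c)).trans (add_zero _)
      rw [h7]
      exact (mul_assoc _ _ _).trans_le
        (mul_le_mul_right (mul_le_mul_left (𝓜.rr_le_wt Y n Y' k φ) _) _)
  · exact ⟨hφ.1, hφ.2.1, j, hφ.2.2⟩
  · rw [← mul_assoc]
    exact mul_le_mul_left (wf_le 𝓜 φ) _

theorem K_nrs (ok : P.Ok Ω) (j : Fin P.N) : P.K j ⊆ nrs 𝓜 j := fun x hx => by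
  obtain ⟨i, hi⟩ := 𝓜.Q.mem_carrier.1 (𝓜.carrier.symm ▸ Cube.U_sub ok j (Cube.K_U j hx))
  have h2 : 𝓜.Q.cell i ⊆ P.BufSet j := by_contra fun h => disjoint_left.1 (𝓜.disj_K ok h) hi hx
  exact ⟨i, ⟨𝓜.not_far hi ok (h2 hi), h2.trans (Cube.buf_U ok j)⟩, hi⟩

theorem deep_kept (hΩ : IsOpen Ω) (hok : Ok2 Ω P σ 𝓒) (h𝓩 : ∀ z ∈ zof P k P₁ s, (k, z) ∈ 𝓒)
    (hs : Sz P σ V k s θ) {x : E3} (hx : x ∈ Ω) (h : x ∈ deepc P₁ s (2 * θ)) :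
    x ∈ kept 𝓜 (deepc P₁ s θ) := by
  obtain ⟨i, hi⟩ := 𝓜.Q.mem_carrier.1 (𝓜.carrier.symm ▸ hx)
  obtain ⟨c, hc, hic⟩ := TP.exists_top 𝓜.cvx (𝓜.carrier.symm ▸ hΩ) i
  exact mem_biUnion (show c ∈ {c | _} from ⟨hc, fun y hy =>
    deep_near h (diam_deep 𝓜 hok h𝓩 hs (hic hi) hy h)⟩) (hic hi)

/-- **the total energy** -/
theorem Sol.total (h : Sol p f F K V b τ (2⁻¹ ^ k) s w P₁ P₂ A) (hs : Sz P σ V k s θ)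
    (hΩ : IsOpen Ω) (hok : Ok2 Ω P σ 𝓒) (h𝓩 : ∀ z ∈ zof P k P₁ s, (k, z) ∈ 𝓒) (hp : 1 ≤ p)
    (hF : Measurable F) (hKm : MeasurableSet K) (hb : ∀ x ∈ K, ‖F x‖ ≤ b) (hτ : 0 ≤ τ) {r t : ℝ}
    (ha : Aff 𝓜.Q (CoreZ P k (zof P k P₁ s)) P₁ A r t g) (h0 : 0 ≤ t) (h1 : t ≤ 1)
    (hr : r ≤ 3 * s) {h₁ h₂ h₃ : E3 → E3} (e₁ : EqOn h₁ g (deepc P₁ s θ))
    (e₂ : EqOn h₂ h₁ (kept 𝓜 (deepc P₁ s θ)))
    (e₃ : ∀ x, (∀ j, x ∉ nrs 𝓜 j) → h₃ =ᶠ[𝓝 x] h₂) :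
    ∫⁻ x in Ω, ‖fderiv ℝ h₃ x - F x‖ₑ ^ p ≤
      ∑ j, (∫⁻ x in nrs 𝓜 j, ‖fderiv ℝ h₃ x - F x‖ₑ ^ p) +
      2 ^ (p - 1) * (ENNReal.ofReal (t + τ) * volume V) +
      2 ^ p * ((∫⁻ x in Ω \ ((⋃ j, nrs 𝓜 j) ∪ kept 𝓜 (deepc P₁ s θ)), ‖fderiv ℝ h₂ x‖ₑ ^ p) +
        ((∫⁻ x in Ω \ (K ∪ ⋃ j, P.K j), ‖F x‖ₑ ^ p) + ENNReal.ofReal b ^ p *
          (8 * (ENNReal.ofReal (s ^ 3) * P₂.card) + 336 * ENNReal.ofReal θ * volume V))) := by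
  have := 𝓜.Q.countable
  have a0 : (0:ℝ) < 2⁻¹ ^ k := by positivity
  have a1 := hs.le
  have a2 := h.energy hp hF 𝓜.cvx ha ((core_sub P k P₁ s).trans (h.cubes_V (by linarith))) hτ h0 h1
    a0.le (by linarith) hs.pos hr (𝓖 := {c | 𝓜.Q.dim c = 3 ∧ 𝓜.Q.cell c ⊆ deepc P₁ s θ})
    (to_countable _) (k := h₃) fun c hc => ⟨hc.2.trans (deep_core (a0.le.trans hs.le')),
      fun x hx => by
        have h4 := interior_subset hx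
        rw [(e₃ x fun j hj => disjoint_left.1 (h.deep_U hs j) (hc.2 h4)
          (nrs_U 𝓜 j hj)).eq_of_nhds, e₂ (mem_biUnion hc h4), e₁ (hc.2 h4)]⟩
  have a3 : MeasurableSet (Ω \ ((⋃ j, nrs 𝓜 j) ∪ kept 𝓜 (deepc P₁ s θ))) :=
    hΩ.measurableSet.diff ((MeasurableSet.iUnion fun j => by
      rw [show nrs 𝓜 j = ⋃ i ∈ nrc 𝓜 j, 𝓜.Q.cell i by ext; simp [nrs]]
      exact .biUnion (to_countable _) fun i _ => (𝓜.Q.isClosed_cell i).measurableSet).union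
      (.biUnion (to_countable _) fun i _ => (𝓜.Q.isClosed_cell i).measurableSet))
  refine (lintegral_mono_set (subset_union_right.trans union_sdiff_self.ge)).trans
    ((lintegral_union_le _ ((⋃ j, nrs 𝓜 j) ∪ kept 𝓜 (deepc P₁ s θ)) _).trans (add_le_add
      ((lintegral_union_le _ _ _).trans (add_le_add ((lintegral_iUnion_le _ _).trans_eq
        (tsum_fintype _)) a2)) ?_))
  refine le_trans ?_ (mul_le_mul_right (add_le_add le_rfl (?_ : ∫⁻ x in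
    Ω \ ((⋃ j, nrs 𝓜 j) ∪ kept 𝓜 (deepc P₁ s θ)), ‖F x‖ₑ ^ p ≤ _)) _)
  · rw [← lintegral_add_right _ (hF.enorm.pow_const p), ← lintegral_const_mul' _ _
      (ENNReal.rpow_ne_top_of_nonneg (by linarith) ENNReal.ofNat_ne_top)]
    refine setLIntegral_mono' a3 fun x hx => ?_
    rw [(e₃ x fun j hj => hx.2 (Or.inl (mem_iUnion.2 ⟨j, hj⟩))).fderiv_eq]
    exact (ENNReal.rpow_le_rpow enorm_sub_le (by linarith)).trans (Nr.Sm.add_rpow_le hp _ _)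
  refine (lintegral_mono_set (t := (Ω \ (K ∪ ⋃ j, P.K j)) ∪ (K \ deepc P₁ s (2 * θ)))
    fun x hx => ?_).trans ((lintegral_union_le _ _ _).trans (add_le_add le_rfl ?_))
  · by_cases hK : x ∈ K
    · exact Or.inr ⟨hK, fun h4 => hx.2 (Or.inr (deep_kept 𝓜 hΩ hok h𝓩 hs hx.1 h4))⟩
    · exact Or.inl ⟨hx.1, fun h4 => h4.elim hK fun h5 =>
        hx.2 (Or.inl (iUnion_mono (K_nrs 𝓜 hok.ok) h5))⟩
  refine le_trans (lintegral_mono_ae ?_) ((setLIntegral_const _ _).trans_le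
    (mul_le_mul_right (h.rest hs) _))
  filter_upwards [ae_mono (Measure.restrict_mono sdiff_subset le_rfl) (ae_restrict_mem hKm)]
    with x hx
  rw [← ofReal_norm]
  exact ENNReal.rpow_le_rpow (ENNReal.ofReal_le_ofReal (hb x hx)) (by linarith)

/-- **the uniform distance** -/
theorem sup_le {κ : Type} {x : κ → E3} {r : κ → ℝ} {h₁ h₂ h₃ : E3 → E3} {ς : E3 → ℝ} {ε : ℝ}
    (hx : ∀ k, closedBall (x k) (r k) ⊆ Ω) (e₁ : ∀ u ∈ Ω, dist (h₁ u) (f u) ≤ ε)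
    (e₂ : ∀ u ∈ Ω, ∃ u', h₂ u = h₁ u' ∧ ((∃ c, u ∈ 𝓜.Q.cell c ∧ u' ∈ 𝓜.Q.cell c) ∨
      ∃ k, u ∈ closedBall (x k) (r k) ∧ u' ∈ closedBall (x k) (r k)))
    (e₃ : ∀ u ∈ Ω, ∃ y ∈ Ω, dist y u ≤ ς u ∧ h₃ u = h₂ y)
    (c₁ : ∀ c, ∀ u ∈ 𝓜.Q.cell c, ∀ y ∈ 𝓜.Q.cell c, dist (g u) (f y) ≤ ε)
    (c₂ : ∀ k, ∀ u ∈ closedBall (x k) (r k), ∀ u' ∈ closedBall (x k) (r k), dist (f u) (f u') ≤ ε)
    (c₃ : ∀ u ∈ Ω, ∀ y ∈ Ω, dist y u ≤ ς u → dist (f y) (f u) ≤ ε) :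
    ∀ u ∈ Ω, dist (h₃ u) (f u) ≤ 4 * ε := fun u hu => by
  obtain ⟨y, hy, a1, a2⟩ := e₃ u hu
  obtain ⟨u', a3, a4⟩ := e₂ y hy
  have a5 := c₃ u hu y hy a1
  have a6 := dist_nonneg.trans a5
  rw [a2, a3]
  rcases a4 with ⟨c, b1, b2⟩ | ⟨l, b1, b2⟩
  · linarith [e₁ u' (𝓜.carrier ▸ 𝓜.Q.cell_subset_carrier c b2), c₁ c y b1 y b1, c₁ c y b1 u' b2,
      dist_triangle4 (h₁ u') (f u') (f y) (f u), dist_triangle_left (f u') (f y) (g y)]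
  · linarith [e₁ u' (hx l b2), c₂ l u' b2 y b1, dist_triangle4 (h₁ u') (f u') (f y) (f u)]

end Gc

end P073
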