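import Vale.Agent.P073Y.Gc.Ring
import Vale.Agent.P073Y.Ms.Lam

/-!
# The far faces: the total weight
-/

open Set Metric Topology Filter MeasureTheory
open scoped ENNReal NNReal

namespace P073

namespace Gc

open Me (dy)
open An (M3)
open M2 Zn
open _root_.P073.Top

variable {Ω : Set E3} {P : Par} {σ : E3 → ℝ} {𝓒 : Set (ℕ × (Fin 3 → ℤ))} {M₀ : ℝ≥0}
  {Mt : Ty → ℕ → ℝ≥0} {S₀ : Set E3} {S : Ty → ℕ → Set E3} (𝓜 : Mesh2 Ω P σ 𝓒 M₀ Mt S₀ S)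
  {k : ℕ} {p b τ θ s : ℝ} {K V : Set E3} {f g : E3 → E3} {F A : E3 → M3} {w : E3}
  {P₁ P₂ : Finset E3} {Y : ℕ → Set E3} {n : ℕ → ℕ} {Y' : Set E3} {φ : 𝓜.Q.ι}

theorem rr_eq (i : 𝓜.Q.ι) : 𝓜.rr i = rr 𝓜 i := by
  rw [rr, Mesh2.rr, ← ENNReal.ofReal_coe_nnreal]
  simp

theorem wint_const (hφ : 𝓜.far φ) (c : ℝ≥0∞) : wint 𝓜.Q (fun _ => c) φ ≤ M₀ * (c * 𝓜.rr φ) := by
  refine (tot_const_le fun e he => ?_).trans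
    (mul_le_mul_left ((Gd.enc_mono fun e he => he.2).trans (far_faces 𝓜 hφ)) _)
  obtain ⟨x, y, -, -, -, hc, -⟩ := 𝓜.cvx.exists_segment he.1
  rw [setLIntegral_const, hc, hausdorffMeasure_segment, edist_dist]
  exact mul_le_mul_right (ENNReal.ofReal_le_ofReal (𝓜.far_diam φ hφ x
    (he.2 (hc ▸ left_mem_segment ℝ x y)) y (he.2 (hc ▸ right_mem_segment ℝ x y)))) _

theorem wint_zero {G : E3 → ℝ≥0∞} (h : ∀ x ∈ 𝓜.Q.cell φ, G x = 0) : wint 𝓜.Q G φ = 0 :=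
  le_zero_iff.1 ((tot_le fun e he => (setLIntegral_mono' (𝓜.Q.isClosed_cell e).measurableSet
    fun x hx => (h x (he.2 hx)).le).trans_eq lintegral_zero).trans_eq (tot_zero _))

open Classical in
theorem wt_le {n₀ : ℕ} {x : E3} (hx : x ∈ 𝓜.Q.cell φ) (hn : ∀ i, x ∈ Y i → n i = n₀)
    (hd : ∀ i i', i + 2 ≤ i' → Disjoint (Y i) (Y i')) : 𝓜.wt Y n Y' k φ ≤ 𝓜.rr φ +
      2 * {l | 𝓜.Q.cell l ⊆ plns P.w (2⁻¹ ^ n₀)}.indicator (fun _ => ENNReal.ofReal (2⁻¹ ^ n₀)) φ +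
      {l | 𝓜.Q.cell l ⊆ plns P.w (2⁻¹ ^ k)}.indicator (fun _ => ENNReal.ofReal (2⁻¹ ^ k)) φ := by
  refine add_le_add (add_le_add le_rfl ((tot_const_le fun i hi => ?_).trans
    (mul_le_mul_left ((ENat.toENNReal_le.2 (encard_two fun i hi i' hi' => lt_of_not_ge fun h =>
      Set.disjoint_left.1 (hd i i' h) (hi hx).1 (hi' hx).1)).trans_eq rfl) _))) ?_
  · have h1 := hn i (hi hx).1
    rw [← h1]
    exact (indicator_of_mem (s := {l | 𝓜.Q.cell l ⊆ plns P.w (2⁻¹ ^ n i)})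
      (hi.trans inter_subset_right) fun _ => ENNReal.ofReal (2⁻¹ ^ n i)).ge
  · split_ifs with h
    · exact (indicator_of_mem (s := {l | 𝓜.Q.cell l ⊆ plns P.w (2⁻¹ ^ k)})
        (h.trans inter_subset_right) fun _ => ENNReal.ofReal (2⁻¹ ^ k)).ge
    · exact zero_le

theorem wt_core {𝓩 : Set (Fin 3 → ℤ)} (h𝓩 : ∀ z ∈ 𝓩, (k, z) ∈ 𝓒)
    (hY : ∀ i, ∀ x ∈ Y i, ∀ z ∈ 𝓩, dy P k x ∉ cthickening 17 (ucube z))
    (hφ : 𝓜.Q.cell φ ⊆ CoreZ P k 𝓩) : 𝓜.wt Y n Y' k φ ≤ 2 * ENNReal.ofReal (2⁻¹ ^ k) := by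
  obtain ⟨x, hx⟩ := 𝓜.Q.cell_nonempty φ
  obtain ⟨z, hz, h⟩ := hφ hx
  rw [two_mul]
  refine add_le_add (le_of_eq ?_) ?_
  · rw [Mesh2.rr, (core_far 𝓜 h𝓩 hφ).2, eq_empty_of_forall_notMem (s := {i | _}) fun i hi =>
      hY i x (hi hx).1 z hz (self_subset_cthickening (δ := 17) (ucube z) h)]
    simp
  · split_ifs
    exacts [le_rfl, zero_le]

/-- **the part of the wires on `K`** -/
theorem Sol.wt_part (h : Sol p f F K V b τ (2⁻¹ ^ k) s w P₁ P₂ A) (hs : Sz P σ V k s θ)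
    (hΩ : IsOpen Ω) (hK : K ⊆ V) (h1 : 1 ≤ M₀) {n₀ : ℕ} (hk : k ≤ n₀)
    (hn : ∀ i, (Y i ∩ K).Nonempty → n i = n₀)
    (hd : ∀ i i', i + 2 ≤ i' → Disjoint (Y i) (Y i')) (c : ℝ≥0∞) :
    tot {φ | 𝓜.Q.dim φ = 2 ∧ ¬ 𝓜.Q.cell φ ⊆ CoreZ P k (zof P k P₁ s)}
      (fun φ => 𝓜.wt Y n Y' k φ * (𝓜.rr φ * wint 𝓜.Q (K.indicator fun _ => c) φ)) ≤
      4 * (M₀ : ℝ≥0∞) ^ 6 * c *
        (8 * (ENNReal.ofReal (s ^ 3) * P₂.card) + 336 * ENNReal.ofReal θ * volume V) := by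
  have h2 := h.kpart 𝓜 hs hΩ hK
  have h3 := h.kpl 𝓜 hs hK (e := 2⁻¹ ^ n₀) (by positivity)
    (pow_le_pow_of_le_one (by norm_num) (by norm_num) hk) P.w
  have h4 := h.kpl 𝓜 hs hK (e := 2⁻¹ ^ k) (by positivity) le_rfl P.w
  generalize 8 * (ENNReal.ofReal (s ^ 3) * P₂.card) + 336 * ENNReal.ofReal θ * volume V = X at *
  have h5 : (M₀ : ℝ≥0∞) ^ 3 * X ≤ (M₀ : ℝ≥0∞) ^ 5 * X :=
    mul_le_mul_left (pow_le_pow_right' (by exact_mod_cast h1) (by norm_num)) _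
  have h6 : ∀ e : ℝ, tot ({φ | 𝓜.Q.dim φ = 2 ∧ ¬ 𝓜.Q.cell φ ⊆ CoreZ P k (zof P k P₁ s)} ∩
      {φ | (𝓜.Q.cell φ ∩ K).Nonempty}) (fun φ => {l | 𝓜.Q.cell l ⊆ plns P.w e}.indicator
        (fun _ => ENNReal.ofReal e) φ * rr 𝓜 φ ^ 2) ≤ tot {φ | 𝓜.Q.dim φ = 2 ∧
        ¬ 𝓜.Q.cell φ ⊆ CoreZ P k (zof P k P₁ s) ∧ (𝓜.Q.cell φ ∩ K).Nonempty ∧
        𝓜.Q.cell φ ⊆ plns P.w e} (fun φ => ENNReal.ofReal e * rr 𝓜 φ ^ 2) := fun e => by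
    simp only [← indicator_mul_const]
    refine (tot_indicator _ _ _).trans_le (tot_subset (fun φ hφ => ?_) _)
    exact ⟨hφ.1.1.1, hφ.1.1.2, hφ.1.2, hφ.2⟩
  rw [tot_split _ {φ | (𝓜.Q.cell φ ∩ K).Nonempty}]
  refine (add_le_add (tot_le (b := fun φ => M₀ * c * (rr 𝓜 φ ^ 3 + 2 *
    ({l | 𝓜.Q.cell l ⊆ plns P.w (2⁻¹ ^ n₀)}.indicator (fun _ => ENNReal.ofReal (2⁻¹ ^ n₀)) φ *
      rr 𝓜 φ ^ 2) + {l | 𝓜.Q.cell l ⊆ plns P.w (2⁻¹ ^ k)}.indicator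
        (fun _ => ENNReal.ofReal (2⁻¹ ^ k)) φ * rr 𝓜 φ ^ 2)) fun φ hφ => ?_)
    ((tot_le fun φ hφ => ?_).trans_eq (tot_zero _))).trans ?_
  · obtain ⟨x, hx, hx'⟩ := hφ.2
    have h7 : wint 𝓜.Q (K.indicator fun _ => c) φ ≤ wint 𝓜.Q (fun _ => c) φ :=
      tot_le fun e _ => lintegral_mono fun u => indicator_le_self _ _ u
    refine (mul_le_mul' (wt_le 𝓜 hx (fun i hi => hn i ⟨x, hi, hx'⟩) hd) (mul_le_mul_right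
      (h7.trans (wint_const 𝓜 (far_ball 𝓜 hs.size hx (hK hx')).1 c)) _)).trans_eq ?_
    rw [rr_eq]
    ring
  · rw [wint_zero 𝓜 fun x hx => indicator_of_notMem (fun hx' => hφ.2 ⟨x, hx, hx'⟩) _]
    simp
  · rw [add_zero, tot_mul, tot_add, tot_add, tot_mul]
    refine (mul_le_mul_right (add_le_add (add_le_add ((tot_subset (fun φ hφ => ?_) _).trans h2)
      (mul_le_mul_right (((h6 _).trans h3).trans h5) _)) (((h6 _).trans h4).trans h5)) _).trans_eq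
      (by ring)
    exact ⟨hφ.1.2, hφ.2⟩

/-- the weights of the faces, zero in the deep part of the cores -/
noncomputable def wd (Y : ℕ → Set E3) (n : ℕ → ℕ) (Y' : Set E3) (k : ℕ) (D : Set E3) :
    𝓜.Q.ι → ℝ≥0∞ := {φ | ¬ 𝓜.Q.cell φ ⊆ D}.indicator (𝓜.wt Y n Y' k)

theorem wd_le (D : Set E3) (φ : 𝓜.Q.ι) : wd 𝓜 Y n Y' k D φ ≤ 𝓜.wt Y n Y' k φ :=
  indicator_le_self _ _ φ

theorem wd_eq {D : Set E3} (h : ¬ 𝓜.Q.cell φ ⊆ D) : wd 𝓜 Y n Y' k D φ = 𝓜.wt Y n Y' k φ :=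
  indicator_of_mem (s := {φ | ¬ 𝓜.Q.cell φ ⊆ D}) h _

/-- **the total weight of the far faces** -/
theorem Sol.far_total {ς : E3 → ℝ}
    (𝓜 : Mesh2 Ω P (size P ς k (zof P k P₁ s)) 𝓒 M₀ Mt S₀ S)
    (h : Sol p f F K V b τ (2⁻¹ ^ k) s w P₁ P₂ A) (hs : Sz P (size P ς k (zof P k P₁ s)) V k s θ)
    (hΩ : IsOpen Ω) (hK : K ⊆ V) (hKm : MeasurableSet K) (hF : Measurable F) (h1 : 1 ≤ M₀)
    (hp : 0 < p) (h𝓩 : ∀ z ∈ zof P k P₁ s, (k, z) ∈ 𝓒) (hb : ∀ x ∈ K, ‖F x‖ ≤ b) {n₀ : ℕ}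
    (hk : k ≤ n₀) (hn : ∀ i, (Y i ∩ K).Nonempty → n i = n₀) {O : ℕ → Set E3}
    (hO : ∀ i, Y i ⊆ O i) (hd : ∀ i i', i + 2 ≤ i' → Disjoint (O i) (O i'))
    (hY : ∀ i, Disjoint (Y i) (cubes P₁ (3 * s / 4))) (hs' : 72 * (2:ℝ)⁻¹ ^ k ≤ s)
    {X : Set E3} (hX : ∀ φ, 𝓜.far φ → 𝓜.Q.cell φ ⊆ X) {L : ℝ≥0}
    (hL : ∀ i, 𝓜.Q.cell i ⊆ CoreZ P k (zof P k P₁ s) → LipschitzOnWith L g (𝓜.Q.cell i))
    {C δ : ℝ≥0∞} {t : 𝓜.Q.ι → ℝ≥0∞} (hW : ∀ φ, 𝓜.far φ → (𝓜.src h1).W p g φ ≤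
      C * (𝓜.rr φ * wint 𝓜.Q (fun x => ‖F x‖ₑ ^ p) φ) + t φ)
    (ht : tot {φ | 𝓜.Q.dim φ = 2 ∧ 𝓜.far φ} (fun φ => 𝓜.wt Y n Y' k φ * t φ) ≤ δ) :
    tot {φ | 𝓜.Q.dim φ = 2 ∧ 𝓜.far φ} (fun φ => wd 𝓜 Y n Y' k (deepc P₁ s (2 * θ)) φ *
      pot (𝓜.src h1) p g (cubes P₁ (s / 2)) φ) ≤
      672 * (M₀ : ℝ≥0∞) ^ 5 * ((M₀ : ℝ≥0∞) ^ p + 4 * M₀ ^ 2) * (L : ℝ≥0∞) ^ p *
        ENNReal.ofReal θ * volume V +
      C * (M₀ * LAM S₀ ς P.k₀ k O n X (Kᶜ.indicator fun x => ‖F x‖ₑ ^ p) P.w +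
        4 * (M₀ : ℝ≥0∞) ^ 6 * ENNReal.ofReal b ^ p *
          (8 * (ENNReal.ofReal (s ^ 3) * P₂.card) + 336 * ENNReal.ofReal θ * volume V)) + δ := by
  classical
  have h2 : ∀ i, ∀ x ∈ Y i, ∀ z ∈ zof P k P₁ s, dy P k x ∉ cthickening 17 (ucube z) :=
    fun i x hx z hz h3 => by
      obtain ⟨q, hq, h4⟩ := zof_near hz
      exact disjoint_left.1 (hY i) hx (mem_cubes.2 ⟨q, hq,
        (mem_closedBall.1 (h4 17 (by norm_num) h3)).trans (by linarith)⟩)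
  have h3 := h.ring 𝓜 hs hΩ h𝓩 h1 hp hL
  have h4 := h.wt_part 𝓜 (Y' := Y') hs hΩ hK h1 hk hn
    (fun i i' hi => (hd i i' hi).mono (hO i) (hO i')) (ENNReal.ofReal b ^ p)
  have h5 := 𝓜.wt_sum (A := {φ | 𝓜.Q.dim φ = 2 ∧ 𝓜.far φ}) n Y'
    (Kᶜ.indicator fun x => ‖F x‖ₑ ^ p) (fun φ hφ => ⟨hφ.2, hX φ hφ.2⟩) hO h2
  rw [tot_split _ {φ | 𝓜.Q.cell φ ⊆ CoreZ P k (zof P k P₁ s)}, add_assoc]
  refine add_le_add ?_ ?_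
  · simp only [wd, ← indicator_mul_const]
    refine (tot_indicator _ _ _).trans_le (((tot_mono (fun φ hφ => ?_) fun φ hφ => ?_).trans_eq
      (tot_mul _ 2 _)).trans ((mul_le_mul_right h3 2).trans_eq (by ring)))
    · exact ⟨hφ.1.1.1, hφ.1.2, hφ.2⟩
    · rw [← mul_assoc]
      refine mul_le_mul' (wt_core 𝓜 h𝓩 h2 hφ.1.2) (add_le_add le_rfl ?_)
      split_ifs
      exacts [le_rfl, zero_le]
  · refine (tot_le (b := fun φ => C * (𝓜.wt Y n Y' k φ * (𝓜.rr φ * wint 𝓜.Q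
      (Kᶜ.indicator fun x => ‖F x‖ₑ ^ p) φ) + 𝓜.wt Y n Y' k φ * (𝓜.rr φ * wint 𝓜.Q
        (K.indicator fun _ => ENNReal.ofReal b ^ p) φ)) + 𝓜.wt Y n Y' k φ * t φ)
      fun φ hφ => ?_).trans ?_
    · have h6 := wint_le 𝓜.Q (G := fun x => ‖F x‖ₑ ^ p) (φ := φ)
        (G₂ := K.indicator fun _ => ENNReal.ofReal b ^ p)
        ((hF.enorm.pow_const p).indicator hKm.compl) fun x _ => by
          by_cases hx : x ∈ K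
          · refine le_add_left (le_trans (ENNReal.rpow_le_rpow ?_ hp.le)
              (indicator_of_mem hx fun _ => ENNReal.ofReal b ^ p).ge)
            rw [← ofReal_norm]
            exact ENNReal.ofReal_le_ofReal (hb x hx)
          · exact le_add_right (indicator_of_mem (s := Kᶜ) hx fun x => ‖F x‖ₑ ^ p).ge
      have h7 : pot (𝓜.src h1) p g (cubes P₁ (s / 2)) φ = (𝓜.src h1).W p g φ :=
        (congrArg _ (if_neg fun h7 => hφ.2 (Subset.trans h7 (cubes_sub P k P₁ s)))).trans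
          (add_zero _)
      exact (mul_le_mul' (wd_le 𝓜 _ φ) ((h7.trans_le (hW φ hφ.1.2)).trans (add_le_add
        (mul_le_mul_right (mul_le_mul_right h6 _) _) le_rfl))).trans_eq (by ring)
    · rw [tot_add, tot_mul, tot_add]
      refine add_le_add (mul_le_mul_right (add_le_add ((tot_subset sdiff_subset _).trans h5)
        ((tot_subset (fun φ hφ => ?_) _).trans h4)) _) ((tot_subset sdiff_subset _).trans ht)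
      exact ⟨hφ.1.1, hφ.2⟩

theorem deep_cubes {T : Set E3} (h : 0 ≤ θ * s) : deepc T s θ ⊆ cubes T (s / 2) :=
  fun _ hx => hx (mem_closedBall_self h)

theorem deep_core (h : 0 ≤ θ * s) : deepc P₁ s θ ⊆ CoreZ P k (zof P k P₁ s) :=
  (deep_cubes h).trans (cubes_sub P k P₁ s)

theorem deep_near {T : Set E3} {x y : E3} (hx : x ∈ deepc T s (2 * θ)) (h : dist y x ≤ θ * s) :
    y ∈ deepc T s θ := (closedBall_subset_closedBall' (by linarith)).trans hx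

theorem wd_of {T : Set E3} (h0 : 0 ≤ θ * s) {x : E3} (hx : x ∈ 𝓜.Q.cell φ)
    (h : x ∉ deepc T s θ) : wd 𝓜 Y n Y' k (deepc T s (2 * θ)) φ = 𝓜.wt Y n Y' k φ :=
  wd_eq 𝓜 fun h1 => h (deep_near (h1 hx) (by rwa [dist_self]))

/-- the faces of a far cell which is not in the deep part have full weight -/
theorem wd_face {T : Set E3} {c : 𝓜.Q.ι} (hc : ∀ x ∈ 𝓜.Q.cell c, ∀ y ∈ 𝓜.Q.cell c,
    x ∈ deepc T s (2 * θ) → dist y x ≤ θ * s) (h : ¬ 𝓜.Q.cell c ⊆ deepc T s θ)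
    (hφ : 𝓜.Q.cell φ ⊆ 𝓜.Q.cell c) :
    wd 𝓜 Y n Y' k (deepc T s (2 * θ)) φ = 𝓜.wt Y n Y' k φ := wd_eq 𝓜 fun h1 => h fun y hy =>
  let ⟨x, hx⟩ := 𝓜.Q.cell_nonempty φ
  deep_near (h1 hx) (hc x (hφ hx) y hy (h1 hx))

/-- cells which meet the cores are small -/
theorem diam_core {𝓩 : Set (Fin 3 → ℤ)} (hok : Ok2 Ω P σ 𝓒) (h𝓩 : ∀ z ∈ 𝓩, (k, z) ∈ 𝓒)
    {c : 𝓜.Q.ι} {x y : E3} (hx : x ∈ 𝓜.Q.cell c) (hy : y ∈ 𝓜.Q.cell c) (h : x ∈ CoreZ P k 𝓩) :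
    dist y x ≤ (2:ℝ)⁻¹ ^ k := by
  obtain ⟨z, hz, h⟩ := h
  obtain ⟨-, h1, h2⟩ := hok.cpin _ (h𝓩 z hz) x (self_subset_cthickening (δ := 2) (ucube z) h)
  exact 𝓜.kf_pin c k x hx h1 ▸ 𝓜.far_diam c (𝓜.far_of hx h2) y hy x hx

/-- the candidate planes near the cores -/
theorem Sol.cand (h : Sol p f F K V b τ (2⁻¹ ^ k) s w P₁ P₂ A) (hs : Sz P σ V k s θ) (hV : V ⊆ Ω)
    (h1 : 1 ≤ M₀) (Y : ℕ → Set E3) (n : ℕ → ℕ) {q : E3} (hq : q ∈ P₁) :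
    Cand (𝓜.src h1) P.w (2⁻¹ ^ k) (closedBall q (3 * s / 2) \ deepc P₁ s θ)
      (wd 𝓜 Y n (cubes P₁ (3 * s / 2)) k (deepc P₁ s (2 * θ))) := by
  have h0 : (0:ℝ) < 2⁻¹ ^ k := by positivity
  have h2 : closedBall q (3 * s / 2) \ deepc P₁ s θ ⊆ V := sdiff_subset.trans
    ((closedBall_subset_closedBall (by linarith [hs.pos])).trans (h.lat q (Or.inl hq)).2.1)
  refine 𝓜.cand h1 (h2.trans hV) (fun x hx => ⟨by linarith [(hs.size x (h2 hx)).1],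
    (hs.size x (h2 hx)).2⟩) fun φ _ hφ => ?_
  obtain ⟨x, hx⟩ := 𝓜.Q.cell_nonempty φ
  rw [wd_of 𝓜 (h0.le.trans hs.le') hx (hφ hx).1.2]
  exact 𝓜.le_wt' _ _ _ _ fun u hu => ⟨mem_cubes.2 ⟨q, hq, (hφ hu).1.1⟩, (hφ hu).2⟩

/-- the candidate planes in the shells -/
theorem cand_shell (h1 : 1 ≤ M₀) (hs : 0 ≤ s) (hθ : 0 ≤ θ) {i : ℕ} (hΩ : Y i ⊆ Ω)
    (h : ∀ x ∈ Y i, σ x < 2 * (2:ℝ)⁻¹ ^ n i ∧ ∀ j, x ∉ P.U j)
    (hY : Disjoint (Y i) (cubes P₁ (3 * s / 4))) :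
    Cand (𝓜.src h1) P.w (2⁻¹ ^ n i) (Y i) (wd 𝓜 Y n Y' k (deepc P₁ s (2 * θ))) := by
  refine 𝓜.cand h1 hΩ h fun φ _ hφ => ?_
  obtain ⟨x, hx⟩ := 𝓜.Q.cell_nonempty φ
  rw [wd_of 𝓜 (by positivity) hx fun h2 => ?_]
  · exact 𝓜.le_wt _ _ _ _ hφ
  · obtain ⟨q, hq, h3⟩ := mem_cubes.1 (deep_cubes (by positivity) h2)
    exact disjoint_left.1 hY (hφ hx).1 (mem_cubes.2 ⟨q, hq, by linarith⟩)

end Gc

end P073
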