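import Vale.Agent.P073Y.Gc.Far
import Vale.Agent.P073Y.Nr.Sk3
import Vale.Agent.P073Y.Rf.Top

/-!
# Refilling the far cells and the free cubes: the energy
-/

open Set Metric Topology Filter MeasureTheory
open scoped ENNReal NNReal

namespace P073

namespace Gc

open M2 Zn
open _root_.P073.Top
open Nr (nrc nrs farE Ref)

theorem en_bd (Q : RCx E3) {p : ℝ} (hp : 0 < p) (h : E3 → E3) {c : Q.ι} (hc : Q.dim c = 3) :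
    En 2 p h (Q.bd c) ≤ tot {φ | Q.dim φ = 2 ∧ Q.cell φ ⊆ Q.cell c} fun φ => En 2 p h (Q.cell φ) := by
  have h1 := AT.ena1 Q (ContinuousAffineEquiv.refl ℝ E3) 2 h hp (Q.sub_bd c) (Q.isCompact_bd c)
    fun j hj => by have := Q.dim_lt hj; omega
  simp only [ContinuousAffineEquiv.coe_refl, image_id] at h1
  refine h1.trans (tot_subset (fun φ hφ => ?_) _)
  exact ⟨hφ.2, hφ.1.trans (Q.bd_subset c)⟩

theorem cube_en {p : ℝ} (hp : 0 < p) (h : E3 → E3) (x : E3) (r : ℝ) :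
    ∫⁻ u in closedBall x r, ‖fderiv ℝ h u‖ₑ ^ p ≤ En 3 p h (closedBall x r) := by
  rw [← setLIntegral_congr (interior_ae_eq_of_null_frontier
    ((convex_closedBall x r).addHaar_frontier volume))]
  exact (end_thm hp).2

variable {Ω : Set E3} {P : Par} {σ : E3 → ℝ} {𝓒 : Set (ℕ × (Fin 3 → ℤ))} {M₀ : ℝ≥0}
  {Mt : Ty → ℕ → ℝ≥0} {S₀ : Set E3} {S : Ty → ℕ → Set E3} (𝓜 : Mesh2 Ω P σ 𝓒 M₀ Mt S₀ S)

theorem rr_face {c φ : 𝓜.Q.ι} (h : 𝓜.Q.cell φ ⊆ 𝓜.Q.cell c) : 𝓜.rr c ≤ 2 * 𝓜.rr φ := by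
  obtain ⟨x, hx⟩ := 𝓜.Q.cell_nonempty φ
  have h1 : (2:ℝ)⁻¹ ^ (𝓜.kf c + 1) ≤ 2⁻¹ ^ 𝓜.kf φ :=
    pow_le_pow_of_le_one (by norm_num) (by norm_num) (𝓜.kf_face c φ ⟨x, hx, h hx⟩)
  rw [Mesh2.rr, Mesh2.rr, ← ENNReal.ofReal_ofNat, ← ENNReal.ofReal_mul zero_le_two]
  exact ENNReal.ofReal_le_ofReal (by rw [pow_succ] at h1; linarith)

/-- the energy of a refilled cell in the original coordinates -/
theorem cell_en {p : ℝ} (hp : 0 < p) {h h' : E3 → E3} {c : 𝓜.Q.ι} (hb : ∀ j, ¬ 𝓜.Q.cell c ⊆ P.BufSet j)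
    {C η : ℝ≥0∞} (H : En 3 p (h' ∘ (𝓜.nm c).symm) (𝓜.nm c '' 𝓜.Q.cell c) ≤
      C * En 2 p (h ∘ (𝓜.nm c).symm) (𝓜.nm c '' 𝓜.Q.bd c) + η) :
    En 3 p h' (𝓜.Q.cell c) ≤ C * 𝓜.rr c * En 2 p h (𝓜.Q.bd c) +
      (((2⁻¹ ^ 𝓜.kf c : ℝ≥0)⁻¹ : ℝ≥0) : ℝ≥0∞) ^ p * rr 𝓜 c ^ 3 * η := by
  have e := (𝓜.nm_iso c hb).1
  have h1 : LipschitzWith (2⁻¹ ^ 𝓜.kf c : ℝ≥0)⁻¹ (𝓜.nm c) := .of_dist_le_mul fun u w => by
    rw [e, e, dist_smul₀]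
    simp
  have h2 : LipschitzWith (2⁻¹ ^ 𝓜.kf c : ℝ≥0) (𝓜.nm c).symm := .of_dist_le_mul fun u w => by
    conv_rhs => rw [← (𝓜.nm c).apply_symm_apply u, ← (𝓜.nm c).apply_symm_apply w, e, e, dist_smul₀]
    simp
  refine (Rf.en_aff hp _ h1 h2 (𝓜.Q.isCompact_cell c) h').1.trans ((mul_le_mul_right
    (H.trans (add_le_add (mul_le_mul_right (Rf.en_aff hp _ h1 h2 (𝓜.Q.isCompact_bd c) h).2 _)
      le_rfl)) _).trans_eq ?_)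
  rw [mul_add, Rf.scale_eq (by positivity) hp, rr_eq]
  rfl

theorem far_iff {φ : 𝓜.Q.ι} : (∀ j, φ ∉ nrc 𝓜 j) ↔ 𝓜.far φ :=
  ⟨fun h => by_contra fun hf => let ⟨j, hj⟩ := 𝓜.near φ hf; h j ⟨hf, hj⟩, fun h _ hj => hj.1 h⟩

theorem nrs_U (j : Fin P.N) : nrs 𝓜 j ⊆ P.U j := fun _ ⟨_, hi, hx⟩ => hi.2 hx

/-- the kept cells -/
def kept (D : Set E3) : Set E3 := ⋃ c ∈ {c | 𝓜.Q.dim c = 3 ∧ 𝓜.Q.cell c ⊆ D}, 𝓜.Q.cell c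

/-- **refilling** -/
theorem fare {p : ℝ} (h1 : 1 ≤ p) (h3 : p < 3) : ∃ (C : ℝ≥0) (CM : ℝ≥0 → ℝ≥0),
    ∀ {Ω Λ : Set E3} {P : Par} {σ : E3 → ℝ} {𝓒 : Set (ℕ × (Fin 3 → ℤ))} {M₀ : ℝ≥0}
    {Mt : Ty → ℕ → ℝ≥0} {S₀ : Set E3} {S : Ty → ℕ → Set E3} (𝓜 : Mesh2 Ω P σ 𝓒 M₀ Mt S₀ S)
    (hM : 1 ≤ M₀) (h : ConHomeo Ω Λ) {κ : Type} (x : κ → E3) (r : κ → ℝ) (T D : Set E3)
    (w : 𝓜.Q.ι → ℝ≥0∞) (Γ : Fin P.N → ℝ≥0∞) {δ : ℝ≥0∞}, IsOpen Ω → P.Ok Ω → 0 < δ →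
    Free (𝓜.src hM) x r → (∀ k, Disjoint (closedBall (x k) (r k)) (T ∪ D)) →
    (∀ j c, (𝓜.Q.cell c ∩ P.U j).Nonempty → 𝓜.Q.cell c ⊆ T) → (∀ j, Disjoint D (P.U j)) →
    (∀ c φ, 𝓜.far c → ¬ 𝓜.Q.cell c ⊆ D → 𝓜.Q.cell φ ⊆ 𝓜.Q.cell c → 𝓜.rr φ ≤ w φ) →
    (∀ φ j, (𝓜.Q.cell φ ∩ P.U j).Nonempty → (∑ j, Γ j) * 𝓜.rr φ ≤ w φ) →
    ∃ h' : ConHomeo Ω Λ,
      (∀ u ∈ Ω, ∃ u', h'.toFun u = h.toFun u' ∧ ((∃ c, u ∈ 𝓜.Q.cell c ∧ u' ∈ 𝓜.Q.cell c) ∨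
        ∃ k, u ∈ closedBall (x k) (r k) ∧ u' ∈ closedBall (x k) (r k))) ∧
      (∀ j, ∀ u ∈ 𝓜.Q.skel 2 ∩ nrs 𝓜 j, h'.toFun u = h.toFun u) ∧
      (∀ j, Ref 𝓜 p CM h.toFun h'.toFun δ j) ∧ EqOn h'.toFun h.toFun (kept 𝓜 D) ∧
      (∫⁻ u in Ω \ ((⋃ j, nrs 𝓜 j) ∪ kept 𝓜 D), ‖fderiv ℝ h'.toFun u‖ₑ ^ p) +
        ∑ j, Γ j * farE 𝓜 p h.toFun j ≤ (C + 2 * M₀ * CM M₀ + 1) *
        (tot {φ | 𝓜.Q.dim φ = 2 ∧ (∀ j, φ ∉ nrc 𝓜 j) ∧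
            ∀ k, Disjoint (𝓜.Q.cell φ) (ball (x k) (r k))}
          (fun φ => w φ * (𝓜.src hM).E p h.toFun φ) +
          ∑' k, ENNReal.ofReal (r k) * En 2 p h.toFun (sphere (x k) (r k))) + δ := by
  obtain ⟨C, CM, H⟩ := refill h1 h3
  refine ⟨C, CM, ?_⟩
  intro Ω Λ P σ 𝓒 M₀ Mt S₀ S 𝓜 hM h κ x r T D w Γ δ hΩ ok hδ hF hD hT hB hw hw'
  have hp : 0 < p := one_pos.trans_le h1
  have := 𝓜.Q.countable
  have : Countable κ := hF.lf.countable fun k => ⟨x k, mem_closedBall_self (hF.pos k).le,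
    𝓜.carrier ▸ (hF.sub k).subset_carrier (mem_closedBall_self (hF.pos k).le)⟩
  have hδ2 := (ENNReal.half_pos hδ.ne').ne'
  obtain ⟨η, a1, a2⟩ := ACC.exists_tol (fun c : 𝓜.Q.ι =>
    (((2⁻¹ ^ 𝓜.kf c : ℝ≥0)⁻¹ : ℝ≥0) : ℝ≥0∞) ^ p * rr 𝓜 c ^ 3 + 1) (fun c => ENNReal.add_ne_top.2
      ⟨ENNReal.mul_ne_top (ENNReal.rpow_ne_top_of_nonneg hp.le ENNReal.coe_ne_top)
        (ENNReal.pow_ne_top ENNReal.coe_ne_top), ENNReal.one_ne_top⟩) hδ2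
  obtain ⟨η', b1, b2⟩ := ENNReal.exists_pos_sum_of_countable' hδ2 κ
  obtain ⟨h', c1, c2, c3⟩ := H 𝓜.Q h 𝓜.nm 𝓜.M η x r η' {c | 𝓜.Q.cell c ⊆ D} hΩ 𝓜.cvx 𝓜.carrier
    (fun c hc => ⟨by have := 𝓜.chart c c Subset.rfl; rwa [hc] at this, (a1 c).1⟩)
    (fun k => ⟨hF.pos k, b1 k, hF.sub k⟩) hF.disj hF.lf
  have d1 : ∀ c, 𝓜.Q.cell c ⊆ T ∪ D → ∀ k, ¬ 𝓜.Q.cell c ⊆ closedBall (x k) (r k) :=
    fun c hc k hk =>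
      let ⟨u, hu⟩ := 𝓜.Q.cell_nonempty c
      disjoint_left.1 (hD k) (hk hu) (hc hu)
  refine ⟨h', fun u hu => ?_, fun j u ⟨hu, c, hc, hu'⟩ => c1 u hu fun k hk =>
    disjoint_left.1 (hD k) (ball_subset_closedBall hk) (Or.inl (hT j c ⟨u, hu', hc.2 hu'⟩ hu')),
    fun j c hb hc => ?_, fun u hu => ?_, ?_⟩
  · obtain ⟨i, hi⟩ := 𝓜.Q.mem_carrier.1 (𝓜.carrier.symm ▸ hu)
    obtain ⟨c, hc, hic⟩ := TP.exists_top 𝓜.cvx (𝓜.carrier.symm ▸ hΩ) i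
    by_cases hk : ∃ k, 𝓜.Q.cell c ⊆ closedBall (x k) (r k)
    · obtain ⟨k, hk⟩ := hk
      obtain ⟨u', e1, e2⟩ := (c2 k).1.subset (mem_image_of_mem _ (hk (hic hi)))
      exact ⟨u', e2.symm, Or.inr ⟨k, hk (hic hi), e1⟩⟩
    · obtain ⟨u', e1, e2⟩ := (c3 c hc (not_exists.1 hk)).1.subset (mem_image_of_mem _ (hic hi))
      exact ⟨u', e2.symm, Or.inl ⟨c, hic hi, e1⟩⟩
  · obtain ⟨u, hu⟩ := 𝓜.Q.cell_nonempty c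
    refine ((c3 c hc (d1 c ((hT j c ⟨u, hu, hb.2 hu⟩).trans subset_union_left))).2.2
      fun hd => disjoint_left.1 (hB j) (hd hu) (hb.2 hu)).trans
        (add_le_add le_rfl (le_trans ?_ (a2.trans ENNReal.half_le_self)))
    exact (le_mul_of_one_le_left zero_le le_add_self).trans (ENNReal.le_tsum c)
  · obtain ⟨c, hc, hu⟩ := mem_iUnion₂.1 hu
    exact (c3 c hc.1 (d1 c (hc.2.trans subset_union_right))).2.1 hc.2 hu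
  obtain ⟨B, hB'⟩ : ∃ B, B = {φ | 𝓜.Q.dim φ = 2 ∧ (∀ j, φ ∉ nrc 𝓜 j) ∧
    ∀ k, Disjoint (𝓜.Q.cell φ) (ball (x k) (r k))} := ⟨_, rfl⟩
  obtain ⟨A, hA⟩ : ∃ A, A = {c | 𝓜.Q.dim c = 3 ∧ 𝓜.far c ∧ ¬ 𝓜.Q.cell c ⊆ D ∧
    ∀ k, ¬ 𝓜.Q.cell c ⊆ closedBall (x k) (r k)} := ⟨_, rfl⟩
  rw [← hB']
  have e1 : ∫⁻ u in ⋃ k, closedBall (x k) (r k), ‖fderiv ℝ h'.toFun u‖ₑ ^ p ≤
      C * ∑' k, ENNReal.ofReal (r k) * En 2 p h.toFun (sphere (x k) (r k)) + δ / 2 := by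
    refine (lintegral_iUnion_le _ _).trans ((ENNReal.tsum_le_tsum fun k =>
      (cube_en hp _ _ _).trans (c2 k).2).trans ?_)
    simp only [ENNReal.tsum_add, mul_assoc, ENNReal.tsum_mul_left]
    exact add_le_add le_rfl b2.le
  have e2 : ∫⁻ u in (Ω \ ((⋃ j, nrs 𝓜 j) ∪ kept 𝓜 D)) \ ⋃ k, closedBall (x k) (r k),
      ‖fderiv ℝ h'.toFun u‖ₑ ^ p ≤ tot A fun c => En 3 p h'.toFun (𝓜.Q.cell c) := by
    refine AT.ena4 𝓜.Q A _ hp 𝓜.cvx (fun u hu => 𝓜.carrier.symm ▸ hu.1.1) ?_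
    rintro c hc ⟨u, hu, ⟨-, f1⟩, f2⟩
    rw [hA]
    exact ⟨hc, (far_iff 𝓜).1 fun j hj => f1 (Or.inl (mem_iUnion.2 ⟨j, c, hj, hu.1⟩)),
      fun hd => f1 (Or.inr (mem_biUnion (show c ∈ {c | _} from ⟨hc, hd⟩) hu.1)),
      fun k hk => f2 (mem_iUnion.2 ⟨k, hk hu.1⟩)⟩
  have e3 := Nr.dbl (fun c φ => 𝓜.Q.dim φ = 2 ∧ 𝓜.Q.cell φ ⊆ 𝓜.Q.cell c) A B
    (fun φ => w φ * (𝓜.src hM).E p h.toFun φ) M₀ (fun c hc φ hφ => by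
      rw [hA] at hc
      rw [hB']
      exact ⟨hφ.1, (far_iff 𝓜).2 (𝓜.far_face c φ hc.2.1 hφ.2), fun k =>
        ((((hF.sub k).subset_or_disjoint c).resolve_left (hc.2.2.2 k)).mono_right
          ball_subset_closedBall |>.closure_left isOpen_ball).mono_left
            (hφ.2.trans (𝓜.Q.ball c).subset_closure_int)⟩) fun φ _ => by
      obtain ⟨u, hu⟩ := 𝓜.Q.cell_nonempty φ
      exact (ENat.toENNReal_le.2 (encard_le_encard fun i hi => hi.2.2 hu)).trans (𝓜.mult u)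
  have e4 : (tot A fun c => En 3 p h'.toFun (𝓜.Q.cell c)) ≤
      2 * CM M₀ * (M₀ * tot B fun φ => w φ * (𝓜.src hM).E p h.toFun φ) + δ / 2 := by
    refine le_trans (tot_le fun c hc => ?_) ((tot_add A _ _).trans_le (add_le_add
      ((tot_mul A _ _).trans_le (mul_le_mul_right e3 _)) ((tot_subset (subset_univ A) _).trans
        ((tot_univ _).trans_le a2))))
    rw [hA] at hc
    obtain ⟨u, hu⟩ := 𝓜.Q.cell_nonempty c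
    have hb : ∀ j, ¬ 𝓜.Q.cell c ⊆ P.BufSet j := fun j hj => 𝓜.not_far hu ok (hj hu) hc.2.1
    refine (cell_en 𝓜 hp hb ((c3 c hc.1 hc.2.2.2).2.2 hc.2.2.1)).trans (add_le_add ?_
      (mul_le_mul_left le_self_add _))
    rw [(𝓜.nm_iso c hb).2, 𝓜.MI_far c hc.2.1, mul_assoc, mul_comm 2, mul_assoc, ← tot_mul]
    refine mul_le_mul_right ((mul_le_mul_right (en_bd 𝓜.Q hp _ hc.1) _).trans ?_) _
    rw [← tot_mul]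
    refine tot_le fun φ hφ => ?_
    rw [← mul_assoc]
    exact mul_le_mul_left ((rr_face 𝓜 hφ.2).trans
      (mul_le_mul_right (hw c φ hc.2.1 hc.2.2.1 hφ.2) _)) _
  have e5 : ∑ j, Γ j * farE 𝓜 p h.toFun j ≤ tot B fun φ => w φ * (𝓜.src hM).E p h.toFun φ := by
    refine (Finset.sum_le_sum (g := fun j => Γ j * tot {φ ∈ B | ∃ j, (𝓜.Q.cell φ ∩ P.U j).Nonempty}
      fun φ => 𝓜.rr φ * (𝓜.src hM).E p h.toFun φ) fun j _ => mul_le_mul_right ?_ _).trans ?_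
    · rw [farE, ← tot_mul]
      refine tot_mono (fun φ hφ => ⟨?_, j, hφ.2.2⟩) fun φ hφ => ?_
      · rw [hB']
        exact ⟨hφ.2.1, (far_iff 𝓜).2 hφ.1, fun k => (hD k).symm.mono
          ((hT j φ hφ.2.2).trans subset_union_left) ball_subset_closedBall⟩
      · rw [Mesh2.rr, 𝓜.kf_near φ j hφ.2.2]
        rfl
    · rw [← Finset.sum_mul, ← tot_mul]
      refine tot_mono (sep_subset _ _) fun φ ⟨_, j, hj⟩ => ?_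
      rw [← mul_assoc]
      exact mul_le_mul_left (hw' φ j hj) _
  refine (add_le_add ((lintegral_mono_set (subset_union_right.trans union_sdiff_self.ge)).trans
    ((lintegral_union_le _ _ _).trans (add_le_add e1 (e2.trans e4)))) e5).trans ?_
  generalize (tot B fun φ => w φ * (𝓜.src hM).E p h.toFun φ) = a
  generalize ∑' k, ENNReal.ofReal (r k) * En 2 p h.toFun (sphere (x k) (r k)) = b
  conv_rhs => rw [← ENNReal.add_halves δ]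
  exact (le_self_add (b := C * a + (2 * M₀ * CM M₀ + 1) * b)).trans_eq (by ring)

end Gc

end P073
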