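import Vale.Agent.P073Y.Gc.Tz

/-!
# Refilling the far cells, the free cubes and the free lattice cubes
-/

open Set Metric Topology Filter MeasureTheory
open scoped ENNReal NNReal

namespace P073

namespace Gc

open M2 Zn Rf
open _root_.P073.Top
open Nr (nrc nrs farE Ref)

/-- refilling with cubes whose interiors are disjoint -/
theorem refill' {p : ℝ} (h1 : 1 ≤ p) (h3 : p < 3) :
    ∃ (C : ℝ≥0) (CM : ℝ≥0 → ℝ≥0), ∀ {Ω Λ : Set E3} (Q : RCx E3)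
    (h : ConHomeo Ω Λ) (nm : Q.ι → E3 ≃ᴬ[ℝ] E3) (M : Q.ι → ℝ≥0) (η : Q.ι → ℝ≥0∞) {κ : Type}
    (x : κ → E3) (s : κ → ℝ) (η' : κ → ℝ≥0∞) (G : Set Q.ι), IsOpen Ω → Q.Cvx → Q.carrier = Ω →
    (∀ c, Q.dim c = 3 → BiChart 3 (nm c '' Q.cell c) (nm c '' Q.bd c) (M c) ∧ 0 < η c) →
    (∀ k, 0 < s k ∧ 0 < η' k ∧ Q.Sub (closedBall (x k) (s k))) →
    (∀ k l, k ≠ l → Disjoint (ball (x k) (s k)) (ball (x l) (s l))) →
    LFIn (fun k => closedBall (x k) (s k)) Ω →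
    ∃ h' : ConHomeo Ω Λ,
      (∀ u ∈ Q.skel 2, (∀ k, u ∉ ball (x k) (s k)) → h'.toFun u = h.toFun u) ∧
      (∀ k, h'.toFun '' closedBall (x k) (s k) = h.toFun '' closedBall (x k) (s k) ∧
        En 3 p h'.toFun (closedBall (x k) (s k)) ≤
          C * ENNReal.ofReal (s k) * En 2 p h.toFun (sphere (x k) (s k)) + η' k) ∧
      ∀ c, Q.dim c = 3 → (∀ k, ¬ Q.cell c ⊆ closedBall (x k) (s k)) →
        h'.toFun '' Q.cell c = h.toFun '' Q.cell c ∧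
        (c ∈ G → EqOn h'.toFun h.toFun (Q.cell c)) ∧
        (c ∉ G → En 3 p (h'.toFun ∘ (nm c).symm) (nm c '' Q.cell c) ≤
          CM (M c) * En 2 p (h.toFun ∘ (nm c).symm) (nm c '' Q.bd c) + η c) := by
  obtain ⟨C, hC⟩ := refill1 h1 h3
  refine ⟨C 1, C, ?_⟩
  intro Ω Λ Q h nm M η κ x s η' G hΩ hQ hc hB hs hd hlf
  have hp : 0 < p := one_pos.trans_le h1
  lift s to κ → ℝ≥0 using fun k => (hs k).1.le
  have s0 : ∀ k, 0 < s k := fun k => NNReal.coe_pos.1 (hs k).1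
  choose n n1 n2 n3 n4 using fun k => exists_norm (x k) (s0 k)
  have hi : ∀ k, interior (closedBall (x k) (s k)) = ball (x k) (s k) :=
    fun k => interior_closedBall _ (hs k).1.ne'
  have hf : ∀ k, frontier (closedBall (x k) (s k)) = sphere (x k) (s k) :=
    fun k => frontier_closedBall _ (hs k).1.ne'
  have hw : ∀ k, (((s k)⁻¹ : ℝ≥0) : ℝ≥0∞) ^ p * (s k : ℝ≥0∞) ^ 3 ≠ ⊤ := fun k =>
    ENNReal.mul_ne_top (ENNReal.rpow_ne_top_of_nonneg hp.le ENNReal.coe_ne_top)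
      (ENNReal.pow_ne_top ENNReal.coe_ne_top)
  obtain ⟨h', a1, a2, a3, a4, a5, a6⟩ := hC Q
    {c | Q.dim c = 3 ∧ c ∉ G ∧ ∀ k, ¬ Q.cell c ⊆ closedBall (x k) (s k)} nm M η
    (fun k => closedBall (x k) (s k)) n (fun _ => 1)
    (fun k => η' k / ((((s k)⁻¹ : ℝ≥0) : ℝ≥0∞) ^ p * (s k : ℝ≥0∞) ^ 3)) h hΩ hQ hc
    (fun i hi => ⟨hi.1, (hB i hi.1).1, (hB i hi.1).2, hi.2.2⟩)
    (fun k => ⟨(hs k).2.2, by rw [hf, n1, n2]; exact chart_cube,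
      ENNReal.div_pos (hs k).2.1.ne' (hw k)⟩)
    (fun k l hkl => by
      rw [hi, ← closure_ball _ (hs l).1.ne']
      exact (hd k l hkl).closure_right isOpen_ball) hlf
  refine ⟨h', fun u hu hk => a1 u (hc ▸ Q.skel_subset_carrier 2 hu) (fun i hi' hui => ?_)
    fun k => hi k ▸ hk k, fun k => ⟨(a4 k).1, ?_⟩, fun c hc3 hk => ?_⟩
  · have := (Q.mem_skel_iff_dim hui).1 hu
    have := hi'.1
    omega
  · refine (en_aff hp (n k) (n3 k) (n4 k) (isCompact_closedBall _ _) _).1.trans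
      ((mul_le_mul_right (a6 k) _).trans ?_)
    rw [mul_add, hf]
    refine add_le_add ((mul_le_mul_right (mul_le_mul_right
      (en_aff hp (n k) (n3 k) (n4 k) (isCompact_sphere _ _) _).2 _) _).trans ?_)
      ENNReal.mul_div_le
    rw [scale_eq (s0 k) hp, ENNReal.ofReal_coe_nnreal]
  · have hk' : ∀ k, Disjoint (Q.ocell c) (interior (closedBall (x k) (s k))) := fun k =>
      (((hs k).2.2.subset_or_disjoint c).resolve_left (hk k)).mono_right interior_subset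
    exact ⟨a3 c hk', fun hg => a2 c (fun h => h.2.1 hg) hk', fun hg => a5 c ⟨hc3, hg, hk⟩⟩

/-- **refilling** -/
theorem fare' {p : ℝ} (h1 : 1 ≤ p) (h3 : p < 3) : ∃ (C : ℝ≥0) (CM : ℝ≥0 → ℝ≥0),
    ∀ {Ω Λ : Set E3} {P : Par} {σ : E3 → ℝ} {𝓒 : Set (ℕ × (Fin 3 → ℤ))} {M₀ : ℝ≥0}
    {Mt : Ty → ℕ → ℝ≥0} {S₀ : Set E3} {S : Ty → ℕ → Set E3} (𝓜 : Mesh2 Ω P σ 𝓒 M₀ Mt S₀ S)
    (hM : 1 ≤ M₀) (h : ConHomeo Ω Λ) {κ : Type} (x : κ → E3) (r : κ → ℝ) (T D : Set E3)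
    (w : 𝓜.Q.ι → ℝ≥0∞) (Γ : Fin P.N → ℝ≥0∞) {δ : ℝ≥0∞}, IsOpen Ω → P.Ok Ω → 0 < δ →
    (∀ k, 0 < r k ∧ 𝓜.Q.Sub (closedBall (x k) (r k))) →
    (∀ k l, k ≠ l → Disjoint (ball (x k) (r k)) (ball (x l) (r l))) →
    LFIn (fun k => closedBall (x k) (r k)) Ω → (∀ k, Disjoint (closedBall (x k) (r k)) (T ∪ D)) →
    (∀ j c, (𝓜.Q.cell c ∩ P.U j).Nonempty → 𝓜.Q.cell c ⊆ T) → (∀ j, Disjoint D (P.U j)) →
    (∀ c φ, (∀ k, ¬ 𝓜.Q.cell c ⊆ closedBall (x k) (r k)) → ¬ 𝓜.Q.cell c ⊆ D →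
      𝓜.Q.cell φ ⊆ 𝓜.Q.cell c → 𝓜.rr φ ≤ w φ) →
    (∀ φ j, (𝓜.Q.cell φ ∩ P.U j).Nonempty → (∑ j, Γ j) * 𝓜.rr φ ≤ w φ) →
    ∃ h' : ConHomeo Ω Λ,
      (∀ u ∈ Ω, ∃ u', h'.toFun u = h.toFun u' ∧ ((∃ c, u ∈ 𝓜.Q.cell c ∧ u' ∈ 𝓜.Q.cell c) ∨
        ∃ k, u ∈ closedBall (x k) (r k) ∧ u' ∈ closedBall (x k) (r k))) ∧
      (∀ j, ∀ u ∈ 𝓜.Q.skel 2 ∩ nrs 𝓜 j, h'.toFun u = h.toFun u) ∧
      (∀ j, Ref 𝓜 p CM h.toFun h'.toFun δ j) ∧ EqOn h'.toFun h.toFun (kept 𝓜 D) ∧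
      (∫⁻ u in Ω \ ((⋃ j, nrs 𝓜 j) ∪ kept 𝓜 D), ‖fderiv ℝ h'.toFun u‖ₑ ^ p) +
        ∑ j, Γ j * farE 𝓜 p h.toFun j ≤ (C + 2 * M₀ * CM M₀ + 1) *
        (tot {φ | 𝓜.Q.dim φ = 2 ∧ (∀ j, φ ∉ nrc 𝓜 j) ∧
            ∀ k, Disjoint (𝓜.Q.cell φ) (ball (x k) (r k))}
          (fun φ => w φ * (𝓜.src hM).E p h.toFun φ) +
          ∑' k, ENNReal.ofReal (r k) * En 2 p h.toFun (sphere (x k) (r k))) + δ := by
  obtain ⟨C, CM, H⟩ := refill' h1 h3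
  refine ⟨C, CM, ?_⟩
  intro Ω Λ P σ 𝓒 M₀ Mt S₀ S 𝓜 hM h κ x r T D w Γ δ hΩ ok hδ hF hd hlf hD hT hB hw hw'
  have hp : 0 < p := one_pos.trans_le h1
  have := 𝓜.Q.countable
  have : Countable κ := hlf.countable fun k => ⟨x k, mem_closedBall_self (hF k).1.le,
    𝓜.carrier ▸ (hF k).2.subset_carrier (mem_closedBall_self (hF k).1.le)⟩
  have hδ2 := (ENNReal.half_pos hδ.ne').ne'
  obtain ⟨η, a1, a2⟩ := ACC.exists_tol (fun c : 𝓜.Q.ι =>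
    (((2⁻¹ ^ 𝓜.kf c : ℝ≥0)⁻¹ : ℝ≥0) : ℝ≥0∞) ^ p * rr 𝓜 c ^ 3 + 1) (fun c => ENNReal.add_ne_top.2
      ⟨ENNReal.mul_ne_top (ENNReal.rpow_ne_top_of_nonneg hp.le ENNReal.coe_ne_top)
        (ENNReal.pow_ne_top ENNReal.coe_ne_top), ENNReal.one_ne_top⟩) hδ2
  obtain ⟨η', b1, b2⟩ := ENNReal.exists_pos_sum_of_countable' hδ2 κ
  obtain ⟨h', c1, c2, c3⟩ := H 𝓜.Q h 𝓜.nm 𝓜.M η x r η' {c | 𝓜.Q.cell c ⊆ D} hΩ 𝓜.cvx 𝓜.carrier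
    (fun c hc => ⟨by have := 𝓜.chart c c Subset.rfl; rwa [hc] at this, (a1 c).1⟩)
    (fun k => ⟨(hF k).1, b1 k, (hF k).2⟩) hd hlf
  have d1 : ∀ c, 𝓜.Q.cell c ⊆ T ∪ D → ∀ k, ¬ 𝓜.Q.cell c ⊆ closedBall (x k) (r k) :=
    fun c hc k hk =>
      let ⟨u, hu⟩ := 𝓜.Q.cell_nonempty c
      disjoint_left.1 (hD k) (hk hu) (hc hu)
  refine ⟨h', fun u hu => ?_, fun j u ⟨hu, c, hc, hu'⟩ => c1 u hu fun k hk =>
    disjoint_left.1 (hD k) (ball_subset_closedBall hk) (Or.inl (hT j c ⟨u, hu', hc.2 hu'⟩ hu')),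
    fun j c hb hc => ?_, fun u hu => ?_, ?_⟩
  · obtain ⟨i, hi⟩ := 𝓜.Q.mem_carrier.1 (𝓜.carrier.symm ▸ hu)
    obtain ⟨c, hc, hic⟩ := TP.exists_top 𝓜.cvx (𝓜.carrier.symm ▸ hΩ) i
    by_cases hk : ∃ k, 𝓜.Q.cell c ⊆ closedBall (x k) (r k)
    · obtain ⟨k, hk⟩ := hk
      obtain ⟨u', e1, e2⟩ := (c2 k).1.subset (mem_image_of_mem _ (hk (hic hi)))
      exact ⟨u', e2.symm, Or.inr ⟨k, hk (hic hi), e1⟩⟩
    · obtain ⟨u', e1, e2⟩ := (c3 c hc (not_exists.1 hk)).1.subset (mem_image_of_mem _ (hic hi))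
      exact ⟨u', e2.symm, Or.inl ⟨c, hic hi, e1⟩⟩
  · obtain ⟨u, hu⟩ := 𝓜.Q.cell_nonempty c
    refine ((c3 c hc (d1 c ((hT j c ⟨u, hu, hb.2 hu⟩).trans subset_union_left))).2.2
      fun h4 => disjoint_left.1 (hB j) (h4 hu) (hb.2 hu)).trans
        (add_le_add le_rfl (le_trans ?_ (a2.trans ENNReal.half_le_self)))
    exact (le_mul_of_one_le_left zero_le le_add_self).trans (ENNReal.le_tsum c)
  · obtain ⟨c, hc, hu⟩ := mem_iUnion₂.1 hu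
    exact (c3 c hc.1 (d1 c (hc.2.trans subset_union_right))).2.1 hc.2 hu
  obtain ⟨B, hB'⟩ : ∃ B, B = {φ | 𝓜.Q.dim φ = 2 ∧ (∀ j, φ ∉ nrc 𝓜 j) ∧
    ∀ k, Disjoint (𝓜.Q.cell φ) (ball (x k) (r k))} := ⟨_, rfl⟩
  obtain ⟨A, hA⟩ : ∃ A, A = {c | 𝓜.Q.dim c = 3 ∧ 𝓜.far c ∧ ¬ 𝓜.Q.cell c ⊆ D ∧
    ∀ k, ¬ 𝓜.Q.cell c ⊆ closedBall (x k) (r k)} := ⟨_, rfl⟩
  rw [← hB']
  have e1 : ∫⁻ u in ⋃ k, closedBall (x k) (r k), ‖fderiv ℝ h'.toFun u‖ₑ ^ p ≤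
      C * ∑' k, ENNReal.ofReal (r k) * En 2 p h.toFun (sphere (x k) (r k)) + δ / 2 := by
    refine (lintegral_iUnion_le _ _).trans ((ENNReal.tsum_le_tsum fun k =>
      (cube_en hp _ _ _).trans (c2 k).2).trans ?_)
    simp only [ENNReal.tsum_add, mul_assoc, ENNReal.tsum_mul_left]
    exact add_le_add le_rfl b2.le
  have e2 : ∫⁻ u in (Ω \ ((⋃ j, nrs 𝓜 j) ∪ kept 𝓜 D)) \ ⋃ k, closedBall (x k) (r k),
      ‖fderiv ℝ h'.toFun u‖ₑ ^ p ≤ tot A fun c => En 3 p h'.toFun (𝓜.Q.cell c) := by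
    refine AT.ena4 𝓜.Q A _ hp 𝓜.cvx (fun u hu => 𝓜.carrier.symm ▸ hu.1.1) ?_
    rintro c hc ⟨u, hu, ⟨-, f1⟩, f2⟩
    rw [hA]
    exact ⟨hc, (far_iff 𝓜).1 fun j hj => f1 (Or.inl (mem_iUnion.2 ⟨j, c, hj, hu.1⟩)),
      fun h4 => f1 (Or.inr (mem_biUnion (show c ∈ {c | _} from ⟨hc, h4⟩) hu.1)),
      fun k hk => f2 (mem_iUnion.2 ⟨k, hk hu.1⟩)⟩
  have e3 := Nr.dbl (fun c φ => 𝓜.Q.dim φ = 2 ∧ 𝓜.Q.cell φ ⊆ 𝓜.Q.cell c) A B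
    (fun φ => w φ * (𝓜.src hM).E p h.toFun φ) M₀ (fun c hc φ hφ => by
      rw [hA] at hc
      rw [hB']
      exact ⟨hφ.1, (far_iff 𝓜).2 (𝓜.far_face c φ hc.2.1 hφ.2), fun k =>
        ((((hF k).2.subset_or_disjoint c).resolve_left (hc.2.2.2 k)).mono_right
          ball_subset_closedBall |>.closure_left isOpen_ball).mono_left
            (hφ.2.trans (𝓜.Q.ball c).subset_closure_int)⟩) fun φ _ => by
      obtain ⟨u, hu⟩ := 𝓜.Q.cell_nonempty φ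
      exact (ENat.toENNReal_le.2 (encard_le_encard fun i hi => hi.2.2 hu)).trans (𝓜.mult u)
  have e4 : (tot A fun c => En 3 p h'.toFun (𝓜.Q.cell c)) ≤
      2 * CM M₀ * (M₀ * tot B fun φ => w φ * (𝓜.src hM).E p h.toFun φ) + δ / 2 := by
    refine le_trans (tot_le fun c hc => ?_) ((tot_add A _ _).trans_le (add_le_add
      ((tot_mul A _ _).trans_le (mul_le_mul_right e3 _)) ((tot_subset (subset_univ A) _).trans
        ((tot_univ _).trans_le a2))))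
    rw [hA] at hc
    obtain ⟨u, hu⟩ := 𝓜.Q.cell_nonempty c
    have hb : ∀ j, ¬ 𝓜.Q.cell c ⊆ P.BufSet j := fun j hj => 𝓜.not_far hu ok (hj hu) hc.2.1
    refine (cell_en 𝓜 hp hb ((c3 c hc.1 hc.2.2.2).2.2 hc.2.2.1)).trans (add_le_add ?_
      (mul_le_mul_left le_self_add _))
    rw [(𝓜.nm_iso c hb).2, 𝓜.MI_far c hc.2.1, mul_assoc, mul_comm 2, mul_assoc, ← tot_mul]
    refine mul_le_mul_right ((mul_le_mul_right (en_bd 𝓜.Q hp _ hc.1) _).trans ?_) _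
    rw [← tot_mul]
    refine tot_le fun φ hφ => ?_
    rw [← mul_assoc]
    exact mul_le_mul_left ((rr_face 𝓜 hφ.2).trans
      (mul_le_mul_right (hw c φ hc.2.2.2 hc.2.2.1 hφ.2) _)) _
  have e5 : ∑ j, Γ j * farE 𝓜 p h.toFun j ≤ tot B fun φ => w φ * (𝓜.src hM).E p h.toFun φ := by
    refine (Finset.sum_le_sum (g := fun j => Γ j * tot {φ ∈ B | ∃ j, (𝓜.Q.cell φ ∩ P.U j).Nonempty}
      fun φ => 𝓜.rr φ * (𝓜.src hM).E p h.toFun φ) fun j _ => mul_le_mul_right ?_ _).trans ?_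
    · rw [farE, ← tot_mul]
      refine tot_mono (fun φ hφ => ⟨?_, j, hφ.2.2⟩) fun φ hφ => ?_
      · rw [hB']
        exact ⟨hφ.2.1, (far_iff 𝓜).2 hφ.1, fun k => (hD k).symm.mono
          ((hT j φ hφ.2.2).trans subset_union_left) ball_subset_closedBall⟩
      · rw [Mesh2.rr, 𝓜.kf_near φ j hφ.2.2]
        rfl
    · rw [← Finset.sum_mul, ← tot_mul]
      refine tot_mono (sep_subset _ _) fun φ ⟨_, j, hj⟩ => ?_
      rw [← mul_assoc]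
      exact mul_le_mul_left (hw' φ j hj) _
  refine (add_le_add ((lintegral_mono_set (subset_union_right.trans union_sdiff_self.ge)).trans
    ((lintegral_union_le _ _ _).trans (add_le_add e1 (e2.trans e4)))) e5).trans ?_
  generalize (tot B fun φ => w φ * (𝓜.src hM).E p h.toFun φ) = a
  generalize ∑' k, ENNReal.ofReal (r k) * En 2 p h.toFun (sphere (x k) (r k)) = b
  conv_rhs => rw [← ENNReal.add_halves δ]
  exact (le_self_add (b := C * a + (2 * M₀ * CM M₀ + 1) * b)).trans_eq (by ring)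

/-- **refilling with a second finite family of cubes** -/
theorem fare2 {p : ℝ} (h1 : 1 ≤ p) (h3 : p < 3) : ∃ (C : ℝ≥0) (CM : ℝ≥0 → ℝ≥0),
    ∀ {Ω Λ : Set E3} {P : Par} {σ : E3 → ℝ} {𝓒 : Set (ℕ × (Fin 3 → ℤ))} {M₀ : ℝ≥0}
    {Mt : Ty → ℕ → ℝ≥0} {S₀ : Set E3} {S : Ty → ℕ → Set E3} (𝓜 : Mesh2 Ω P σ 𝓒 M₀ Mt S₀ S)
    (hM : 1 ≤ M₀) (h : ConHomeo Ω Λ) {κ J : Type} [Finite J] (x : κ → E3) (r : κ → ℝ)
    (y : J → E3) (t : J → ℝ) (T D : Set E3)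
    (w : 𝓜.Q.ι → ℝ≥0∞) (Γ : Fin P.N → ℝ≥0∞) {δ : ℝ≥0∞}, IsOpen Ω → P.Ok Ω → 0 < δ →
    Free (𝓜.src hM) x r → (∀ k, Disjoint (closedBall (x k) (r k)) (T ∪ D)) →
    (∀ z, (0 < t z ∧ 𝓜.Q.Sub (closedBall (y z) (t z))) ∧
      Disjoint (closedBall (y z) (t z)) (T ∪ D) ∧
      ∀ φ, 𝓜.Q.cell φ ⊆ sphere (y z) (t z) → 𝓜.far φ ∧ ENNReal.ofReal (t z) ≤ w φ) →
    (∀ z z', z ≠ z' → Disjoint (ball (y z) (t z)) (ball (y z') (t z'))) →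
    (∀ k z, closedBall (y z) (t z) ⊆ closedBall (x k) (r k) ∨
      Disjoint (ball (x k) (r k)) (ball (y z) (t z))) →
    (∀ u, ({z | u ∈ closedBall (y z) (t z)}.encard : ℝ≥0∞) ≤ 8) →
    (∀ j c, (𝓜.Q.cell c ∩ P.U j).Nonempty → 𝓜.Q.cell c ⊆ T) → (∀ j, Disjoint D (P.U j)) →
    (∀ c φ, (∀ z, Disjoint (𝓜.Q.cell c) (ball (y z) (t z))) → ¬ 𝓜.Q.cell c ⊆ D →
      𝓜.Q.cell φ ⊆ 𝓜.Q.cell c → 𝓜.rr φ ≤ w φ) →
    (∀ φ j, (𝓜.Q.cell φ ∩ P.U j).Nonempty → (∑ j, Γ j) * 𝓜.rr φ ≤ w φ) →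
    ∃ h' : ConHomeo Ω Λ,
      (∀ u ∈ Ω, ∃ u', h'.toFun u = h.toFun u' ∧ ((∃ c, u ∈ 𝓜.Q.cell c ∧ u' ∈ 𝓜.Q.cell c) ∨
        ∃ k, u ∈ closedBall (Sum.elim x y k) (Sum.elim r t k) ∧
          u' ∈ closedBall (Sum.elim x y k) (Sum.elim r t k))) ∧
      (∀ j, ∀ u ∈ 𝓜.Q.skel 2 ∩ nrs 𝓜 j, h'.toFun u = h.toFun u) ∧
      (∀ j, Ref 𝓜 p CM h.toFun h'.toFun δ j) ∧ EqOn h'.toFun h.toFun (kept 𝓜 D) ∧
      (∫⁻ u in Ω \ ((⋃ j, nrs 𝓜 j) ∪ kept 𝓜 D), ‖fderiv ℝ h'.toFun u‖ₑ ^ p) +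
        ∑ j, Γ j * farE 𝓜 p h.toFun j ≤ 9 * (C + 2 * M₀ * CM M₀ + 1) *
        (tot {φ | 𝓜.Q.dim φ = 2 ∧ (∀ j, φ ∉ nrc 𝓜 j) ∧
            ∀ k, Disjoint (𝓜.Q.cell φ) (ball (x k) (r k))}
          (fun φ => w φ * (𝓜.src hM).E p h.toFun φ) +
          ∑' k, ENNReal.ofReal (r k) * En 2 p h.toFun (sphere (x k) (r k))) + δ := by
  obtain ⟨C, CM, H⟩ := fare' h1 h3
  refine ⟨C, CM, ?_⟩
  intro Ω Λ P σ 𝓒 M₀ Mt S₀ S 𝓜 hM h κ J _ x r y t T D w Γ δ hΩ ok hδ hF hD y1 y2 y3 y4 hT hB hw hw'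
  have hp : 0 < p := one_pos.trans_le h1
  obtain ⟨A, hA⟩ : ∃ A : Set J, ∀ z, z ∈ A ↔
    ∀ k, ¬ closedBall (y z) (t z) ⊆ closedBall (x k) (r k) := ⟨_, fun _ => Iff.rfl⟩
  have a1 : ∀ k, ∀ z ∈ A, Disjoint (ball (x k) (r k)) (ball (y z) (t z)) := fun k z hz =>
    (y3 k z).resolve_left ((hA z).1 hz k)
  obtain ⟨h', b1, b2, b3, b4, b5⟩ := H 𝓜 hM h (κ := κ ⊕ A) (Sum.elim x fun z => y z)
    (Sum.elim r fun z => t z) T D w Γ hΩ ok hδ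
    (Sum.forall.2 ⟨fun k => ⟨hF.pos k, hF.sub k⟩, fun z => (y1 z).1⟩)
    (by
      rintro (k | z) (l | z') hne
      · exact (hF.disj k l fun e => hne (e ▸ rfl)).mono ball_subset_closedBall
          ball_subset_closedBall
      · exact a1 k z' z'.2
      · exact (a1 l z z.2).symm
      · exact y2 z z' fun e => hne (congrArg _ (Subtype.ext e)))
    (fun u hu => by
      obtain ⟨U, hU, f1⟩ := hF.lf u hu
      refine ⟨U, hU, ((f1.image Sum.inl).union (finite_range Sum.inr)).subset ?_⟩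
      rintro (k | z) hk
      exacts [Or.inl ⟨k, hk, rfl⟩, Or.inr ⟨z, rfl⟩])
    (Sum.forall.2 ⟨hD, fun z => (y1 z).2.1⟩) hT hB
    (fun c φ hc => hw c φ fun z => off_ball (y1 z).1.2 fun h4 => by
      by_cases hz : z ∈ A
      · exact hc (.inr ⟨z, hz⟩) h4
      · obtain ⟨k, hk⟩ := not_forall.1 (mt (hA z).2 hz)
        exact hc (.inl k) (h4.trans (not_not.1 hk))) hw'
  refine ⟨h', fun u hu => (b1 u hu).imp fun u' => And.imp_right (Or.imp_right ?_), b2, b3, b4,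
    b5.trans (add_le_add ?_ le_rfl)⟩
  · rintro ⟨k | z, hk⟩
    exacts [⟨.inl k, hk⟩, ⟨.inr z, hk⟩]
  obtain ⟨B, hB'⟩ : ∃ B, B = {φ | 𝓜.Q.dim φ = 2 ∧ (∀ j, φ ∉ nrc 𝓜 j) ∧
    ∀ k, Disjoint (𝓜.Q.cell φ) (ball (x k) (r k))} := ⟨_, rfl⟩
  have e1 := Nr.dbl (fun z φ => 𝓜.Q.cell φ ⊆ sphere (y z) (t z) ∧ 𝓜.Q.dim φ = 2) A B
    (fun φ => w φ * (𝓜.src hM).E p h.toFun φ) 8 (fun z hz φ hφ => by
      rw [hB']
      refine ⟨hφ.2, (far_iff 𝓜).2 ((y1 z).2.2 φ hφ.1).1, fun k =>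
        ((a1 k z hz).symm.closure_left isOpen_ball).mono_left (hφ.1.trans ?_)⟩
      rw [closure_ball _ (y1 z).1.1.ne']
      exact sphere_subset_closedBall) fun φ _ => by
      obtain ⟨u, hu⟩ := 𝓜.Q.cell_nonempty φ
      refine (ENat.toENNReal_le.2 (encard_le_encard fun z hz => ?_)).trans (y4 u)
      exact sphere_subset_closedBall (hz.2.1 hu)
  have e2 : ∑' z : A, ENNReal.ofReal (t z) * En 2 p h.toFun (sphere (y z) (t z)) ≤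
      8 * tot B fun φ => w φ * (𝓜.src hM).E p h.toFun φ := by
    refine le_trans ?_ e1
    rw [tot_eq_subtype]
    refine ENNReal.tsum_le_tsum fun z => ?_
    have e3 := AT.ena1 𝓜.Q (ContinuousAffineEquiv.refl ℝ E3) 2 h.toFun hp
      (Cub.sub_sphere 𝓜.cvx (y1 z).1.1 (y1 z).1.2) (isCompact_sphere _ _)
      fun j => Cub.dim_sphere 𝓜.cvx (y1 z).1.1
    simp only [ContinuousAffineEquiv.coe_refl, image_id] at e3
    exact (mul_le_mul_right e3 _).trans ((tot_mul _ _ _).symm.trans_le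
      (tot_le fun φ hφ => mul_le_mul_left ((y1 z).2.2 φ hφ.1).2 _))
  rw [← hB', ENNReal.summable.tsum_sum ENNReal.summable, mul_comm 9, mul_assoc _ 9]
  refine mul_le_mul_right ((add_le_add (tot_subset (B := B) (fun φ hφ => ?_) _)
    (add_le_add le_rfl e2)).trans ?_) _
  · rw [hB']
    exact ⟨hφ.1, hφ.2.1, fun k => hφ.2.2 (.inl k)⟩
  · simp only [Sum.elim_inl]
    generalize (tot B fun φ => w φ * (𝓜.src hM).E p h.toFun φ) = a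
    generalize ∑' k, ENNReal.ofReal (r k) * En 2 p h.toFun (sphere (x k) (r k)) = b
    exact (le_self_add (b := 8 * b)).trans_eq (by ring)

end Gc

end P073
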