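import Vale.Agent.P073Y.Gc.Thr
import Vale.Agent.P073Y.Zn.Cubes
import Vale.Agent.P073Z.ACC.Cube.Vol

/-!
# The free lattice cubes: geometry and weights
-/

open Set Metric Topology Filter MeasureTheory
open scoped ENNReal NNReal

namespace P073

namespace Gc

open Me (dy)
open An (M3)
open M2 Zn P2
open _root_.P073.Top
open Nr (nrc nrs farE Ref)

section geo

variable {ρ : ℝ} {w x q : E3} {z z' : Fin 3 → ℤ}

/-- the centre of a lattice cube -/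
noncomputable def rc (ρ : ℝ) (w : E3) (z : Fin 3 → ℤ) : E3 := fun i => w i + (z i + 1 / 2) * ρ

theorem rcube_ball (hρ : 0 < ρ) (w : E3) (z : Fin 3 → ℤ) :
    rcube ρ w z = closedBall (rc ρ w z) (ρ / 2) := by
  rw [rcube_eq hρ]
  ext x
  simp only [mem_Icc, Pi.le_def, mem_closedBall, dist_pi_le_iff (half_pos hρ).le, Real.dist_eq,
    abs_le, rc, ← forall_and, Int.cast_add, Int.cast_one]
  exact forall_congr' fun i => and_congr ⟨fun h => by linarith, fun h => by linarith⟩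
    ⟨fun h => by linarith, fun h => by linarith⟩

theorem int_rcube (hρ : 0 < ρ) (w : E3) (z : Fin 3 → ℤ) :
    interior (rcube ρ w z) = ball (rc ρ w z) (ρ / 2) := by
  rw [rcube_ball hρ, interior_closedBall _ (half_pos hρ).ne']

theorem ball_off (hρ : 0 < ρ) (hx : x ∈ ball (rc ρ w z) (ρ / 2)) : x ∉ plns w ρ := by
  rintro ⟨i, m, e⟩
  have h := (dist_pi_lt_iff (half_pos hρ)).1 hx i
  rw [e, Real.dist_eq, abs_lt, rc] at h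
  have h1 : z i < m := by
    exact_mod_cast (lt_of_mul_lt_mul_right (by linarith [h.1]) hρ.le : (z i : ℝ) < m)
  have h2 : m < z i + 1 := by
    exact_mod_cast (lt_of_mul_lt_mul_right (by linarith [h.2]) hρ.le : (m : ℝ) < z i + 1)
  omega

theorem mem_ball_of (hρ : 0 < ρ) (hx : x ∈ rcube ρ w z) (h : x ∉ plns w ρ) :
    x ∈ ball (rc ρ w z) (ρ / 2) :=
  int_rcube hρ w z ▸ mem_interior_iff_mem_nhds.2 (rcube_nhds hρ hx h)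

theorem sph_plns (hρ : 0 < ρ) : sphere (rc ρ w z) (ρ / 2) ⊆ plns w ρ := fun _ hx =>
  by_contra fun h => (mem_ball_of hρ (rcube_ball hρ w z ▸ sphere_subset_closedBall hx) h).ne hx

theorem le_dist_of {y : E3} {a : ℝ} (i : Fin 3) (h : a ≤ x i - y i ∨ a ≤ y i - x i) :
    a ≤ dist x y := by
  refine le_trans ?_ (dist_le_pi_dist x y i)
  rw [Real.dist_eq, le_abs, neg_sub]
  exact h

theorem ball_disj (hρ : 0 < ρ) (h : z ≠ z') :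
    Disjoint (ball (rc ρ w z) (ρ / 2)) (ball (rc ρ w z') (ρ / 2)) := by
  obtain ⟨i, hi⟩ := Function.ne_iff.1 h
  refine ball_disjoint_ball (le_dist_of i ((lt_or_gt_of_ne hi).symm.imp (fun a => ?_) fun a => ?_))
  · have : (z' i : ℝ) + 1 ≤ z i := by exact_mod_cast a
    rw [rc, rc]
    nlinarith
  · have : (z i : ℝ) + 1 ≤ z' i := by exact_mod_cast a
    rw [rc, rc]
    nlinarith

theorem latt_dich (hρ : 0 < ρ) (hq : q ∈ latt w ρ) (n : ℕ) (z : Fin 3 → ℤ) :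
    closedBall (rc ρ w z) (ρ / 2) ⊆ closedBall q (n * ρ) ∨
      Disjoint (ball q (n * ρ)) (ball (rc ρ w z) (ρ / 2)) := by
  choose m hm using hq
  by_cases h : ∀ i, m i - n ≤ z i ∧ z i + 1 ≤ m i + n
  · refine Or.inl fun u hu => ?_
    rw [← rcube_ball hρ, rcube_eq hρ] at hu
    refine (dist_pi_le_iff (by positivity)).2 fun i => ?_
    have h1 : (m i : ℝ) - n ≤ z i := by exact_mod_cast (h i).1
    have h2 : ((z i + 1 : ℤ) : ℝ) ≤ m i + n := by exact_mod_cast (h i).2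
    rw [Real.dist_eq, abs_le, hm]
    exact ⟨by nlinarith [hu.1 i], by nlinarith [hu.2 i]⟩
  · obtain ⟨i, hi⟩ := not_forall.1 h
    refine Or.inr (ball_disjoint_ball (le_dist_of i ((not_and_or.1 hi).imp (fun a => ?_)
      fun a => ?_)))
    · have : (z i : ℝ) + 1 ≤ m i - n := by exact_mod_cast (show z i + 1 ≤ m i - n by omega)
      rw [rc, hm]
      nlinarith
    · have : (m i : ℝ) + n ≤ z i := by exact_mod_cast (show m i + n ≤ z i by omega)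
      rw [rc, hm]
      nlinarith

theorem enc_cubes (hρ : 0 < ρ) {A : Set (Fin 3 → ℤ)} (hA : A.Finite) (x : E3) :
    ({z : A | x ∈ closedBall (rc ρ w z) (ρ / 2)}.encard : ℝ≥0∞) ≤ 8 := by
  classical
  have h := Cube.card_le hA.toFinset (ρ⁻¹ • (x - w))
  rw [← Nat.cast_le (α := ℕ∞), ← encard_coe_eq_coe_finsetCard] at h
  refine ENat.toENNReal_le.2 (le_trans (Subtype.val_injective.encard_image _).ge
    ((encard_le_encard ?_).trans h)) |>.trans_eq rfl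
  rintro _ ⟨z, hz, rfl⟩
  exact Finset.mem_coe.2 (Finset.mem_filter.2 ⟨hA.mem_toFinset.2 z.2,
    show x ∈ rcube ρ w z from rcube_ball hρ w z ▸ hz⟩)

theorem off_ball {Q : RCx E3} {r : ℝ} (h : Q.Sub (closedBall x r)) {i : Q.ι}
    (hi : ¬ Q.cell i ⊆ closedBall x r) : Disjoint (Q.cell i) (ball x r) :=
  Rf.disjoint_cell isOpen_ball
    (((h.subset_or_disjoint i).resolve_left hi).mono_right ball_subset_closedBall)

theorem tot_ind {ι : Type} (A B : Set ι) (a b : ι → ℝ≥0∞) :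
    tot A (fun i => B.indicator a i * b i) = tot (A ∩ B) fun i => a i * b i := by
  rw [← tot_indicator]
  exact tot_congr fun i _ => (indicator_mul_left B a b).symm

end geo

variable {Ω : Set E3} {P : Par} {σ : E3 → ℝ} {𝓒 : Set (ℕ × (Fin 3 → ℤ))} {M₀ : ℝ≥0}
  {Mt : Ty → ℕ → ℝ≥0} {S₀ : Set E3} {S : Ty → ℕ → Set E3} (𝓜 : Mesh2 Ω P σ 𝓒 M₀ Mt S₀ S)
  {k : ℕ} {p b τ θ s : ℝ} {K V : Set E3} {f g : E3 → E3} {F A : E3 → M3} {w : E3}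
  {P₁ P₂ : Finset E3} {Y : ℕ → Set E3} {n : ℕ → ℕ} {Y' D : Set E3} {φ : 𝓜.Q.ι} {Γ : ℝ≥0∞}

theorem sub_rc (hs : Sz P σ V k s θ) (hV : V ⊆ Ω) {z : Fin 3 → ℤ}
    (hz : closedBall (rc (2⁻¹ ^ k) P.w z) (2⁻¹ ^ k / 2) ⊆ V) :
    𝓜.Q.Sub (closedBall (rc (2⁻¹ ^ k) P.w z) (2⁻¹ ^ k / 2)) := by
  have e : (2:ℝ) ^ k * 2⁻¹ ^ k = 1 := by rw [← mul_pow]; simp
  have h0 : (0:ℝ) < 2⁻¹ ^ k := by positivity
  refine (𝓜.ball_sub k _ _ (hz.trans hV) (fun l => ⟨⟨z l, ?_⟩, z l + 1, ?_⟩) fun x hx => ?_).1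
  · rw [rc]
    linear_combination (z l : ℝ) * e
  · rw [rc]
    push_cast
    linear_combination ((z l : ℝ) + 1) * e
  · have := hs.size x (hz (sphere_subset_closedBall hx))
    exact ⟨by linarith [this.1], this.2⟩

theorem cand_ind {S : Src Ω} {w₀ : E3} {σ : ℝ} {Y : Set E3} {w : S.Q.ι → ℝ≥0∞} {𝓐 : Set S.Q.ι}
    (h : Cand S w₀ σ Y w) (h' : ∀ φ, S.Q.cell φ ⊆ Y ∩ plns w₀ σ → φ ∈ 𝓐) :
    Cand S w₀ σ Y (𝓐.indicator w) :=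
  ⟨h.pos, h.sub, fun φ a b => (h.wt φ a b).trans (indicator_of_mem (h' φ b) w).ge⟩

theorem Sol.cand' (h : Sol p f F K V b τ (2⁻¹ ^ k) s w P₁ P₂ A) (hs : Sz P σ V k s θ) (hV : V ⊆ Ω)
    (h1 : 1 ≤ M₀) (Y : ℕ → Set E3) (n : ℕ → ℕ) {q : E3} (hq : q ∈ P₁) :
    Cand (𝓜.src h1) P.w (2⁻¹ ^ k) (closedBall q (3 * s / 2) \ deepc P₁ s θ)
      (wd 𝓜 Y n V k (deepc P₁ s (2 * θ))) := by
  have h0 : (0:ℝ) < 2⁻¹ ^ k := by positivity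
  refine ⟨h0, (h.cand 𝓜 hs hV h1 Y n hq).sub, fun φ _ hφ => ?_⟩
  obtain ⟨x, hx⟩ := 𝓜.Q.cell_nonempty φ
  rw [wd_of 𝓜 (h0.le.trans hs.le') hx (hφ hx).1.2]
  exact 𝓜.le_wt' _ _ _ _ fun u hu => ⟨(h.lat q (Or.inl hq)).2.1
    (closedBall_subset_closedBall (by linarith [hs.pos]) (hφ hu).1.1), (hφ hu).2⟩

/-- **the total weight of the far faces in `𝓐`** -/
theorem Sol.far_total' {ς : E3 → ℝ}
    (𝓜 : Mesh2 Ω P (size P ς k (zof P k P₁ s)) 𝓒 M₀ Mt S₀ S)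
    (h : Sol p f F K V b τ (2⁻¹ ^ k) s w P₁ P₂ A) (hs : Sz P (size P ς k (zof P k P₁ s)) V k s θ)
    (hΩ : IsOpen Ω) (hK : K ⊆ V) (hKm : MeasurableSet K) (hF : Measurable F) (h1 : 1 ≤ M₀)
    (hp : 0 < p) (h𝓩 : ∀ z ∈ zof P k P₁ s, (k, z) ∈ 𝓒) (hb : ∀ x ∈ K, ‖F x‖ ≤ b) {n₀ : ℕ}
    (hk : k ≤ n₀) (hn : ∀ i, (Y i ∩ K).Nonempty → n i = n₀) {O : ℕ → Set E3}
    (hO : ∀ i, Y i ⊆ O i) (hd : ∀ i i', i + 2 ≤ i' → Disjoint (O i) (O i'))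
    (hY : ∀ i, Disjoint (Y i) (cubes P₁ (3 * s / 4))) (hs' : 72 * (2:ℝ)⁻¹ ^ k ≤ s)
    {X : Set E3} (hX : ∀ φ, 𝓜.far φ → 𝓜.Q.cell φ ⊆ X) {L : ℝ≥0}
    (hL : ∀ i, 𝓜.Q.cell i ⊆ CoreZ P k (zof P k P₁ s) → LipschitzOnWith L g (𝓜.Q.cell i))
    {C δ : ℝ≥0∞} {t : 𝓜.Q.ι → ℝ≥0∞} {𝓐 : Set 𝓜.Q.ι} (hW : ∀ φ ∈ 𝓐, 𝓜.far φ →
      ¬ 𝓜.Q.cell φ ⊆ CoreZ P k (zof P k P₁ s) → (𝓜.src h1).W p g φ ≤
      C * (𝓜.rr φ * wint 𝓜.Q (fun x => ‖F x‖ₑ ^ p) φ) + t φ)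
    (ht : tot {φ | 𝓜.Q.dim φ = 2 ∧ 𝓜.far φ} (fun φ => 𝓜.wt Y n Y' k φ * t φ) ≤ δ) :
    tot ({φ | 𝓜.Q.dim φ = 2 ∧ 𝓜.far φ} ∩ 𝓐) (fun φ => wd 𝓜 Y n Y' k (deepc P₁ s (2 * θ)) φ *
      pot (𝓜.src h1) p g (cubes P₁ (s / 2)) φ) ≤
      672 * (M₀ : ℝ≥0∞) ^ 5 * ((M₀ : ℝ≥0∞) ^ p + 4 * M₀ ^ 2) * (L : ℝ≥0∞) ^ p *
        ENNReal.ofReal θ * volume V +
      C * (M₀ * LAM S₀ ς P.k₀ k O n X (Kᶜ.indicator fun x => ‖F x‖ₑ ^ p) P.w +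
        4 * (M₀ : ℝ≥0∞) ^ 6 * ENNReal.ofReal b ^ p *
          (8 * (ENNReal.ofReal (s ^ 3) * P₂.card) + 336 * ENNReal.ofReal θ * volume V)) + δ := by
  classical
  have h2 : ∀ i, ∀ x ∈ Y i, ∀ z ∈ zof P k P₁ s, dy P k x ∉ cthickening 17 (ucube z) :=
    fun i x hx z hz h3 => by
      obtain ⟨q, hq, h4⟩ := zof_near hz
      exact disjoint_left.1 (hY i) hx (mem_cubes.2 ⟨q, hq,
        (mem_closedBall.1 (h4 17 (by norm_num) h3)).trans (by linarith)⟩)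
  have h3 := h.ring 𝓜 hs hΩ h𝓩 h1 hp hL
  have h4 := h.wt_part 𝓜 (Y' := Y') hs hΩ hK h1 hk hn
    (fun i i' hi => (hd i i' hi).mono (hO i) (hO i')) (ENNReal.ofReal b ^ p)
  have h5 := 𝓜.wt_sum (A := {φ | 𝓜.Q.dim φ = 2 ∧ 𝓜.far φ}) n Y'
    (Kᶜ.indicator fun x => ‖F x‖ₑ ^ p) (fun φ hφ => ⟨hφ.2, hX φ hφ.2⟩) hO h2
  rw [tot_split _ {φ | 𝓜.Q.cell φ ⊆ CoreZ P k (zof P k P₁ s)}, add_assoc]
  refine add_le_add ?_ ?_
  · refine (tot_ind _ _ _ _).trans_le (((tot_mono (fun φ hφ => ?_) fun φ hφ => ?_).trans_eq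
      (tot_mul _ 2 _)).trans ((mul_le_mul_right h3 2).trans_eq (by ring)))
    · exact ⟨hφ.1.1.1.1, hφ.1.2, hφ.2⟩
    · rw [← mul_assoc]
      refine mul_le_mul' (wt_core 𝓜 h𝓩 h2 hφ.1.2) (add_le_add le_rfl ?_)
      split_ifs
      exacts [le_rfl, zero_le]
  · refine (tot_le (b := fun φ => C * (𝓜.wt Y n Y' k φ * (𝓜.rr φ * wint 𝓜.Q
      (Kᶜ.indicator fun x => ‖F x‖ₑ ^ p) φ) + 𝓜.wt Y n Y' k φ * (𝓜.rr φ * wint 𝓜.Q
        (K.indicator fun _ => ENNReal.ofReal b ^ p) φ)) + 𝓜.wt Y n Y' k φ * t φ)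
      fun φ hφ => ?_).trans ?_
    · have h6 := wint_le 𝓜.Q (G := fun x => ‖F x‖ₑ ^ p) (φ := φ)
        (G₂ := K.indicator fun _ => ENNReal.ofReal b ^ p)
        ((hF.enorm.pow_const p).indicator hKm.compl) fun x _ => by
          by_cases hx : x ∈ K
          · refine le_add_left (le_trans (ENNReal.rpow_le_rpow ?_ hp.le)
              (indicator_of_mem hx fun _ => ENNReal.ofReal b ^ p).ge)
            rw [← ofReal_norm]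
            exact ENNReal.ofReal_le_ofReal (hb x hx)
          · exact le_add_right (indicator_of_mem (s := Kᶜ) hx fun x => ‖F x‖ₑ ^ p).ge
      have h7 : pot (𝓜.src h1) p g (cubes P₁ (s / 2)) φ = (𝓜.src h1).W p g φ :=
        (congrArg _ (if_neg fun h7 => hφ.2 (Subset.trans h7 (cubes_sub P k P₁ s)))).trans
          (add_zero _)
      exact (mul_le_mul' (wd_le 𝓜 _ φ) ((h7.trans_le (hW φ hφ.1.2 hφ.1.1.2 hφ.2)).trans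
        (add_le_add (mul_le_mul_right (mul_le_mul_right h6 _) _) le_rfl))).trans_eq (by ring)
    · rw [tot_add, tot_mul, tot_add]
      refine add_le_add (mul_le_mul_right (add_le_add
        ((tot_subset (sdiff_subset.trans inter_subset_left) _).trans h5)
        ((tot_subset (fun φ hφ => ?_) _).trans h4)) _)
        ((tot_subset (sdiff_subset.trans inter_subset_left) _).trans ht)
      exact ⟨hφ.1.1.1, hφ.2⟩

/-- **the right hand side of the energy clause of the batches** -/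
theorem Sol.rhs' {ς : E3 → ℝ}
    (𝓜 : Mesh2 Ω P (size P ς k (zof P k P₁ s)) 𝓒 M₀ Mt S₀ S)
    (h : Sol p f F K V b τ (2⁻¹ ^ k) s w P₁ P₂ A) (hs : Sz P (size P ς k (zof P k P₁ s)) V k s θ)
    (hΩ : IsOpen Ω) (hK : K ⊆ V) (hKm : MeasurableSet K) (hF : Measurable F) (h1 : 1 ≤ M₀)
    (hp : 0 < p) (h𝓩 : ∀ z ∈ zof P k P₁ s, (k, z) ∈ 𝓒) (hb : ∀ x ∈ K, ‖F x‖ ≤ b) {n₀ : ℕ}
    (hk : k ≤ n₀) (hn : ∀ i, (Y i ∩ K).Nonempty → n i = n₀) {O : ℕ → Set E3}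
    (hO : ∀ i, Y i ⊆ O i) (hd : ∀ i i', i + 2 ≤ i' → Disjoint (O i) (O i'))
    (hY : ∀ i, Disjoint (Y i) (cubes P₁ (3 * s / 4))) (hs' : 72 * (2:ℝ)⁻¹ ^ k ≤ s)
    {X : Set E3} (hX : ∀ φ, 𝓜.far φ → 𝓜.Q.cell φ ⊆ X) {L : ℝ≥0}
    (hL : ∀ i, 𝓜.Q.cell i ⊆ CoreZ P k (zof P k P₁ s) → LipschitzOnWith L g (𝓜.Q.cell i))
    {C δ : ℝ≥0∞} {t : 𝓜.Q.ι → ℝ≥0∞} {𝓐 : Set 𝓜.Q.ι} (hW : ∀ φ ∈ 𝓐, 𝓜.far φ →
      ¬ 𝓜.Q.cell φ ⊆ CoreZ P k (zof P k P₁ s) → (𝓜.src h1).W p g φ ≤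
      C * (𝓜.rr φ * wint 𝓜.Q (fun x => ‖F x‖ₑ ^ p) φ) + t φ)
    (ht : tot {φ | 𝓜.Q.dim φ = 2 ∧ 𝓜.far φ} (fun φ => 𝓜.wt Y n Y' k φ * t φ) ≤ δ)
    {G : Fin P.N → Set E3} (hG : ∀ j, P.U j ⊆ G j) (hG' : ∀ j, Disjoint V (G j)) {X' : Set E3}
    (hX' : ∀ φ j, 𝓜.far φ → (𝓜.Q.cell φ ∩ G j).Nonempty → 𝓜.Q.cell φ ⊆ X') (Cu : ℝ≥0∞)
    (Ct : Fin P.N → ℝ≥0∞) :
    Cu * tot {φ | 𝓜.Q.dim φ = 2 ∧ ∀ j, φ ∉ nrc 𝓜 j}
        (fun φ => 𝓐.indicator (wf 𝓜 Y n Y' k (deepc P₁ s (2 * θ)) Γ) φ *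
          pot (𝓜.src h1) p g (cubes P₁ (s / 2)) φ) +
      ∑ j, Ct j * tot {φ | 𝓜.Q.dim φ = 2 ∧ (∀ j, φ ∉ nrc 𝓜 j) ∧ (𝓜.Q.cell φ ∩ G j).Nonempty}
        (fun φ => 𝓐.indicator (wf 𝓜 Y n Y' k (deepc P₁ s (2 * θ)) Γ) φ * (𝓜.src h1).W p g φ) ≤
      Cu * (672 * (M₀ : ℝ≥0∞) ^ 5 * ((M₀ : ℝ≥0∞) ^ p + 4 * M₀ ^ 2) * (L : ℝ≥0∞) ^ p *
          ENNReal.ofReal θ * volume V +
        C * (M₀ * LAM S₀ ς P.k₀ k O n X (Kᶜ.indicator fun x => ‖F x‖ₑ ^ p) P.w +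
          4 * (M₀ : ℝ≥0∞) ^ 6 * ENNReal.ofReal b ^ p *
            (8 * (ENNReal.ofReal (s ^ 3) * P₂.card) + 336 * ENNReal.ofReal θ * volume V)) + δ) +
      (Cu * Γ + (∑ j, Ct j) * (1 + Γ)) *
        (C * (M₀ * LAM S₀ ς P.k₀ k O n X' (fun x => ‖F x‖ₑ ^ p) P.w) + δ) := by
  classical
  have h2 := h.far_total' 𝓜 hs hΩ hK hKm hF h1 hp h𝓩 hb hk hn hO hd hY hs' hX hL hW ht
  have h0 : (0:ℝ) < 2⁻¹ ^ k := by positivity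
  have h3 : tot ({φ | 𝓜.Q.dim φ = 2 ∧ 𝓜.far φ ∧ ∃ j, (𝓜.Q.cell φ ∩ G j).Nonempty} ∩ 𝓐)
      (fun φ => 𝓜.wt Y n Y' k φ * (𝓜.src h1).W p g φ) ≤
      C * (M₀ * LAM S₀ ς P.k₀ k O n X' (fun x => ‖F x‖ₑ ^ p) P.w) + δ := by
    refine (tot_le (b := fun φ => C * (𝓜.wt Y n Y' k φ * (𝓜.rr φ * wint 𝓜.Q
      (fun x => ‖F x‖ₑ ^ p) φ)) + 𝓜.wt Y n Y' k φ * t φ) fun φ hφ => ?_).trans ?_
    · obtain ⟨⟨-, a, j, x, hx, c⟩, d⟩ := hφ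
      exact (mul_le_mul_right (hW φ d a fun e => disjoint_left.1 (hG' j) (h.cubes_V (by linarith)
        (core_sub P k P₁ s (e hx))) c) _).trans_eq (by ring)
    rw [tot_add, tot_mul]
    refine add_le_add (mul_le_mul_right (𝓜.wt_sum n Y' _ (fun φ hφ => ?_)
      hO fun i x hx z hz h3 => ?_) _) ((tot_subset (fun φ hφ => ?_) _).trans ht)
    · exact ⟨hφ.1.2.1, hφ.1.2.2.elim fun j => hX' φ j hφ.1.2.1⟩
    · obtain ⟨q, hq, h4⟩ := zof_near hz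
      exact disjoint_left.1 (hY i) hx (mem_cubes.2 ⟨q, hq,
        (mem_closedBall.1 (h4 17 (by norm_num) h3)).trans (by linarith)⟩)
    · exact ⟨hφ.1.1, hφ.1.2.1⟩
  simp only [far_iff]
  rw [add_mul, ← add_assoc, mul_assoc Cu Γ, ← mul_add, mul_assoc (∑ j, Ct j), Finset.sum_mul]
  refine add_le_add (mul_le_mul_right ((tot_ind _ _ _ _).trans_le ?_) _)
    (Finset.sum_le_sum fun j _ => mul_le_mul_right ((tot_ind _ _ _ _).trans_le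
      (le_trans (tot_mono (fun φ hφ => ?_) fun φ _ => ?_) ((tot_mul _ _ _).trans_le
        (mul_le_mul_right h3 _)))) _)
  · simp only [wf, add_mul, tot_add]
    refine add_le_add h2 ((tot_ind _ _ _ _).trans_le (le_trans (tot_mono
      (fun φ ⟨a, j, c⟩ => ?_) fun φ ⟨a, j, x, hx, c⟩ => ?_) ((tot_mul _ _ _).trans_le
        (mul_le_mul_right h3 _))))
    · exact ⟨⟨a.1.1, a.1.2, j, c.mono (inter_subset_inter_right _ (hG j))⟩, a.2⟩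
    · have h7 : pot (𝓜.src h1) p g (cubes P₁ (s / 2)) φ = (𝓜.src h1).W p g φ :=
        (congrArg _ (if_neg fun h7 =>
          (hs.size x (h.cubes_V (by linarith [hs.pos]) (h7 hx))).2 j c)).trans (add_zero _)
      rw [h7]
      exact (mul_assoc _ _ _).trans_le
        (mul_le_mul_right (mul_le_mul_left (𝓜.rr_le_wt Y n Y' k φ) _) _)
  · exact ⟨⟨hφ.1.1, hφ.1.2.1, j, hφ.1.2.2⟩, hφ.2⟩
  · rw [← mul_assoc]
    exact mul_le_mul_left (wf_le 𝓜 φ) _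

end Gc

end P073
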