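import Vale.Agent.P073Y.Gc.Core
import Vale.Agent.P073Y.Ms.Src
import Vale.Agent.P073Z.ACC.Tools
import Vale.Agent.P073Z.EN.B

/-!
# Counting far cells by volumes
-/

open Set Metric Topology Filter MeasureTheory
open scoped ENNReal NNReal

namespace P073

namespace Gc

open Me (dy)
open An (M3)
open Bd (Chart)
open M2 Zn

theorem tot_meas {ι : Type} [Countable ι] (μ : Measure E3) {A : Set ι} {C : ι → Set E3}
    {Y : Set E3} {M : ℝ≥0∞} (h : ∀ i ∈ A, MeasurableSet (C i) ∧ C i ⊆ Y)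
    (hM : ∀ x, ({i ∈ A | x ∈ C i}.encard : ℝ≥0∞) ≤ M) : tot A (fun i => μ (C i)) ≤ M * μ Y := by
  have h1 : ∀ i : A, μ (C i) = ∫⁻ x in Y, (C i).indicator 1 x ∂μ := fun i => by
    rw [lintegral_indicator_one (h i i.2).1, Measure.restrict_eq_self μ (h i i.2).2]
  rw [tot_eq_subtype, tsum_congr h1, ← lintegral_tsum fun i : A =>
    (measurable_one.indicator (h i i.2).1).aemeasurable, ← setLIntegral_const]
  refine lintegral_mono fun x => ?_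
  have h2 := tot_const_le (A := A ∩ {i | x ∈ C i}) (a := fun _ => (1 : ℝ≥0∞)) fun _ _ => le_rfl
  rw [← tot_indicator, tot_eq_subtype, mul_one] at h2
  exact h2.trans (hM x)

theorem hm_ball (n : ℕ) : μH[(n : ℝ)] (closedBall (0 : Fin n → ℝ) 1) = 2 ^ n := by
  have := hausdorffMeasure_pi_real (ι := Fin n)
  rw [Fintype.card_fin] at this
  rw [this, Real.volume_pi_closedBall _ zero_le_one, Fintype.card_fin, mul_one,
    ENNReal.ofReal_pow zero_le_two, ENNReal.ofReal_ofNat]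

theorem chart_meas {n : ℕ} {C B : Set E3} {M₁ M₂ : ℝ≥0} (h : Chart n C B M₁ M₂) :
    2 ^ n ≤ (M₁ : ℝ≥0∞) ^ n * μH[(n : ℝ)] C ∧ μH[(n : ℝ)] C ≤ (M₂ : ℝ≥0∞) ^ n * 2 ^ n := by
  obtain ⟨-, φ, -, h1, h2⟩ := h
  have h3 := h1.hausdorffMeasure_image_le (Nat.cast_nonneg n)
  have h4 := h2.hausdorffMeasure_image_le (Nat.cast_nonneg n)
  have e1 : φ.invFun '' closedBall 0 1 = C := φ.symm.image_eq
  rw [φ.image_eq, hm_ball, ENNReal.rpow_natCast] at h3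
  rw [e1, hm_ball, ENNReal.rpow_natCast] at h4
  exact ⟨h3, h4⟩

theorem pl_meas {s : ℝ} (hs : 0 < s) (w : E3) {Y Y' : Set E3} (hb : Bornology.IsBounded Y)
    (h : ∀ x ∈ Y, closedBall x (2 * s) ⊆ Y') :
    ENNReal.ofReal s * μH[((2 : ℕ) : ℝ)] (plns w s ∩ Y) ≤ 3 * volume Y' := by
  classical
  have hL : LipschitzWith s.toNNReal fun ξ : E3 => w + s • ξ := LipschitzWith.of_dist_le' fun a c =>
    by rw [dist_add_left, dist_smul₀, Real.norm_of_nonneg hs.le]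
  have hL' : LipschitzWith s⁻¹.toNNReal fun x : E3 => s⁻¹ • (x - w) :=
    LipschitzWith.of_dist_le' fun a c => by
      rw [dist_smul₀, dist_sub_right, Real.norm_of_nonneg (inv_pos.2 hs).le]
  have e : ∀ x : E3, w + s • s⁻¹ • (x - w) = x := fun x => by
    rw [smul_inv_smul₀ hs.ne', add_sub_cancel]
  obtain ⟨Z, hZ⟩ := (Me.finite_cubes (hL'.isBounded_image hb)).exists_finset
  have h1 : plns w s ∩ Y ⊆ ⋃ z ∈ Z, ⋃ i, (fun ξ : E3 => w + s • ξ) '' uface z {i} := by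
    rintro x ⟨⟨i, m, hm⟩, hx⟩
    refine mem_biUnion ((hZ _).2 ⟨_, Me.floor_mem _, x, hx, rfl⟩)
      (mem_iUnion.2 ⟨i, _, ⟨Me.floor_mem _, fun l hl => ?_⟩, e x⟩)
    have h2 : (s⁻¹ • (x - w)) i = m := by
      rw [Pi.smul_apply, Pi.sub_apply, hm, smul_eq_mul]
      field_simp
      ring
    simp only [Finset.mem_singleton.1 hl, h2, Int.floor_intCast]
  have h2 : ∀ z i, μH[((2 : ℕ) : ℝ)] ((fun ξ : E3 => w + s • ξ) '' uface z {i}) ≤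
      ENNReal.ofReal s ^ 2 := fun z i => by
    refine (hL.hausdorffMeasure_image_le (Nat.cast_nonneg _) _).trans ?_
    rw [ENNReal.rpow_natCast]
    exact mul_le_of_le_one_right' (AT.ena6 z {i})
  have h3 : Function.Injective fun (z : Fin 3 → ℤ) (i : Fin 3) => w i + z i * s := fun z z' hz =>
    funext fun i => by simpa [hs.ne'] using congrFun hz i
  have h4 := lcount (w := w) hs (Z.image fun (z : Fin 3 → ℤ) (i : Fin 3) => w i + z i * s)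
    (Y := Y') (fun v hv i => by
      obtain ⟨z, -, rfl⟩ := Finset.mem_image.1 hv
      exact ⟨z i, rfl⟩) fun v hv u hu => by
      obtain ⟨z, hz, rfl⟩ := Finset.mem_image.1 hv
      obtain ⟨_, h5, x, hx, rfl⟩ := (hZ z).1 hz
      have h6 := hL.dist_le_mul (fun i => (z i : ℝ)) (s⁻¹ • (x - w))
      have h7 := mul_le_mul_of_nonneg_left (Me.dist_ucube (ξ := fun i => (z i : ℝ))
        (Me.mem_ucube.2 fun i => ⟨le_rfl, by linarith⟩) h5) hs.le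
      rw [e, Real.coe_toNNReal _ hs.le, show w + s • (fun i => (z i : ℝ)) =
        fun i => w i + z i * s from funext fun i => by simp [mul_comm]] at h6
      refine h x hx (mem_closedBall.2 ?_)
      linarith [dist_triangle u (fun i => w i + z i * s) x, mem_ball.1 hu]
  rw [Finset.card_image_of_injective _ h3] at h4
  refine (mul_le_mul_right ((measure_mono h1).trans ((measure_biUnion_finset_le _ _).trans
    (Finset.sum_le_card_nsmul _ _ (3 * ENNReal.ofReal s ^ 2) fun z _ =>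
      (measure_iUnion_fintype_le _ _).trans ((Finset.sum_le_card_nsmul _ _ _ fun i _ =>
        h2 z i).trans_eq (by simp))))) _).trans (le_trans (le_of_eq ?_) (mul_le_mul_right h4 3))
  rw [nsmul_eq_mul, ENNReal.ofReal_pow hs.le]
  ring

variable {Ω : Set E3} {P : Par} {σ : E3 → ℝ} {𝓒 : Set (ℕ × (Fin 3 → ℤ))} {M₀ : ℝ≥0}
  {Mt : Ty → ℕ → ℝ≥0} {S₀ : Set E3} {S : Ty → ℕ → Set E3} (𝓜 : Mesh2 Ω P σ 𝓒 M₀ Mt S₀ S)
  {Y Y' : Set E3} {d : ℝ}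

/-- the scale of a cell -/
noncomputable def rr (i : 𝓜.Q.ι) : ℝ≥0∞ := ((2⁻¹ ^ 𝓜.kf i : ℝ≥0) : ℝ≥0∞)

theorem far_meas {i : 𝓜.Q.ι} (hi : 𝓜.far i) {n : ℕ} (hn : 𝓜.Q.dim i = n) :
    rr 𝓜 i ^ n * 2 ^ n ≤ (M₀ : ℝ≥0∞) ^ n * μH[(n : ℝ)] (𝓜.Q.cell i) ∧
      μH[(n : ℝ)] (𝓜.Q.cell i) ≤ (M₀ : ℝ≥0∞) ^ n * rr 𝓜 i ^ n * 2 ^ n := by
  obtain ⟨h1, h2⟩ := chart_meas (𝓜.chartI i i Subset.rfl)
  rw [𝓜.MI_far i hi, hn] at h1 h2
  refine ⟨(mul_le_mul_right h1 _).trans_eq ?_, by rwa [ENNReal.coe_mul, mul_pow] at h2⟩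
  rw [← mul_assoc, ← mul_pow, rr, ← ENNReal.coe_mul, mul_div_cancel₀ _ (by positivity)]

theorem far_ball (hY : ∀ x ∈ Y, σ x ≤ d ∧ ∀ j, x ∉ P.U j) {i : 𝓜.Q.ι} {x : E3}
    (hx : x ∈ 𝓜.Q.cell i) (hx' : x ∈ Y) : 𝓜.far i ∧ 𝓜.Q.cell i ⊆ closedBall x (2 * d) := by
  have h := 𝓜.far_of hx (hY x hx').2
  refine ⟨h, fun y hy => mem_closedBall.2 ?_⟩
  have h2 : (0:ℝ) < 2⁻¹ ^ 𝓜.kf i := by positivity
  linarith [𝓜.far_diam i h y hy x hx, (𝓜.zone i x hx).1, (hY x hx').1]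

theorem far_faces {i : 𝓜.Q.ι} (hi : 𝓜.far i) :
    ({l | 𝓜.Q.cell l ⊆ 𝓜.Q.cell i}.encard : ℝ≥0∞) ≤ M₀ :=
  (𝓜.faces i).trans (ENNReal.coe_le_coe.2 ((𝓜.M_le i).2.trans (𝓜.MI_far i hi).le))

/-- **the cells meeting `Y`** -/
theorem far_vol (hΩ : IsOpen Ω) (hY : ∀ x ∈ Y, σ x ≤ d ∧ ∀ j, x ∉ P.U j)
    (hY' : ∀ x ∈ Y, closedBall x (2 * d) ⊆ Y') :
    tot {φ | (𝓜.Q.cell φ ∩ Y).Nonempty} (fun φ => rr 𝓜 φ ^ 3) ≤ (M₀ : ℝ≥0∞) ^ 5 * volume Y' := by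
  have := 𝓜.Q.countable
  choose c hc hc' using TP.exists_top 𝓜.cvx (𝓜.carrier.symm ▸ hΩ)
  have h1 : ∀ φ ∈ {φ | (𝓜.Q.cell φ ∩ Y).Nonempty}, 𝓜.far (c φ) ∧ 𝓜.Q.cell (c φ) ⊆ Y' :=
    fun φ ⟨x, hx, hx'⟩ => let h := far_ball 𝓜 hY (hc' φ hx) hx'; ⟨h.1, h.2.trans (hY' x hx')⟩
  have h2 := tot_meas volume (C := fun φ => 𝓜.Q.cell (c φ)) (M := M₀ * M₀) (fun φ hφ =>
    ⟨(𝓜.Q.isClosed_cell _).measurableSet, (h1 φ hφ).2⟩) fun x => by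
      refine le_trans (Gd.enc_mono fun φ hφ => ?_) ((Gd.enc_mul {l | x ∈ 𝓜.Q.cell l ∧ 𝓜.far l}
        fun l hl => far_faces 𝓜 hl.2).trans (mul_le_mul_right
          ((Gd.enc_mono fun l hl => hl.1).trans (𝓜.mult x)) _))
      exact mem_biUnion (show c φ ∈ {l | x ∈ 𝓜.Q.cell l ∧ 𝓜.far l} from ⟨hφ.2, (h1 φ hφ.1).1⟩)
        (hc' φ)
  refine (tot_le (b := fun φ => (M₀ : ℝ≥0∞) ^ 3 * volume (𝓜.Q.cell (c φ))) fun φ hφ => ?_).trans ?_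
  · have h3 := (far_meas 𝓜 (h1 φ hφ).1 (hc φ)).1
    have h4 := hausdorffMeasure_pi_real (ι := Fin 3)
    rw [Fintype.card_fin] at h4
    rw [h4, ← mul_pow] at h3
    refine (pow_le_pow_left' ?_ 3).trans h3
    obtain ⟨x, hx⟩ := 𝓜.Q.cell_nonempty φ
    have h5 : (2⁻¹ : ℝ≥0) ^ (𝓜.kf φ + 1) ≤ 2⁻¹ ^ 𝓜.kf (c φ) :=
      pow_le_pow_of_le_one zero_le (by norm_num) (𝓜.kf_face φ (c φ) ⟨x, hc' φ hx, hx⟩)
    rw [pow_succ, ← div_eq_mul_inv, div_le_iff₀ two_pos] at h5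
    exact ENNReal.coe_le_coe.2 h5
  · rw [tot_mul]
    exact (mul_le_mul_right h2 _).trans_eq (by ring)

/-- **the faces on lattice planes meeting `Y`** -/
theorem far_pl (hY : ∀ x ∈ Y, σ x ≤ d ∧ ∀ j, x ∉ P.U j) (hb : Bornology.IsBounded Y) {s : ℝ}
    (hs : 0 < s) (w : E3) (hY' : ∀ x ∈ Y, closedBall x (2 * d + 2 * s) ⊆ Y') :
    tot {φ | 𝓜.Q.dim φ = 2 ∧ (𝓜.Q.cell φ ∩ Y).Nonempty ∧ 𝓜.Q.cell φ ⊆ plns w s}
      (fun φ => ENNReal.ofReal s * rr 𝓜 φ ^ 2) ≤ (M₀ : ℝ≥0∞) ^ 3 * volume Y' := by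
  have := 𝓜.Q.countable
  have h1 := pl_meas hs w (Y := {u | ∃ x ∈ Y, dist u x ≤ 2 * d}) (Y' := Y')
    ((hb.cthickening (δ := 2 * d)).subset fun u ⟨x, hx, h⟩ => mem_cthickening_of_dist_le u x _ _ hx h)
    fun u ⟨x, hx, h⟩ => (closedBall_subset_closedBall' (by linarith)).trans (hY' x hx)
  have h2 := tot_meas μH[((2 : ℕ) : ℝ)] (C := 𝓜.Q.cell) (M := M₀)
    (A := {φ | 𝓜.Q.dim φ = 2 ∧ (𝓜.Q.cell φ ∩ Y).Nonempty ∧ 𝓜.Q.cell φ ⊆ plns w s})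
    (Y := plns w s ∩ {u | ∃ x ∈ Y, dist u x ≤ 2 * d})
    (fun φ ⟨_, ⟨x, hx, hx'⟩, h⟩ => ⟨(𝓜.Q.isClosed_cell _).measurableSet, fun u hu =>
      ⟨h hu, x, hx', (far_ball 𝓜 hY hx hx').2 hu⟩⟩)
    fun x => (Gd.enc_mono fun l hl => hl.2).trans (𝓜.mult x)
  rw [← ENNReal.mul_le_mul_iff_left (c := 2 ^ 2) (by norm_num) (by norm_num), ← tot_mul']
  refine (tot_le (b := fun φ => ENNReal.ofReal s * (M₀ : ℝ≥0∞) ^ 2 * μH[((2 : ℕ) : ℝ)] (𝓜.Q.cell φ))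
    fun φ hφ => ?_).trans ?_
  · obtain ⟨h3, ⟨x, hx, hx'⟩, -⟩ := hφ
    rw [mul_assoc, mul_assoc]
    exact mul_le_mul_right (far_meas 𝓜 (far_ball 𝓜 hY hx hx').1 h3).1 _
  · rw [tot_mul]
    calc _ ≤ _ := mul_le_mul_right h2 _
      _ = (M₀ : ℝ≥0∞) ^ 3 * (ENNReal.ofReal s * _) := by ring
      _ ≤ (M₀ : ℝ≥0∞) ^ 3 * (2 ^ 2 * volume Y') :=
        mul_le_mul_right (h1.trans (mul_le_mul_left (by norm_num) _)) _
      _ = _ := by ring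

end Gc

end P073
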